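import Mathlib

/-!
Circle averages of products of two series in integer powers.
-/

noncomputable section

open MeasureTheory Metric
open scoped Real ComplexConjugate

namespace Vale.Agent.P142

lemma average_conj_zpow_mul {s : ℝ} (hs : 0 < s) (m n : ℤ) :
    (∫ θ in (0 : ℝ)..2 * π, conj (circleMap 0 s θ ^ m) * circleMap 0 s θ ^ n) =
      if m = n then ((2 * π * s ^ (2 * m) : ℝ) : ℂ) else 0 := by
  have e : ∀ θ : ℝ, conj (circleMap 0 s θ ^ m) * circleMap 0 s θ ^ n =
      ((s ^ (m + n) : ℝ) : ℂ) * Complex.exp ((((n - m : ℤ) : ℂ) * Complex.I) * θ) := by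
    intro θ
    have h0 : (s : ℂ) ≠ 0 := Complex.ofReal_ne_zero.2 hs.ne'
    simp only [circleMap, zero_add, map_zpow₀, map_mul, Complex.conj_ofReal, ← Complex.exp_conj,
      Complex.conj_I, mul_zpow, ← Complex.exp_int_mul]
    rw [mul_mul_mul_comm, ← zpow_add₀ h0, ← Complex.exp_add, Complex.ofReal_zpow]
    congr 2
    push_cast
    simp only [map_intCast]
    ring
  simp only [e, intervalIntegral.integral_const_mul]
  split_ifs with h
  · subst h
    simp [two_mul]
    ring
  · have hne : (((n - m : ℤ) : ℂ) * Complex.I) ≠ 0 :=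
      mul_ne_zero (Int.cast_ne_zero.2 (sub_ne_zero.2 (Ne.symm h))) Complex.I_ne_zero
    rw [integral_exp_mul_complex hne]
    have : Complex.exp (((n - m : ℤ) : ℂ) * Complex.I * ((2 * π : ℝ) : ℂ)) = 1 := by
      rw [← Complex.exp_int_mul_two_pi_mul_I (n - m)]
      congr 1
      push_cast
      ring
    rw [this]
    simp

lemma cross_hasSum {ι : Type*} {A B : ι → ℂ} {a b : ℂ} (hA : HasSum A a) (hB : HasSum B b)
    (hs : Summable fun p : ι × ι => conj (A p.1) * B p.2) :
    HasSum (fun p : ι × ι => conj (A p.1) * B p.2) (conj a * b) :=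
  HasSum.mul (f := fun i => conj (A i)) (g := B)
    (hA.map (starRingEnd ℂ) Complex.continuous_conj) hB hs

/-- Orthogonality for two absolutely convergent series on a circle. -/
theorem average_series {ι : Type*} [Countable ι] {e : ι → ℤ} (he : Function.Injective e)
    {c d : ι → ℂ} {s : ℝ} (hs : 0 < s) (hc : Summable fun i => ‖c i‖ * s ^ e i)
    (hd : Summable fun i => ‖d i‖ * s ^ e i) {u v : ℂ → ℂ}
    (hu : ∀ θ, HasSum (fun i => c i * circleMap 0 s θ ^ e i) (u (circleMap 0 s θ)))
    (hv : ∀ θ, HasSum (fun i => d i * circleMap 0 s θ ^ e i) (v (circleMap 0 s θ))) :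
    HasSum (fun i => ((2 * π * s ^ (2 * e i) : ℝ) : ℂ) * (conj (c i) * d i))
      (∫ θ in (0 : ℝ)..2 * π, conj (u (circleMap 0 s θ)) * v (circleMap 0 s θ)) := by
  classical
  obtain ⟨F, hF⟩ : ∃ F : ι × ι → ℝ → ℂ, ∀ p θ, F p θ = conj (c p.1) * d p.2 *
      (conj (circleMap 0 s θ ^ e p.1) * circleMap 0 s θ ^ e p.2) := ⟨_, fun _ _ => rfl⟩
  obtain ⟨M, hM⟩ : ∃ M : ι × ι → ℝ, ∀ p, M p = ‖c p.1‖ * s ^ e p.1 * (‖d p.2‖ * s ^ e p.2) :=
    ⟨_, fun _ => rfl⟩
  have hb : Summable M := (hc.mul_of_nonneg hd (fun i => by positivity)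
    (fun i => by positivity)).congr fun p => (hM p).symm
  have hFn : ∀ p θ, ‖F p θ‖ = M p := fun p θ => by
    rw [hF, hM, norm_mul, norm_mul, norm_mul, RCLike.norm_conj, RCLike.norm_conj, norm_zpow,
      norm_zpow, norm_circleMap_zero, abs_of_pos hs]
    ring
  have hsum : ∀ θ, HasSum (fun p => F p θ)
      (conj (u (circleMap 0 s θ)) * v (circleMap 0 s θ)) := fun θ => by
    have hsm : Summable fun p => F p θ := Summable.of_norm (hb.congr fun p => (hFn p θ).symm)
    have e' : (fun p : ι × ι => conj (c p.1 * circleMap 0 s θ ^ e p.1) *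
        (d p.2 * circleMap 0 s θ ^ e p.2)) = fun p => F p θ := by
      funext p
      rw [hF, map_mul]
      ring
    have hs2 : Summable fun p : ι × ι => conj (c p.1 * circleMap 0 s θ ^ e p.1) *
        (d p.2 * circleMap 0 s θ ^ e p.2) := hsm.congr fun p => (congrFun e' p).symm
    have := cross_hasSum (A := fun i => c i * circleMap 0 s θ ^ e i)
      (B := fun i => d i * circleMap 0 s θ ^ e i) (hu θ) (hv θ) hs2
    exact this.congr_fun fun p => (congrFun e' p).symm
  have hmeas : ∀ p, Continuous (F p) := by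
    intro p
    have hne : ∀ θ, circleMap 0 s θ ≠ 0 := fun θ => circleMap_ne_center hs.ne'
    have hz : ∀ k : ℤ, Continuous fun θ => circleMap 0 s θ ^ k := fun k =>
      (continuous_circleMap 0 s).zpow₀ k fun θ => Or.inl (hne θ)
    rw [show F p = fun θ => conj (c p.1) * d p.2 *
      (conj (circleMap 0 s θ ^ e p.1) * circleMap 0 s θ ^ e p.2) from funext (hF p)]
    exact continuous_const.mul ((Complex.continuous_conj.comp (hz _)).mul (hz _))
  have h := intervalIntegral.hasSum_integral_of_dominated_convergence (a := 0) (b := 2 * π)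
    (μ := volume) (fun p _ => M p) (fun p => (hmeas p).aestronglyMeasurable)
    (fun p => ae_of_all _ fun θ _ => (hFn p θ).le) (ae_of_all _ fun θ _ => hb)
    intervalIntegrable_const (ae_of_all _ fun θ _ => hsum θ)
  have hint : (fun p : ι × ι => ∫ θ in (0 : ℝ)..2 * π, F p θ) = fun p =>
      conj (c p.1) * d p.2 * (if e p.1 = e p.2 then ((2 * π * s ^ (2 * e p.1) : ℝ) : ℂ) else 0) := by
    funext p
    rw [intervalIntegral.integral_congr fun θ _ => hF p θ, intervalIntegral.integral_const_mul,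
      average_conj_zpow_mul hs]
  rw [hint] at h
  have hdiag : Function.Injective fun i : ι => (i, i) := fun a b h => congrArg Prod.fst h
  have h2 := (hdiag.hasSum_iff ?_).2 h
  · refine h2.congr_fun fun i => ?_
    simp only [Function.comp_apply, if_true]
    ring
  · rintro ⟨i, j⟩ hij
    have : e i ≠ e j := fun h => hij ⟨i, by rw [he h]⟩
    simp [this]

/-- Taylor coefficients with a bounded geometric majorant. -/
theorem taylor_data {R : ℂ → ℂ} (hR : DifferentiableOn ℂ R (ball 0 1)) :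
    ∃ r : ℕ → ℂ, (∀ s : ℝ, 0 ≤ s → s < 1 → Summable fun n : ℕ => ((n : ℝ) + 1) * ‖r n‖ * s ^ n) ∧
      (∀ z ∈ ball (0 : ℂ) 1, HasSum (fun n => r n * z ^ n) (R z)) ∧
      ∀ z ∈ ball (0 : ℂ) 1, HasSum (fun n : ℕ => (n : ℂ) * r n * z ^ n) (z * deriv R z) := by
  refine ⟨fun n => (n.factorial : ℂ)⁻¹ * iteratedDeriv n R 0, ?_, ?_, ?_⟩
  · intro s hs0 hs1
    obtain ⟨q, hq, hq1⟩ := exists_between hs1
    have hq0 : 0 < q := lt_of_le_of_lt hs0 hq
    have hz : (q : ℂ) ∈ ball (0 : ℂ) 1 := by simp [abs_of_pos hq0, hq1]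
    have h := (Complex.hasSum_taylorSeries_on_ball hR hz).summable.tendsto_atTop_zero
    obtain ⟨C, hC⟩ := (Metric.isBounded_range_of_tendsto _ h).exists_norm_le
    refine Summable.of_nonneg_of_le (fun n => by positivity) (fun n => ?_)
      ((((summable_pow_mul_geometric_of_norm_lt_one 1 (r := s / q) (by
        rw [Real.norm_eq_abs, abs_of_nonneg (by positivity), div_lt_one hq0]; exact hq)).add
        (summable_geometric_of_lt_one (r := s / q) (by positivity)
          ((div_lt_one hq0).2 hq))).mul_left C))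
    have h1 := hC _ ⟨n, rfl⟩
    simp only [sub_zero, smul_eq_mul, norm_mul, norm_pow, Complex.norm_real, Real.norm_eq_abs,
      abs_of_pos hq0] at h1
    rw [norm_mul, pow_one, ← add_one_mul, div_pow]
    calc (n + 1 : ℝ) * (‖((n.factorial : ℂ))⁻¹‖ * ‖iteratedDeriv n R 0‖) * s ^ n
        = (n + 1 : ℝ) * ((‖((n.factorial : ℂ))⁻¹‖ * (q ^ n * ‖iteratedDeriv n R 0‖)) *
          (s ^ n / q ^ n)) := by field_simp
      _ ≤ (n + 1 : ℝ) * (C * (s ^ n / q ^ n)) := by gcongr
      _ = _ := by ring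
  · intro z hz
    refine (Complex.hasSum_taylorSeries_on_ball hR hz).congr_fun fun n => ?_
    simp [smul_eq_mul]
    ring
  · intro z hz
    have h := (Complex.hasSum_taylorSeries_on_ball (hR.deriv isOpen_ball) hz).mul_left z
    have h1 : HasSum (fun n => ((n + 1 : ℕ) : ℂ) * (((n + 1).factorial : ℂ)⁻¹ *
        iteratedDeriv (n + 1) R 0) * z ^ (n + 1)) (z * deriv R z) := by
      refine h.congr_fun fun n => ?_
      rw [iteratedDeriv_succ', Nat.factorial_succ]
      simp [smul_eq_mul]
      field_simp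
      ring
    simpa using (hasSum_nat_add_iff (f := fun n => (n : ℂ) * ((n.factorial : ℂ)⁻¹ *
      iteratedDeriv n R 0) * z ^ n) 1).1 h1

end Vale.Agent.P142
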