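import Vale.Agent.P142.AreaThm
import Vale.Agent.P142.CircleSeries

/-!
The area theorem for an entire function of a univalent map with a pole: if `H` is injective on
the punctured disc, large near `0`, and the Laurent expansion of `P ∘ H` has principal part
`∑ y j t^(-(j+1))`, then the weighted coefficients of the regular part are dominated by it.
-/

noncomputable section

open Set Filter MeasureTheory Metric Function
open scoped Topology Real ComplexConjugate

namespace Vale.Agent.P142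

/-- The Cauchy–Riemann operator. -/
def dbar (g : ℂ → ℂ) (w : ℂ) : ℂ := (fderiv ℝ g w 1 + Complex.I * fderiv ℝ g w Complex.I) / 2

lemma integral_dbar_eq_zero {g : ℂ → ℂ} (hg : ContDiff ℝ 1 g) (hc : HasCompactSupport g) :
    ∫ w, dbar g w = 0 := by
  have hd : ∀ v : ℂ, Continuous fun w => fderiv ℝ g w v := fun v =>
    (hg.continuous_fderiv one_ne_zero).clm_apply continuous_const
  have hcs : ∀ v : ℂ, HasCompactSupport fun w => fderiv ℝ g w v := fun v =>
    hc.fderiv_apply ℝ v
  have hi : ∀ v : ℂ, Integrable fun w => fderiv ℝ g w v := fun v =>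
    (hd v).integrable_of_hasCompactSupport (hcs v)
  have h0 : ∀ v : ℂ, ∫ w, fderiv ℝ g w v = 0 := by
    intro v
    have := integral_mul_fderiv_eq_neg_fderiv_mul_of_integrable (μ := (volume : Measure ℂ))
      (f := fun _ : ℂ => (1 : ℂ)) (g := g) (v := v) (by simp) (by simpa using hi v)
      (by simpa using hg.continuous.integrable_of_hasCompactSupport hc)
      (fun _ _ => differentiableAt_const _) (fun x _ => hg.differentiable one_ne_zero x)
    simpa using this
  simp only [dbar]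
  rw [integral_div, integral_add (hi 1) ((hi Complex.I).const_mul _), integral_const_mul, h0, h0]
  simp

/-- The cut-off, as a function on the parameter disc. -/
def bump (r1 r2 : ℝ) (t : ℂ) : ℝ := Real.smoothTransition ((‖t‖ - r1) / (r2 - r1))

/-- The derivative of the radial profile of `bump`. -/
def bump' (r1 r2 s : ℝ) : ℝ :=
  deriv (fun u => Real.smoothTransition ((u - r1) / (r2 - r1))) s

lemma bump_zero {r1 r2 : ℝ} (h : r1 < r2) {t : ℂ} (ht : ‖t‖ ≤ r1) : bump r1 r2 t = 0 :=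
  Real.smoothTransition.zero_of_nonpos (div_nonpos_of_nonpos_of_nonneg (by linarith) (by linarith))

lemma bump_one {r1 r2 : ℝ} (h : r1 < r2) {t : ℂ} (ht : r2 ≤ ‖t‖) : bump r1 r2 t = 1 :=
  Real.smoothTransition.one_of_one_le ((one_le_div (by linarith)).2 (by linarith))

lemma bump_contDiffAt {r1 r2 : ℝ} {t : ℂ} (ht : t ≠ 0) : ContDiffAt ℝ 1 (bump r1 r2) t :=
  Real.smoothTransition.contDiffAt.comp t
    ((((contDiffAt_norm ℝ ht).sub contDiffAt_const)).div_const _)

lemma profile_contDiff {r1 r2 : ℝ} :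
    ContDiff ℝ 1 (fun u => Real.smoothTransition ((u - r1) / (r2 - r1))) :=
  Real.smoothTransition.contDiff.comp ((contDiff_id.sub contDiff_const).div_const _)

lemma bump'_continuous {r1 r2 : ℝ} : Continuous (bump' r1 r2) :=
  profile_contDiff.continuous_deriv_one

lemma bump'_nonneg {r1 r2 : ℝ} (h : r1 < r2) (s : ℝ) : 0 ≤ bump' r1 r2 s :=
  Monotone.deriv_nonneg (fun a b hab => Real.smoothTransition.monotone
    (div_le_div_of_nonneg_right (by linarith) (by linarith)))

lemma integral_bump' {r1 r2 : ℝ} (h : r1 < r2) : ∫ s in r1..r2, bump' r1 r2 s = 1 := by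
  unfold bump'
  rw [intervalIntegral.integral_deriv_eq_sub
    (fun x _ => profile_contDiff.differentiable one_ne_zero x)
    (bump'_continuous.intervalIntegrable _ _)]
  simp [div_self (sub_pos.2 h).ne']

lemma dbar_bump {r1 r2 : ℝ} {t : ℂ} (ht : t ≠ 0) :
    fderiv ℝ (bump r1 r2) t 1 + Complex.I * (fderiv ℝ (bump r1 r2) t Complex.I : ℝ) =
      (bump' r1 r2 ‖t‖ : ℂ) * (t / (‖t‖ : ℂ)) := by
  have hn : HasFDerivAt (fun u : ℂ => ‖u‖) (fderiv ℝ (fun u : ℂ => ‖u‖) t) t :=
    ((contDiffAt_norm ℝ ht (n := 1)).differentiableAt one_ne_zero).hasFDerivAt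
  have hp : HasDerivAt (fun u => Real.smoothTransition ((u - r1) / (r2 - r1)))
      (bump' r1 r2 ‖t‖) ‖t‖ := (profile_contDiff.differentiable one_ne_zero _).hasDerivAt
  have hb : HasFDerivAt (bump r1 r2) (bump' r1 r2 ‖t‖ • fderiv ℝ (fun u : ℂ => ‖u‖) t) t :=
    hp.comp_hasFDerivAt t hn
  have hd : ∀ v : ℂ, fderiv ℝ (fun u : ℂ => ‖u‖) t v = (t.re * v.re + t.im * v.im) / ‖t‖ := by
    intro v
    have h2 := ((hasFDerivAt_id t).norm_sq (F := ℂ)).sqrt (by simpa using ht)
    have e : (fun u : ℂ => √(‖id u‖ ^ 2)) = fun u : ℂ => ‖u‖ := by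
      funext u; simp [Real.sqrt_sq (norm_nonneg u)]
    rw [e] at h2
    rw [h2.fderiv]
    simp [Complex.inner]
    have : ‖t‖ ≠ 0 := norm_ne_zero_iff.2 ht
    field_simp
  rw [hb.fderiv]
  simp only [smul_apply, hd, smul_eq_mul]
  simp only [Complex.ext_iff, Complex.add_re, Complex.add_im, Complex.mul_re, Complex.mul_im,
    Complex.ofReal_re, Complex.ofReal_im, Complex.I_re, Complex.I_im, Complex.one_re,
    Complex.one_im, Complex.div_ofReal_re, Complex.div_ofReal_im]
  constructor <;> ring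

section
variable {H : ℂ → ℂ} {C : Set ℂ} {r1 r2 : ℝ}

/-- The cut-off, transported to the image plane. -/
def cutoff (H : ℂ → ℂ) (r1 r2 : ℝ) (w : ℂ) : ℝ :=
  open Classical in
  if w ∈ H '' (ball 0 1 \ {0}) then bump r1 r2 (invFunOn H (ball 0 1 \ {0}) w) else 1

lemma isOpen_pball : IsOpen (ball (0 : ℂ) 1 \ {0}) := isOpen_ball.sdiff isClosed_singleton

lemma inv_hasDerivAt (hH : DifferentiableOn ℂ H (ball 0 1 \ {0}))
    (hinj : InjOn H (ball 0 1 \ {0})) (hne : ∀ t ∈ ball (0 : ℂ) 1 \ {0}, deriv H t ≠ 0)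
    {t : ℂ} (ht : t ∈ ball (0 : ℂ) 1 \ {0}) :
    H '' (ball 0 1 \ {0}) ∈ 𝓝 (H t) ∧
      HasDerivAt (invFunOn H (ball 0 1 \ {0})) (deriv H t)⁻¹ (H t) := by
  have ha := (hH.analyticAt (isOpen_pball.mem_nhds ht)).hasStrictDerivAt
  have hmap := ha.map_nhds_eq (hne t ht)
  have himg : ∀ U ∈ 𝓝 t, H '' (U ∩ (ball 0 1 \ {0})) ∈ 𝓝 (H t) := fun U hU => by
    rw [← hmap]
    exact image_mem_map (inter_mem hU (isOpen_pball.mem_nhds ht))
  have hI : H '' (ball 0 1 \ {0}) ∈ 𝓝 (H t) :=
    mem_of_superset (himg univ univ_mem) (image_mono inter_subset_right)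
  refine ⟨hI, ?_⟩
  have hl : invFunOn H (ball 0 1 \ {0}) (H t) = t := hinj.leftInvOn_invFunOn ht
  refine HasDerivAt.of_local_left_inverse ?_ (by rw [hl]; exact ha.hasDerivAt) (hne t ht) ?_
  · rw [ContinuousAt, hl]
    intro U hU
    refine mem_map.2 (mem_of_superset (himg U hU) ?_)
    rintro w ⟨u, ⟨hu, hu'⟩, rfl⟩
    show invFunOn H _ (H u) ∈ U
    rwa [hinj.leftInvOn_invFunOn hu']
  · filter_upwards [hI] with w hw
    exact invFunOn_eq hw

lemma cutoff_eventually_one (hr : r1 < r2)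
    (hclosed : IsClosed (H '' (closedBall 0 r2 \ {0}))) {w : ℂ}
    (hw : w ∉ H '' (closedBall 0 r2 \ {0})) : cutoff H r1 r2 =ᶠ[𝓝 w] fun _ => 1 := by
  filter_upwards [hclosed.isOpen_compl.mem_nhds hw] with v hv
  unfold cutoff
  split_ifs with h
  · obtain ⟨hm, he⟩ := invFunOn_pos h
    refine bump_one hr (le_of_not_gt fun hlt => hv ⟨_, ⟨?_, hm.2⟩, he⟩)
    simpa using hlt.le
  · rfl

lemma cutoff_eventually_eq (hH : DifferentiableOn ℂ H (ball 0 1 \ {0}))
    (hinj : InjOn H (ball 0 1 \ {0})) (hne : ∀ t ∈ ball (0 : ℂ) 1 \ {0}, deriv H t ≠ 0)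
    {t : ℂ} (ht : t ∈ ball (0 : ℂ) 1 \ {0}) :
    cutoff H r1 r2 =ᶠ[𝓝 (H t)] fun w => bump r1 r2 (invFunOn H (ball 0 1 \ {0}) w) := by
  filter_upwards [(inv_hasDerivAt hH hinj hne ht).1] with w hw
  simp [cutoff, hw]

lemma cutoff_contDiff (hH : DifferentiableOn ℂ H (ball 0 1 \ {0}))
    (hinj : InjOn H (ball 0 1 \ {0})) (hne : ∀ t ∈ ball (0 : ℂ) 1 \ {0}, deriv H t ≠ 0)
    (hr : r1 < r2) (hr2 : r2 < 1) (hclosed : IsClosed (H '' (closedBall 0 r2 \ {0}))) :
    ContDiff ℝ 1 (cutoff H r1 r2) := by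
  refine contDiff_iff_contDiffAt.2 fun w => ?_
  by_cases hw : w ∈ H '' (closedBall 0 r2 \ {0})
  · obtain ⟨t, ⟨ht, ht0⟩, rfl⟩ := hw
    have ht' : t ∈ ball (0 : ℂ) 1 \ {0} :=
      ⟨closedBall_subset_ball hr2 ht, ht0⟩
    refine ContDiffAt.congr_of_eventuallyEq ?_ (cutoff_eventually_eq hH hinj hne ht')
    have hop : IsOpen (H '' (ball 0 1 \ {0})) := isOpen_iff_mem_nhds.2 fun v hv => by
      obtain ⟨u, hu, rfl⟩ := hv
      exact (inv_hasDerivAt hH hinj hne hu).1
    have hdiff : DifferentiableOn ℂ (invFunOn H (ball 0 1 \ {0})) (H '' (ball 0 1 \ {0})) := by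
      rintro v ⟨u, hu, rfl⟩
      exact (inv_hasDerivAt hH hinj hne hu).2.differentiableAt.differentiableWithinAt
    have hi : ContDiffAt ℝ 1 (invFunOn H (ball 0 1 \ {0})) (H t) :=
      (((hdiff.analyticAt (hop.mem_nhds ⟨t, ht', rfl⟩))).contDiffAt (n := 1)).restrict_scalars ℝ
    have hb : ContDiffAt ℝ 1 (bump r1 r2) (invFunOn H (ball 0 1 \ {0}) (H t)) := by
      rw [hinj.leftInvOn_invFunOn ht']
      exact bump_contDiffAt ht'.2
    exact hb.comp (H t) hi
  · exact contDiffAt_const.congr_of_eventuallyEq (cutoff_eventually_one hr hclosed hw)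

lemma cutoff_fderiv_eq_zero (hH : DifferentiableOn ℂ H (ball 0 1 \ {0}))
    (hinj : InjOn H (ball 0 1 \ {0})) (hne : ∀ t ∈ ball (0 : ℂ) 1 \ {0}, deriv H t ≠ 0)
    (hr : r1 < r2) (hr2 : r2 < 1) (hclosed : IsClosed (H '' (closedBall 0 r2 \ {0})))
    {w : ℂ} (hw : w ∉ H '' {t | r1 ≤ ‖t‖ ∧ ‖t‖ ≤ r2}) :
    fderiv ℝ (cutoff H r1 r2) w = 0 := by
  by_cases hw' : w ∈ H '' (closedBall 0 r2 \ {0})
  · obtain ⟨t, ⟨ht, ht0⟩, rfl⟩ := hw'
    have ht' : t ∈ ball (0 : ℂ) 1 \ {0} := ⟨closedBall_subset_ball hr2 ht, ht0⟩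
    have htr : ‖t‖ < r1 := by
      by_contra hc
      exact hw ⟨t, ⟨le_of_not_gt hc, by simpa using ht⟩, rfl⟩
    have hl := hinj.leftInvOn_invFunOn ht'
    have hc := (inv_hasDerivAt hH hinj hne ht').2.continuousAt
    have hev : cutoff H r1 r2 =ᶠ[𝓝 (H t)] fun _ => 0 := by
      have hlt : ∀ᶠ v in 𝓝 (H t), ‖invFunOn H (ball 0 1 \ {0}) v‖ < r1 :=
        hc.norm.eventually_lt_const (by simp only [hl]; exact htr)
      filter_upwards [cutoff_eventually_eq (r1 := r1) (r2 := r2) hH hinj hne ht', hlt] with v h1 h2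
      rw [h1, bump_zero hr h2.le]
    simp [hev.fderiv_eq]
  · simp [(cutoff_eventually_one hr hclosed hw').fderiv_eq]

lemma cutoff_dbar (hH : DifferentiableOn ℂ H (ball 0 1 \ {0}))
    (hinj : InjOn H (ball 0 1 \ {0})) (hne : ∀ t ∈ ball (0 : ℂ) 1 \ {0}, deriv H t ≠ 0)
    {t : ℂ} (ht : t ∈ ball (0 : ℂ) 1 \ {0}) :
    (fderiv ℝ (cutoff H r1 r2) (H t) 1 : ℂ) +
        Complex.I * (fderiv ℝ (cutoff H r1 r2) (H t) Complex.I : ℝ) =
      conj (deriv H t)⁻¹ * ((bump' r1 r2 ‖t‖ : ℂ) * (t / (‖t‖ : ℂ))) := by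
  obtain ⟨-, hd⟩ := inv_hasDerivAt hH hinj hne ht
  have hl := hinj.leftInvOn_invFunOn ht
  have hb : HasFDerivAt (bump r1 r2) (fderiv ℝ (bump r1 r2) t) (invFunOn H (ball 0 1 \ {0}) (H t)) :=
    by rw [hl]; exact ((bump_contDiffAt ht.2).differentiableAt one_ne_zero).hasFDerivAt
  have h := hb.comp (H t) hd.complexToReal_fderiv
  have h' : HasFDerivAt (fun w => bump r1 r2 (invFunOn H (ball 0 1 \ {0}) w)) _ (H t) := h
  rw [(cutoff_eventually_eq hH hinj hne ht).fderiv_eq, h'.fderiv, ← dbar_bump ht.2]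
  set L := fderiv ℝ (bump r1 r2) t
  set c := (deriv H t)⁻¹
  have hL : ∀ u : ℂ, L u = u.re * L 1 + u.im * L Complex.I := fun u => by
    have : u = u.re • (1 : ℂ) + u.im • Complex.I := by
      simp [Complex.real_smul, Complex.re_add_im]
    conv_lhs => rw [this, map_add, map_smul, map_smul]
    rfl
  simp only [ContinuousLinearMap.comp_apply, smul_apply,
    one_apply_eq_self, smul_eq_mul, mul_one]
  rw [hL c, hL (c * Complex.I)]
  simp only [Complex.ext_iff, Complex.add_re, Complex.add_im, Complex.mul_re, Complex.mul_im,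
    Complex.ofReal_re, Complex.ofReal_im, Complex.I_re, Complex.I_im, Complex.conj_re,
    Complex.conj_im]
  constructor <;> ring

end

lemma integral_annulus {r1 r2 : ℝ} (h1 : 0 < r1) (hr : r1 < r2) {G : ℂ → ℝ}
    (hG : ContinuousOn G {t | r1 ≤ ‖t‖ ∧ ‖t‖ ≤ r2}) :
    ∫ t in {t : ℂ | r1 ≤ ‖t‖ ∧ ‖t‖ ≤ r2}, G t =
      ∫ s in r1..r2, ∫ θ in (-π)..π, s * G (circleMap 0 s θ) := by
  set S : Set ℂ := {t | r1 ≤ ‖t‖ ∧ ‖t‖ ≤ r2}
  have hS : MeasurableSet S :=
    ((isClosed_le continuous_const continuous_norm).inter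
      (isClosed_le continuous_norm continuous_const)).measurableSet
  rw [← integral_indicator hS, ← Complex.integral_comp_polarCoord_symm]
  have heq : ∀ p : ℝ × ℝ, p ∈ polarCoord.target →
      p.1 • S.indicator G (Complex.polarCoord.symm p) =
        (Icc r1 r2 ×ˢ Ioo (-π) π).indicator (fun q => q.1 * G (circleMap 0 q.1 q.2)) p := by
    rintro ⟨s, θ⟩ ⟨hs, hθ⟩
    simp only [mem_Ioi] at hs
    have hpc : Complex.polarCoord.symm (s, θ) = circleMap 0 s θ := by
      simp [Complex.polarCoord_symm_apply, circleMap, Complex.exp_mul_I]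
    rw [hpc]
    by_cases h : s ∈ Icc r1 r2
    · rw [indicator_of_mem (show ((s, θ) : ℝ × ℝ) ∈ Icc r1 r2 ×ˢ Ioo (-π) π from ⟨h, hθ⟩),
        indicator_of_mem, smul_eq_mul]
      simp [S, abs_of_pos hs, h.1, h.2]
    · rw [indicator_of_notMem (fun hc : ((s, θ) : ℝ × ℝ) ∈ Icc r1 r2 ×ˢ Ioo (-π) π => h hc.1),
        indicator_of_notMem, smul_zero]
      intro hc
      simp [S, abs_of_pos hs] at hc
      exact h hc
  rw [setIntegral_congr_fun polarCoord.open_target.measurableSet heq,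
    setIntegral_indicator (measurableSet_Icc.prod measurableSet_Ioo),
    inter_eq_right.2 (show Icc r1 r2 ×ˢ Ioo (-π) π ⊆ polarCoord.target from
      prod_mono (fun s hs => mem_Ioi.2 (h1.trans_le hs.1)) subset_rfl)]
  have hF : ContinuousOn (fun q : ℝ × ℝ => q.1 * G (circleMap 0 q.1 q.2))
      (Icc r1 r2 ×ˢ Icc (-π) π) := by
    refine continuousOn_fst.mul (hG.comp ?_ fun q hq => ?_)
    · exact Continuous.continuousOn (by unfold circleMap; fun_prop)
    · obtain ⟨⟨a, b⟩, -⟩ := hq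
      show r1 ≤ ‖circleMap 0 q.1 q.2‖ ∧ ‖circleMap 0 q.1 q.2‖ ≤ r2
      simp [abs_of_pos (h1.trans_le a), a, b]
  have hFi : IntegrableOn (fun q : ℝ × ℝ => q.1 * G (circleMap 0 q.1 q.2))
      (Icc r1 r2 ×ˢ Ioo (-π) π) (volume.prod volume) :=
    (hF.integrableOn_compact (isCompact_Icc.prod isCompact_Icc)).mono_set
      (prod_mono subset_rfl Ioo_subset_Icc_self)
  rw [Measure.volume_eq_prod, setIntegral_prod _ hFi, intervalIntegral.integral_of_le hr.le,
    integral_Icc_eq_integral_Ioc]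
  refine setIntegral_congr_fun measurableSet_Ioc fun s _ => ?_
  rw [intervalIntegral.integral_of_le (by linarith [Real.pi_pos]), integral_Ioc_eq_integral_Ioo]

/-- The transported test function gives a sign for the weighted circle integrals. -/
theorem weighted_nonpos {H P : ℂ → ℂ} {r1 r2 R : ℝ} (hH : DifferentiableOn ℂ H (ball 0 1 \ {0}))
    (hinj : InjOn H (ball 0 1 \ {0})) (hne : ∀ t ∈ ball (0 : ℂ) 1 \ {0}, deriv H t ≠ 0)
    (hP : Differentiable ℂ P) (h1 : 0 < r1) (hr : r1 < r2) (hr2 : r2 < 1)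
    (hclosed : IsClosed (H '' (closedBall 0 r2 \ {0})))
    (hbig : ∀ w : ℂ, R < ‖w‖ → w ∈ H '' (closedBall 0 r1 \ {0})) :
    (∫ s in r1..r2, bump' r1 r2 s * ∫ θ in (-π)..π,
      (conj (P (H (circleMap 0 s θ))) * (circleMap 0 s θ *
        (deriv P (H (circleMap 0 s θ)) * deriv H (circleMap 0 s θ)))).re) ≤ 0 := by
  have hη := cutoff_contDiff hH hinj hne hr hr2 hclosed
  set η := cutoff H r1 r2 with hηdef
  have hPa : ∀ w, AnalyticAt ℂ P w := fun w => hP.analyticAt w
  have hP1 : ContDiff ℝ 1 P := (hP.contDiff (n := 1)).restrict_scalars ℝ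
  have hP'1 : ContDiff ℝ 1 (deriv P) := by
    have : Differentiable ℂ (deriv P) := fun w => (hPa w).deriv.differentiableAt
    exact (this.contDiff (n := 1)).restrict_scalars ℝ
  set Q : ℂ → ℂ := fun w => conj (P w) * deriv P w with hQ
  have hQ1 : ContDiff ℝ 1 Q := (Complex.conjCLE.contDiff.comp hP1).mul hP'1
  have hcut0 : ∀ w, R < ‖w‖ → η w = 0 := by
    intro w hw
    obtain ⟨t, ⟨ht, ht0⟩, rfl⟩ := hbig w hw
    have ht' : t ∈ ball (0 : ℂ) 1 \ {0} :=
      ⟨closedBall_subset_ball (hr.trans hr2) ht, ht0⟩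
    rw [hηdef, cutoff, if_pos ⟨t, ht', rfl⟩, hinj.leftInvOn_invFunOn ht']
    exact bump_zero hr (by simpa using ht)
  set g : ℂ → ℂ := fun w => (η w : ℂ) * Q w with hg
  have hg1 : ContDiff ℝ 1 g := (Complex.ofRealCLM.contDiff.comp hη).mul hQ1
  have hgc : HasCompactSupport g := by
    refine HasCompactSupport.intro (isCompact_closedBall (0 : ℂ) R) fun w hw => ?_
    simp only [g, hcut0 w (by simpa using hw)]
    simp
  -- the pointwise formula
  set A : ℂ → ℝ := fun w => η w * ‖deriv P w‖ ^ 2 with hA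
  set B : ℂ → ℝ := fun w =>
    ((((fderiv ℝ η w 1 : ℝ) : ℂ) + Complex.I * (fderiv ℝ η w Complex.I : ℝ)) / 2 * Q w).re with hB
  have hdb : ∀ w, (dbar g w).re = B w + A w := by
    intro w
    have hη' := (hη.differentiable one_ne_zero w).hasFDerivAt
    have hP' := ((hP w).hasDerivAt).complexToReal_fderiv
    have hD : HasDerivAt (deriv P) (deriv (deriv P) w) w := (hPa w).deriv.differentiableAt.hasDerivAt
    have hPP := hD.complexToReal_fderiv
    have hQ' : HasFDerivAt Q _ w := (Complex.conjCLE.toContinuousLinearMap.hasFDerivAt.comp w hP').mul hPP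
    have hg' : HasFDerivAt g _ w := (Complex.ofRealCLM.hasFDerivAt.comp w hη').mul hQ'
    unfold dbar
    rw [hg'.fderiv]
    have e1 : (‖deriv P w‖ ^ 2 : ℝ) = (conj (deriv P w) * deriv P w).re := by
      simp [Complex.sq_norm, Complex.normSq_apply]
    simp only [A, B, e1]
    simp only [Function.comp_apply, add_apply, smul_apply,
      ContinuousLinearMap.comp_apply, one_apply_eq_self, Complex.ofRealCLM_apply,
      ContinuousLinearEquiv.coe_coe, Complex.conjCLE_apply, smul_eq_mul, Q, mul_one]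
    simp only [Complex.div_ofNat_re, Complex.div_ofNat_im, Complex.add_re, Complex.add_im,
      Complex.mul_re, Complex.mul_im, Complex.ofReal_re, Complex.ofReal_im, Complex.I_re,
      Complex.I_im, Complex.conj_re, Complex.conj_im]
    ring
  have hi : Integrable (fun w => dbar g w) := by
    have hd : ∀ v : ℂ, Integrable fun w => fderiv ℝ g w v := fun v =>
      ((hg1.continuous_fderiv one_ne_zero).clm_apply continuous_const).integrable_of_hasCompactSupport
        (hgc.fderiv_apply ℝ v)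
    exact ((hd 1).add ((hd Complex.I).const_mul Complex.I)).div_const 2
  have hzero : ∫ w, (B w + A w) = 0 := by
    simp only [← hdb]
    have := integral_dbar_eq_zero hg1 hgc
    simpa [this] using Complex.reCLM.integral_comp_comm hi
  have hηc := hη.continuous
  have hηd : ∀ v : ℂ, Continuous fun w => fderiv ℝ η w v := fun v =>
    (hη.continuous_fderiv one_ne_zero).clm_apply continuous_const
  have hηs : HasCompactSupport η :=
    HasCompactSupport.intro (isCompact_closedBall (0 : ℂ) R) fun w hw =>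
      hcut0 w (by simpa using hw)
  have hAi : Integrable A :=
    (hηc.mul ((hP'1.continuous.norm).pow 2)).integrable_of_hasCompactSupport hηs.mul_right
  have hA0 : 0 ≤ ∫ w, A w := integral_nonneg fun w => by
    refine mul_nonneg ?_ (sq_nonneg _)
    rw [hηdef, cutoff]
    split_ifs
    · exact Real.smoothTransition.nonneg _
    · exact zero_le_one
  have hBi : Integrable B := by
    have : B = fun w => (dbar g w).re - A w := by funext w; rw [hdb]; ring
    rw [this]
    exact (Complex.reCLM.integrable_comp hi).sub hAi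
  rw [integral_add hBi hAi] at hzero
  have hBle : ∫ w, B w ≤ 0 := by linarith
  -- change of variables
  set S : Set ℂ := {t | r1 ≤ ‖t‖ ∧ ‖t‖ ≤ r2} with hS
  have hSsub : S ⊆ ball (0 : ℂ) 1 \ {0} := fun t ht =>
    ⟨by simpa using lt_of_le_of_lt ht.2 hr2, fun h => by
      rw [mem_singleton_iff] at h; subst h; simp [S] at ht; linarith⟩
  have hSm : MeasurableSet S :=
    ((isClosed_le continuous_const continuous_norm).inter
      (isClosed_le continuous_norm continuous_const)).measurableSet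
  have hsupp : ∀ w, w ∉ H '' S → B w = 0 := fun w hw => by
    simp [B, hηdef, cutoff_fderiv_eq_zero hH hinj hne hr hr2 hclosed hw]
  rw [← setIntegral_eq_integral_of_forall_compl_eq_zero hsupp,
    integral_image_eq_integral_abs_det_fderiv_smul volume hSm
      (f' := fun t => ellipseMap (deriv H t) 0) (fun t ht => ?_) (hinj.mono hSsub)] at hBle
  swap
  · refine (((hH.differentiableAt (isOpen_pball.mem_nhds (hSsub ht))).hasDerivAt).complexToReal_fderiv.congr_fderiv ?_).hasFDerivWithinAt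
    ext u
    simp [ellipseMap_apply]
  have hval : ∀ t ∈ S, |(ellipseMap (deriv H t) 0).det| • B (H t) =
      bump' r1 r2 ‖t‖ / (2 * ‖t‖) *
        (conj (P (H t)) * (t * (deriv P (H t) * deriv H t))).re := by
    intro t ht
    have ht' := hSsub ht
    have hn := hne t ht'
    simp only [B, hηdef, cutoff_dbar hH hinj hne ht', ellipseMap_det, norm_zero, Q]
    rw [zero_pow two_ne_zero, sub_zero, abs_of_nonneg (sq_nonneg _), smul_eq_mul,
      ← Complex.re_ofReal_mul, ← Complex.re_ofReal_mul]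
    congr 1
    have e : ((‖deriv H t‖ ^ 2 : ℝ) : ℂ) = deriv H t * conj (deriv H t) := by
      rw [Complex.mul_conj, Complex.normSq_eq_norm_sq]
    rw [e, map_inv₀]
    have h2 : conj (deriv H t) ≠ 0 := by simpa using hn
    have h3 : (‖t‖ : ℂ) ≠ 0 := by simpa using ht'.2
    push_cast
    field_simp
  rw [setIntegral_congr_fun hSm hval] at hBle
  have hH' : ContinuousOn (deriv H) S :=
    ((hH.deriv isOpen_pball).continuousOn).mono hSsub
  have hcont : ContinuousOn (fun t => bump' r1 r2 ‖t‖ / (2 * ‖t‖) *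
      (conj (P (H t)) * (t * (deriv P (H t) * deriv H t))).re) S := by
    have hHc : ContinuousOn H S := hH.continuousOn.mono hSsub
    refine ContinuousOn.mul ?_ (Complex.continuous_re.comp_continuousOn ?_)
    · refine (bump'_continuous.comp_continuousOn continuous_norm.continuousOn).div
        (continuousOn_const.mul continuous_norm.continuousOn) fun t ht => ?_
      have : t ≠ 0 := (hSsub ht).2
      positivity
    · exact (Complex.continuous_conj.comp_continuousOn (hP1.continuous.comp_continuousOn hHc)).mul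
        (continuousOn_id.mul ((hP'1.continuous.comp_continuousOn hHc).mul hH'))
  rw [integral_annulus h1 hr hcont] at hBle
  rw [intervalIntegral.integral_congr (g := fun s => (1 / 2 : ℝ) * (bump' r1 r2 s *
      ∫ θ in (-π)..π, (conj (P (H (circleMap 0 s θ))) * (circleMap 0 s θ *
        (deriv P (H (circleMap 0 s θ)) * deriv H (circleMap 0 s θ)))).re)) ?_,
    intervalIntegral.integral_const_mul] at hBle
  · linarith
  · intro s hs
    rw [uIcc_of_le hr.le] at hs
    have hs0 : 0 < s := h1.trans_le hs.1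
    simp only [← intervalIntegral.integral_const_mul]
    refine intervalIntegral.integral_congr fun θ _ => ?_
    simp only [norm_circleMap_zero, abs_of_pos hs0]
    field_simp

lemma hclosed_inv {F : ℂ → ℂ} {K : Set ℂ} (hK : IsCompact K) (h0 : (0 : ℂ) ∈ K)
    (hF : ContinuousOn F K) (hinj : InjOn F K) (hF0 : F 0 = 0) :
    IsClosed ((fun t => (F t)⁻¹) '' (K \ {0})) := by
  obtain ⟨M, hM⟩ := (hK.image_of_continuousOn hF).isBounded.exists_norm_le
  set D : Set ℂ := {w | 1 / (|M| + 1) ≤ ‖w‖}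
  have hD : IsClosed D := isClosed_le continuous_const continuous_norm
  have e : (fun t => (F t)⁻¹) '' (K \ {0}) = D ∩ (fun w => w⁻¹) ⁻¹' (F '' K) := by
    ext w
    constructor
    · rintro ⟨t, ⟨ht, ht0⟩, rfl⟩
      have hne : F t ≠ 0 := fun h => ht0 (hinj ht h0 (h.trans hF0.symm))
      refine ⟨?_, by simpa using mem_image_of_mem F ht⟩
      simp only [D, mem_ofPred_eq, norm_inv, one_div]
      exact inv_anti₀ (norm_pos_iff.2 hne) ((hM _ (mem_image_of_mem F ht)).trans
        ((le_abs_self M).trans (le_add_of_nonneg_right zero_le_one)))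
    · rintro ⟨hw, t, ht, htw⟩
      refine ⟨t, ⟨ht, fun h => ?_⟩, by simp [htw]⟩
      rw [mem_singleton_iff] at h
      subst h
      rw [hF0, eq_comm, inv_eq_zero] at htw
      subst htw
      simp [D] at hw
      linarith [abs_nonneg M]
  rw [e]
  refine ContinuousOn.preimage_isClosed_of_isClosed ?_ hD (hK.image_of_continuousOn hF).isClosed
  refine continuousOn_id.inv₀ fun w hw h => ?_
  simp only [id] at h
  subst h
  simp [D] at hw
  linarith [abs_nonneg M]

/-- The circle integral of a series with a finite principal part. -/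
theorem circle_value {m N : ℕ} (y : Fin m → ℂ) (b : Fin N → ℂ) {Rr : ℂ → ℂ}
    (hR : DifferentiableOn ℂ Rr (ball 0 1)) {s : ℝ} (hs : 0 < s) (hs1 : s < 1)
    {h h' : ℂ → ℂ}
    (hh : ∀ θ, h (circleMap 0 s θ) = (∑ j : Fin m, y j * circleMap 0 s θ ^ (-((j : ℤ) + 1))) +
      (∑ l : Fin N, b l * circleMap 0 s θ ^ (l : ℕ)) + circleMap 0 s θ ^ N * Rr (circleMap 0 s θ))
    (hh' : ∀ θ, h' (circleMap 0 s θ) =
      (∑ j : Fin m, -((j : ℂ) + 1) * y j * circleMap 0 s θ ^ (-((j : ℤ) + 1))) +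
      (∑ l : Fin N, (l : ℂ) * b l * circleMap 0 s θ ^ (l : ℕ)) + circleMap 0 s θ ^ N *
        ((N : ℂ) * Rr (circleMap 0 s θ) + circleMap 0 s θ * deriv Rr (circleMap 0 s θ))) :
    2 * π * ((∑ l : Fin N, (l : ℝ) * ‖b l‖ ^ 2 * s ^ (2 * (l : ℕ))) -
        ∑ j : Fin m, ((j : ℝ) + 1) * ‖y j‖ ^ 2 * s ^ (-(2 * ((j : ℤ) + 1)))) ≤
      ∫ θ in (0 : ℝ)..2 * π, (conj (h (circleMap 0 s θ)) * h' (circleMap 0 s θ)).re := by
  obtain ⟨r, hsm, hsR, hsR'⟩ := taylor_data hR
  set e : (Fin m ⊕ Fin N) ⊕ ℕ → ℤ :=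
    Sum.elim (Sum.elim (fun j => -((j : ℤ) + 1)) (fun l => (l : ℤ))) (fun n => ((n + N : ℕ) : ℤ))
    with he
  set c : (Fin m ⊕ Fin N) ⊕ ℕ → ℂ := Sum.elim (Sum.elim y b) r with hc
  set d : (Fin m ⊕ Fin N) ⊕ ℕ → ℂ := fun i => (e i : ℂ) * c i with hd
  have hinje : Injective e := by
    rintro ((j | l) | n) ((j' | l') | n') h <;> simp [e] at h <;>
      (try (simp only [Sum.inl.injEq, Sum.inr.injEq, Fin.ext_iff])) <;> omega
  have hzsum : ∀ {α : Type} [Fintype α] (f : α → ℂ), HasSum f (∑ a, f a) := fun f => hasSum_fintype f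
  have hsm' := hsm s hs.le hs1
  have hsumc : Summable fun i => ‖c i‖ * s ^ e i := by
    refine Summable.sum (fun i => ‖c i‖ * s ^ e i) Summable.of_finite ?_
    refine Summable.of_nonneg_of_le (fun n => mul_nonneg (norm_nonneg _) (zpow_nonneg hs.le _))
      (fun n => ?_) (hsm'.mul_right (s ^ N))
    simp only [c, e, Function.comp_apply, Sum.elim_inr, zpow_natCast, pow_add]
    have : 0 ≤ ‖r n‖ * s ^ n * s ^ N := by positivity
    nlinarith
  have hsumd : Summable fun i => ‖d i‖ * s ^ e i := by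
    refine Summable.sum (fun i => ‖d i‖ * s ^ e i) Summable.of_finite ?_
    refine Summable.of_nonneg_of_le (fun n => mul_nonneg (norm_nonneg _) (zpow_nonneg hs.le _))
      (fun n => ?_) (hsm'.mul_right (((N : ℝ) + 1) * s ^ N))
    simp only [d, c, e, Function.comp_apply, Sum.elim_inr, zpow_natCast, pow_add, norm_mul]
    rw [Int.cast_natCast, Complex.norm_natCast]
    push_cast
    have h1 : (n : ℝ) + N ≤ ((n : ℝ) + 1) * ((N : ℝ) + 1) := by
      nlinarith [Nat.cast_nonneg (α := ℝ) n, Nat.cast_nonneg (α := ℝ) N,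
        mul_nonneg (Nat.cast_nonneg (α := ℝ) n) (Nat.cast_nonneg (α := ℝ) N)]
    calc ((n : ℝ) + N) * ‖r n‖ * (s ^ n * s ^ N)
        ≤ ((n : ℝ) + 1) * ((N : ℝ) + 1) * ‖r n‖ * (s ^ n * s ^ N) := by gcongr
      _ = _ := by ring
  have hmem : ∀ θ, circleMap 0 s θ ∈ ball (0 : ℂ) 1 := fun θ => by simp [abs_of_pos hs, hs1]
  have hu : ∀ θ, HasSum (fun i => c i * circleMap 0 s θ ^ e i) (h (circleMap 0 s θ)) := by
    intro θ
    rw [hh θ]
    refine HasSum.sum (HasSum.sum (hzsum _) ?_) ?_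
    · simpa [c, e, Function.comp_def] using hzsum fun l : Fin N => b l * circleMap 0 s θ ^ (l : ℕ)
    · refine ((hsR _ (hmem θ)).mul_left (circleMap 0 s θ ^ N)).congr_fun fun n => ?_
      simp only [c, e, Function.comp_apply, Sum.elim_inr, zpow_natCast, pow_add]
      ring
  have hv : ∀ θ, HasSum (fun i => d i * circleMap 0 s θ ^ e i) (h' (circleMap 0 s θ)) := by
    intro θ
    rw [hh' θ]
    refine HasSum.sum (HasSum.sum ?_ ?_) ?_
    · simpa [d, c, e, Function.comp_def] using
        hzsum fun j : Fin m => -((j : ℂ) + 1) * y j * circleMap 0 s θ ^ (-((j : ℤ) + 1))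
    · simpa [d, c, e, Function.comp_def] using
        hzsum fun l : Fin N => (l : ℂ) * b l * circleMap 0 s θ ^ (l : ℕ)
    · refine ((((hsR _ (hmem θ)).mul_left (N : ℂ)).add (hsR' _ (hmem θ))).mul_left
        (circleMap 0 s θ ^ N)).congr_fun fun n => ?_
      simp only [d, c, e, Function.comp_apply, Sum.elim_inr, zpow_natCast, pow_add]
      push_cast
      ring
  have havg := average_series hinje hs hsumc hsumd hu hv
  have hint : IntervalIntegrable (fun θ => conj (h (circleMap 0 s θ)) * h' (circleMap 0 s θ))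
      volume 0 (2 * π) := by
    have hne : ∀ θ, circleMap 0 s θ ≠ 0 := fun θ => circleMap_ne_center hs.ne'
    have hRc : Continuous fun θ => Rr (circleMap 0 s θ) :=
      hR.continuousOn.comp_continuous (continuous_circleMap 0 s) hmem
    have hRc' : Continuous fun θ => deriv Rr (circleMap 0 s θ) :=
      (hR.deriv isOpen_ball).continuousOn.comp_continuous (continuous_circleMap 0 s) hmem
    have hz : ∀ k : ℤ, Continuous fun θ => circleMap 0 s θ ^ k := fun k =>
      (continuous_circleMap 0 s).zpow₀ k fun θ => Or.inl (hne θ)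
    refine Continuous.intervalIntegrable ?_ _ _
    simp only [hh, hh']
    have hc0 := continuous_circleMap 0 s
    have hs1' : ∀ k : Fin m, Continuous fun θ => circleMap 0 s θ ^ (-((k : ℤ) + 1)) := fun k => hz _
    exact (Complex.continuous_conj.comp
      (((continuous_finsetSum _ fun j _ => continuous_const.mul (hs1' j)).add
        (continuous_finsetSum _ fun l _ => continuous_const.mul (hc0.pow _))).add
        ((hc0.pow _).mul hRc))).mul
      (((continuous_finsetSum _ fun j _ => continuous_const.mul (hs1' j)).add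
        (continuous_finsetSum _ fun l _ => continuous_const.mul (hc0.pow _))).add
        ((hc0.pow _).mul ((continuous_const.mul hRc).add (hc0.mul hRc'))))
  have hre0 := havg.map Complex.reCLM Complex.reCLM.continuous
  have hre : (Complex.reCLM (∫ θ in (0 : ℝ)..2 * π,
      conj (h (circleMap 0 s θ)) * h' (circleMap 0 s θ))) = _ :=
    (Complex.reCLM.intervalIntegral_comp_comm hint).symm
  rw [hre] at hre0
  set T : (Fin m ⊕ Fin N) ⊕ ℕ → ℝ := fun i => 2 * π * (e i * ‖c i‖ ^ 2 * s ^ (2 * e i)) with hT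
  have h'' : HasSum T (∫ θ in (0 : ℝ)..2 * π,
      (conj (h (circleMap 0 s θ)) * h' (circleMap 0 s θ)).re) := by
    refine hre0.congr_fun fun i => ?_
    simp only [T, d, Function.comp_apply, Complex.reCLM_apply, Complex.re_ofReal_mul]
    rw [show conj (c i) * ((e i : ℂ) * c i) = (((e i : ℝ) * ‖c i‖ ^ 2 : ℝ) : ℂ) by
      rw [← Complex.normSq_eq_norm_sq]
      push_cast
      rw [Complex.normSq_eq_conj_mul_self]
      ring, Complex.ofReal_re]
    ring
  refine le_trans (le_of_eq ?_) (sum_le_hasSum (Finset.univ.image Sum.inl) (fun i hi => ?_) h'')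
  · rw [Finset.sum_image (fun a _ b _ h => Sum.inl_injective h), Fintype.sum_sum_type]
    simp only [T, c, e, Sum.elim_inl, Sum.elim_inr, mul_sub, Finset.mul_sum]
    rw [← sub_eq_zero]
    simp only [mul_neg, neg_mul, Int.cast_neg, Int.cast_add, Int.cast_natCast, Int.cast_one,
      Finset.sum_neg_distrib, ← zpow_natCast, Nat.cast_mul, Nat.cast_ofNat]
    ring
  · rcases i with i | n
    · exact absurd (Finset.mem_image_of_mem _ (Finset.mem_univ i)) hi
    · simp only [T, e, Sum.elim_inr, Int.cast_natCast]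
      positivity

/-- **The area theorem for `P (1 / F)`.** -/
theorem area_poly {F P : ℂ → ℂ} (hF : DifferentiableOn ℂ F (ball 0 1))
    (hinjF : InjOn F (ball 0 1)) (hF0 : F 0 = 0) (hdF : ∀ z ∈ ball (0 : ℂ) 1, deriv F z ≠ 0)
    (hP : Differentiable ℂ P) {m N : ℕ} (y : Fin m → ℂ) (b : Fin N → ℂ) {Rr : ℂ → ℂ}
    (hR : DifferentiableOn ℂ Rr (ball 0 1))
    (hexp : ∀ t ∈ ball (0 : ℂ) 1 \ {0}, P (F t)⁻¹ =
      (∑ j : Fin m, y j * t ^ (-((j : ℤ) + 1))) + (∑ l : Fin N, b l * t ^ (l : ℕ)) + t ^ N * Rr t) :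
    ∑ l : Fin N, (l : ℝ) * ‖b l‖ ^ 2 ≤ ∑ j : Fin m, ((j : ℝ) + 1) * ‖y j‖ ^ 2 := by
  set H : ℂ → ℂ := fun t => (F t)⁻¹ with hHdef
  have hm0 : (0 : ℂ) ∈ ball (0 : ℂ) 1 := by simp
  have hne0 : ∀ t ∈ ball (0 : ℂ) 1 \ {0}, F t ≠ 0 := fun t ht h =>
    ht.2 (hinjF ht.1 hm0 (h.trans hF0.symm))
  have hH : DifferentiableOn ℂ H (ball 0 1 \ {0}) :=
    (hF.mono sdiff_subset).inv hne0
  have hinj : InjOn H (ball 0 1 \ {0}) := fun a ha c hc h =>
    hinjF ha.1 hc.1 (inv_inj.1 h)
  have hne : ∀ t ∈ ball (0 : ℂ) 1 \ {0}, deriv H t ≠ 0 := fun t ht => by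
    have := ((hF.differentiableAt (isOpen_ball.mem_nhds ht.1)).hasDerivAt).fun_inv (hne0 t ht)
    rw [show H = fun t => (F t)⁻¹ from rfl, this.deriv]
    exact div_ne_zero (neg_ne_zero.2 (hdF t ht.1)) (pow_ne_zero 2 (hne0 t ht))
  set L : ℝ → ℝ := fun s => (∑ l : Fin N, (l : ℝ) * ‖b l‖ ^ 2 * s ^ (2 * (l : ℕ))) -
    ∑ j : Fin m, ((j : ℝ) + 1) * ‖y j‖ ^ 2 * s ^ (-(2 * ((j : ℤ) + 1))) with hL
  have hLc : ContinuousAt L 1 := by
    refine ((continuous_finsetSum _ fun l _ => by fun_prop).continuousAt).sub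
      (tendsto_finsetSum _ fun j _ => ?_)
    exact continuousAt_const.mul (continuousAt_zpow₀ 1 _ (Or.inl one_ne_zero))
  by_contra hcon
  push Not at hcon
  have hL1 : 0 < L 1 := by simp only [L, one_pow, one_zpow, mul_one]; linarith
  obtain ⟨δ, hδ, hδL⟩ := Metric.eventually_nhds_iff.1 (hLc.eventually (eventually_gt_nhds (half_lt_self hL1)))
  set r1 := 1 - min δ (1 / 2) / 2 with hr1
  set r2 := 1 - min δ (1 / 2) / 4 with hr2
  have hmin : 0 < min δ (1 / 2) := lt_min hδ (by norm_num)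
  have hmin2 : min δ (1 / 2) ≤ 1 / 2 := min_le_right _ _
  have h1 : 0 < r1 := by simp only [r1]; linarith
  have hr : r1 < r2 := by simp only [r1, r2]; linarith
  have hr21 : r2 < 1 := by simp only [r2]; linarith
  have hcb : ∀ r, r < 1 → closedBall (0 : ℂ) r ⊆ ball 0 1 := fun r hr => closedBall_subset_ball hr
  have hclosed := hclosed_inv (F := F) (isCompact_closedBall 0 r2)
    (mem_closedBall_self (by linarith)) (hF.continuousOn.mono (hcb r2 hr21))
    (hinjF.mono (hcb r2 hr21)) hF0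
  obtain ⟨Rb, hRb⟩ : ∃ R : ℝ, ∀ w : ℂ, R < ‖w‖ → w ∈ H '' (closedBall 0 r1 \ {0}) := by
    have himg : F '' closedBall 0 r1 ∈ 𝓝 (0 : ℂ) := by
      have ha := (hF.analyticAt (isOpen_ball.mem_nhds hm0)).hasStrictDerivAt
      have := image_mem_map (m := F) (closedBall_mem_nhds (0 : ℂ) h1)
      rwa [ha.map_nhds_eq (hdF 0 hm0), hF0] at this
    obtain ⟨ε, hε, hsub⟩ := Metric.mem_nhds_iff.1 himg
    refine ⟨1 / ε, fun w hw => ?_⟩
    have hw0 : 0 < ‖w‖ := lt_trans (by positivity) hw
    obtain ⟨t, ht, htw⟩ := hsub (show w⁻¹ ∈ ball (0 : ℂ) ε by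
      rw [mem_ball, dist_zero_right, norm_inv, inv_lt_comm₀ hw0 hε, ← one_div]; exact hw)
    refine ⟨t, ⟨ht, fun h => ?_⟩, by simp [H, htw]⟩
    rw [mem_singleton_iff] at h
    subst h
    rw [hF0, eq_comm, inv_eq_zero] at htw
    simp [htw] at hw0
  have hw := weighted_nonpos hH hinj hne hP h1 hr hr21 hclosed hRb
  have hlow : ∀ s ∈ Icc r1 r2, π * L 1 ≤ ∫ θ in (-π)..π,
      (conj (P (H (circleMap 0 s θ))) * (circleMap 0 s θ *
        (deriv P (H (circleMap 0 s θ)) * deriv H (circleMap 0 s θ)))).re := by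
    intro s hs
    have hs0 : 0 < s := h1.trans_le hs.1
    have hs1 : s < 1 := hs.2.trans_lt hr21
    have hper : Periodic (fun θ => (conj (P (H (circleMap 0 s θ))) * (circleMap 0 s θ *
        (deriv P (H (circleMap 0 s θ)) * deriv H (circleMap 0 s θ)))).re) (2 * π) := fun θ => by
      simp only [periodic_circleMap 0 s θ]
    have := hper.intervalIntegral_add_eq (-π) 0
    rw [show -π + 2 * π = π by ring, zero_add] at this
    rw [this]
    have hLs : L 1 / 2 < L s := hδL (by
      rw [Real.dist_eq, abs_lt]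
      have := min_le_left δ (1 / 2)
      simp only [r1, r2] at hs
      constructor <;> linarith [hs.1, hs.2])
    have hcv := circle_value y b hR hs0 hs1 (h := fun t => P (H t))
      (h' := fun t => t * (deriv P (H t) * deriv H t)) (fun θ => ?_) (fun θ => ?_)
    · refine le_trans ?_ hcv
      have : (0 : ℝ) < π := Real.pi_pos
      show π * L 1 ≤ 2 * π * L s
      nlinarith
    · exact hexp _ ⟨by simp [abs_of_pos hs0, hs1], circleMap_ne_center hs0.ne'⟩
    · set t := circleMap 0 s θ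
      have ht : t ∈ ball (0 : ℂ) 1 \ {0} :=
        ⟨by simp [t, abs_of_pos hs0, hs1], circleMap_ne_center hs0.ne'⟩
      have ht0 : t ≠ 0 := ht.2
      have hcomp : HasDerivAt (fun u => P (H u)) (deriv P (H t) * deriv H t) t :=
        (hP _).hasDerivAt.comp t (hH.differentiableAt (isOpen_pball.mem_nhds ht)).hasDerivAt
      have hRd := (hR.differentiableAt (isOpen_ball.mem_nhds ht.1)).hasDerivAt
      have hsum1 : HasDerivAt (fun u : ℂ => ∑ j : Fin m, y j * u ^ (-((j : ℤ) + 1)))
          (∑ j : Fin m, y j * (((-((j : ℤ) + 1) : ℤ) : ℂ) * t ^ (-((j : ℤ) + 1) - 1))) t :=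
        HasDerivAt.fun_sum fun j _ => (hasDerivAt_zpow _ t (Or.inl ht0)).const_mul _
      have hsum2 : HasDerivAt (fun u : ℂ => ∑ l : Fin N, b l * u ^ (l : ℕ))
          (∑ l : Fin N, b l * ((l : ℂ) * t ^ ((l : ℕ) - 1))) t :=
        HasDerivAt.fun_sum fun l _ => (hasDerivAt_pow _ t).const_mul _
      have hser := (hsum1.add hsum2).add ((hasDerivAt_pow N t).fun_mul hRd)
      have hev : (fun u => P (H u)) =ᶠ[𝓝 t] fun u => (∑ j : Fin m, y j * u ^ (-((j : ℤ) + 1))) +
          (∑ l : Fin N, b l * u ^ (l : ℕ)) + u ^ N * Rr u :=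
        (isOpen_pball.mem_nhds ht) |> fun h => Filter.mem_of_superset h fun u hu => hexp u hu
      show t * (deriv P (H t) * deriv H t) = _
      rw [hcomp.unique (hser.congr_of_eventuallyEq hev), mul_add, mul_add, Finset.mul_sum,
        Finset.mul_sum]
      refine congr_arg₂ (· + ·) (congr_arg₂ (· + ·) (Finset.sum_congr rfl fun j _ => ?_)
        (Finset.sum_congr rfl fun l _ => ?_)) ?_
      · rw [show t ^ (-((j : ℤ) + 1)) = t * t ^ (-((j : ℤ) + 1) - 1) by
          rw [← zpow_one_add₀ ht0, add_sub_cancel]]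
        push_cast
        ring
      · rcases Nat.eq_zero_or_pos (l : ℕ) with h | h
        · simp [h]
        · rw [show t ^ (l : ℕ) = t * t ^ ((l : ℕ) - 1) by rw [← pow_succ', Nat.sub_add_cancel h]]
          ring
      · rcases Nat.eq_zero_or_pos N with h | h
        · simp [h]
        · rw [show t ^ N = t * t ^ (N - 1) by rw [← pow_succ', Nat.sub_add_cancel h]]
          ring
  have hpos : 0 < ∫ s in r1..r2, bump' r1 r2 s * ∫ θ in (-π)..π,
      (conj (P (H (circleMap 0 s θ))) * (circleMap 0 s θ *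
        (deriv P (H (circleMap 0 s θ)) * deriv H (circleMap 0 s θ)))).re := by
    have hcontI : ContinuousOn (fun s => bump' r1 r2 s * ∫ θ in (-π)..π,
        (conj (P (H (circleMap 0 s θ))) * (circleMap 0 s θ *
          (deriv P (H (circleMap 0 s θ)) * deriv H (circleMap 0 s θ)))).re) (Icc r1 r2) := by
      refine bump'_continuous.continuousOn.mul ?_
      rw [continuousOn_iff_continuous_domRestrict]
      refine intervalIntegral.continuous_parametric_intervalIntegral_of_continuous' ?_ _ _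
      have hmaps : ∀ p : Icc r1 r2 × ℝ, circleMap 0 (p.1 : ℝ) p.2 ∈ ball (0 : ℂ) 1 \ {0} :=
        fun p => ⟨by simp [abs_of_pos (h1.trans_le p.1.2.1), p.1.2.2.trans_lt hr21],
          circleMap_ne_center (h1.trans_le p.1.2.1).ne'⟩
      have hcm : Continuous fun p : Icc r1 r2 × ℝ => circleMap 0 (p.1 : ℝ) p.2 := by
        unfold circleMap; fun_prop
      have hHc := hH.continuousOn.comp_continuous hcm hmaps
      have hH'c := (hH.deriv isOpen_pball).continuousOn.comp_continuous hcm hmaps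
      have hP'c : Continuous (deriv P) := ((hP.contDiff (n := 1)).continuous_deriv_one)
      exact Complex.continuous_re.comp ((Complex.continuous_conj.comp (hP.continuous.comp hHc)).mul
        (hcm.mul ((hP'c.comp hHc).mul hH'c)))
    calc (0 : ℝ) < π * L 1 * 1 := by positivity
      _ = ∫ s in r1..r2, π * L 1 * bump' r1 r2 s := by
          rw [intervalIntegral.integral_const_mul, integral_bump' hr]
      _ ≤ _ := intervalIntegral.integral_mono_on hr.le
          ((continuous_const.mul bump'_continuous).intervalIntegrable _ _)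
          (hcontI.intervalIntegrable_of_Icc hr.le) fun s hs => by
            rw [mul_comm]
            exact mul_le_mul_of_nonneg_left (hlow s hs) (bump'_nonneg hr s)
  linarith

end Vale.Agent.P142
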