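import Mathlib

/-!
The first coefficient bound of the area theorem: if `z⁻¹ + P z` is injective on the punctured
disc, with `P` holomorphic and `P 0 = 0`, then `‖P' 0‖ ≤ 1`.
-/

noncomputable section

open Set Filter MeasureTheory Metric
open scoped Topology Real ComplexConjugate ENNReal

namespace Vale.Agent.P142

/-- The real linear map `u ↦ a u + b ū`. -/
def ellipseMap (a b : ℂ) : ℂ →L[ℝ] ℂ :=
  a • ContinuousLinearMap.id ℝ ℂ + b • Complex.conjCLE.toContinuousLinearMap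

lemma ellipseMap_apply (a b u : ℂ) : ellipseMap a b u = a * u + b * conj u := by
  simp [ellipseMap]

lemma ellipseMap_det (a b : ℂ) : (ellipseMap a b).det = ‖a‖ ^ 2 - ‖b‖ ^ 2 := by
  rw [ContinuousLinearMap.det, ← LinearMap.det_toMatrix Complex.basisOneI, Matrix.det_fin_two]
  simp [LinearMap.toMatrix_apply, ellipseMap_apply, Complex.sq_norm, Complex.normSq_apply]
  ring

lemma circle_lower {k : ℂ → ℂ} (hk : DifferentiableOn ℂ k (ball 0 1)) {s : ℝ} (hs : 0 < s)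
    (hs1 : s < 1) :
    (1 / s ^ 4 + ‖k 0‖ ^ 2 : ℝ) ≤
      Real.circleAverage (fun z => ‖-(z ^ 2)⁻¹ + k z‖ ^ 2) 0 s := by
  let H : ℂ → ℂ := fun z => (-2 * z ^ 2 / (s : ℂ) ^ 4 + 2 * conj (k 0)) * k z
  have hsub : closure (ball (0 : ℂ) |s|) ⊆ ball 0 1 := by
    rw [abs_of_pos hs]
    exact closure_ball_subset_closedBall.trans (closedBall_subset_ball hs1)
  have hH : DifferentiableOn ℂ H (ball 0 1) :=
    (((differentiableOn_id.pow 2).const_mul (-2 : ℂ)).div_const _ |>.add_const _).mul hk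
  have hHc : DiffContOnCl ℂ H (ball 0 |s|) := (hH.mono hsub).diffContOnCl
  have hav := hHc.circleAverage
  have hsphere : sphere (0 : ℂ) |s| ⊆ ball 0 1 := by
    rw [abs_of_pos hs]; exact sphere_subset_closedBall.trans (closedBall_subset_ball hs1)
  have hHci : CircleIntegrable H 0 s :=
    (hH.continuousOn.mono hsphere).circleIntegrable'
  have hre : Real.circleAverage (fun z => (H z).re) 0 s = 2 * ‖k 0‖ ^ 2 := by
    have := Complex.reCLM.circleAverage_comp_comm hHci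
    simp only [Function.comp_def, Complex.reCLM_apply] at this
    rw [this, hav]
    simp [H, Complex.sq_norm, Complex.normSq_apply]
    ring
  have hci1 : CircleIntegrable (fun z => (H z).re) 0 s :=
    (Complex.continuous_re.comp_continuousOn (hH.continuousOn.mono hsphere)).circleIntegrable'
  have hci2 : CircleIntegrable (fun z => 1 / s ^ 4 - ‖k 0‖ ^ 2 + (H z).re) 0 s :=
    (circleIntegrable_const _ _ _).add hci1
  have hci3 : CircleIntegrable (fun z => ‖-(z ^ 2)⁻¹ + k z‖ ^ 2) 0 s := by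
    refine ContinuousOn.circleIntegrable' ?_
    refine ((ContinuousOn.add ?_ (hk.continuousOn.mono hsphere)).norm.pow 2)
    refine ((continuousOn_id.pow 2).inv₀ fun z hz => ?_).neg
    have : z ≠ 0 := by
      rintro rfl
      simp [abs_of_pos hs] at hz
      linarith
    exact pow_ne_zero 2 this
  calc (1 / s ^ 4 + ‖k 0‖ ^ 2 : ℝ)
      = Real.circleAverage (fun z => 1 / s ^ 4 - ‖k 0‖ ^ 2 + (H z).re) 0 s := by
        rw [Real.circleAverage_fun_add (circleIntegrable_const _ _ _) hci1,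
          Real.circleAverage_const, hre]
        ring
    _ ≤ _ := by
        refine Real.circleAverage_mono hci2 hci3 fun z hz => ?_
        have hzn : ‖z‖ = s := by simpa [abs_of_pos hs] using hz
        have hz0 : z ≠ 0 := norm_pos_iff.1 (hzn ▸ hs)
        have hconj : (z ^ 2)⁻¹ = conj (z ^ 2) / (s : ℂ) ^ 4 := by
          have : z * conj z = (s : ℂ) ^ 2 := by
            rw [Complex.mul_conj, Complex.normSq_eq_norm_sq, hzn]; norm_cast
          have hs' : (s : ℂ) ≠ 0 := Complex.ofReal_ne_zero.2 hs.ne'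
          field_simp
          rw [map_pow, show z ^ 2 * (conj z) ^ 2 = (z * conj z) ^ 2 by ring, this]
          ring
        have e1 : ‖-(z ^ 2)⁻¹ + k z‖ ^ 2 =
            1 / s ^ 4 + ‖k z‖ ^ 2 + (-2 * z ^ 2 / (s : ℂ) ^ 4 * k z).re := by
          rw [Complex.sq_norm, Complex.sq_norm, Complex.normSq_add, Complex.normSq_neg,
            map_inv₀, map_pow, Complex.normSq_eq_norm_sq z, hzn, hconj]
          rw [show (-(conj (z ^ 2) / (s : ℂ) ^ 4)) * conj (k z)
              = conj (-(z ^ 2 / (s : ℂ) ^ 4) * k z) by simp, Complex.conj_re]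
          rw [show -2 * z ^ 2 / (s : ℂ) ^ 4 * k z
              = 2 * (-(z ^ 2 / (s : ℂ) ^ 4) * k z) by ring]
          simp
          ring
        have e2 : 2 * (conj (k 0) * k z).re - ‖k 0‖ ^ 2 ≤ ‖k z‖ ^ 2 := by
          have h := sq_nonneg ‖k z - k 0‖
          rw [Complex.sq_norm, Complex.normSq_sub] at h
          simp only [Complex.sq_norm]
          rw [mul_comm (conj (k 0))]
          linarith
        simp only [H, add_mul, Complex.add_re]
        rw [e1, show (2 * conj (k 0) * k z).re = 2 * (conj (k 0) * k z).re by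
          rw [mul_assoc]; simp]
        linarith

/-- The area of the image of an annulus from below. -/
lemma area_lower {P : ℂ → ℂ} (hP : DifferentiableOn ℂ P (ball 0 1))
    (hinj : InjOn (fun z => z⁻¹ + P z) (ball 0 1 \ {0})) {ρ r : ℝ} (hρ : 0 < ρ) (hρr : ρ < r)
    (hr : r < 1) :
    ENNReal.ofReal (π * (1 / ρ ^ 2 - 1 / r ^ 2 + ‖deriv P 0‖ ^ 2 * (r ^ 2 - ρ ^ 2))) ≤
      volume ((fun z => z⁻¹ + P z) '' (ball 0 r \ closedBall 0 ρ)) := by
  set g := fun z => z⁻¹ + P z with hg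
  set S : Set ℂ := ball 0 r \ closedBall 0 ρ with hSdef
  have hS : MeasurableSet S := measurableSet_ball.diff measurableSet_closedBall
  set k := deriv P with hkdef
  have hk : DifferentiableOn ℂ k (ball 0 1) := hP.deriv isOpen_ball
  have hmem : ∀ z, z ∈ S → z ∈ ball (0 : ℂ) 1 ∧ z ≠ 0 ∧ ρ < ‖z‖ ∧ ‖z‖ < r := by
    intro z hz
    obtain ⟨h1, h2⟩ := hz
    simp at h1 h2
    exact ⟨by simp; linarith, fun h => by simp [h] at h2; linarith, h2, h1⟩
  set d : ℂ → ℂ := fun z => -(z ^ 2)⁻¹ + k z with hd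
  have hder : ∀ z ∈ S, HasFDerivWithinAt g (ellipseMap (d z) 0) S z := by
    intro z hz
    obtain ⟨h1, h2, -⟩ := hmem z hz
    have := ((hasDerivAt_inv h2).add
      ((hP.differentiableAt (isOpen_ball.mem_nhds h1)).hasDerivAt)).complexToReal_fderiv
    refine (this.congr_fderiv ?_).hasFDerivWithinAt
    ext u
    simp [ellipseMap_apply, d, k]
  have hsub : S ⊆ ball 0 1 \ {0} := fun z hz =>
    mem_sdiff _ |>.2 ⟨(hmem z hz).1, by simpa using (hmem z hz).2.1⟩
  have hinj' : InjOn g S := hinj.mono hsub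
  have hvol : volume (g '' S) = ∫⁻ z in S, ENNReal.ofReal (‖d z‖ ^ 2) := by
    have := lintegral_image_eq_lintegral_abs_det_fderiv_mul volume hS hder hinj' fun _ => 1
    simp only [lintegral_one, Measure.restrict_apply_univ, mul_one, ellipseMap_det, norm_zero,
      ne_eq, OfNat.ofNat_ne_zero, not_false_eq_true, zero_pow, sub_zero, abs_pow,
      abs_norm] at this
    exact this
  rw [hvol]
  have hcpt : IsCompact (closedBall (0 : ℂ) r \ ball 0 ρ) :=
    (isCompact_closedBall _ _).diff isOpen_ball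
  have hdc : ContinuousOn (fun z => ‖d z‖ ^ 2) (closedBall (0 : ℂ) r \ ball 0 ρ) := by
    refine ((ContinuousOn.add ?_ (hk.continuousOn.mono fun z hz => ?_)).norm.pow 2)
    · refine ((continuousOn_id.pow 2).inv₀ fun z hz => pow_ne_zero 2 fun h => ?_).neg
      obtain ⟨-, h2⟩ := hz
      simp at h h2
      simp [h] at h2
      linarith
    · have := hz.1
      simp at this ⊢
      linarith
  have hsub2 : S ⊆ closedBall (0 : ℂ) r \ ball 0 ρ := by
    intro z hz
    obtain ⟨-, -, h3, h4⟩ := hmem z hz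
    refine ⟨?_, ?_⟩ <;> simp <;> linarith
  have hint : IntegrableOn (fun z => ‖d z‖ ^ 2) S :=
    (hdc.integrableOn_compact hcpt).mono_set hsub2
  rw [← ofReal_integral_eq_lintegral_ofReal hint (Eventually.of_forall fun z => sq_nonneg _)]
  refine ENNReal.ofReal_le_ofReal ?_
  rw [← integral_indicator hS, ← Complex.integral_comp_polarCoord_symm]
  have heq : ∀ p : ℝ × ℝ, p ∈ polarCoord.target →
      p.1 • S.indicator (fun z => ‖d z‖ ^ 2) (Complex.polarCoord.symm p) =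
        (Ioo ρ r ×ˢ Ioo (-π) π).indicator (fun q : ℝ × ℝ => q.1 * ‖d (circleMap 0 q.1 q.2)‖ ^ 2) p := by
    rintro ⟨s, θ⟩ ⟨hs, hθ⟩
    simp only [mem_Ioi] at hs
    have hpc : Complex.polarCoord.symm (s, θ) = circleMap 0 s θ := by
      simp [Complex.polarCoord_symm_apply, circleMap, Complex.exp_mul_I]
    rw [hpc]
    by_cases h : s ∈ Ioo ρ r
    · rw [indicator_of_mem (show ((s, θ) : ℝ × ℝ) ∈ Ioo ρ r ×ˢ Ioo (-π) π from ⟨h, hθ⟩),
        indicator_of_mem, smul_eq_mul]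
      simp [S, abs_of_pos hs, h.1, h.2]
    · rw [indicator_of_notMem (fun hc : ((s, θ) : ℝ × ℝ) ∈ Ioo ρ r ×ˢ Ioo (-π) π => h hc.1), indicator_of_notMem,
        smul_zero]
      intro hc
      simp [S, abs_of_pos hs] at hc
      exact h ⟨hc.2, hc.1⟩
  rw [setIntegral_congr_fun polarCoord.open_target.measurableSet heq,
    setIntegral_indicator (measurableSet_Ioo.prod measurableSet_Ioo),
    inter_eq_right.2 (show Ioo ρ r ×ˢ Ioo (-π) π ⊆ polarCoord.target from
      prod_mono (fun s hs => mem_Ioi.2 (hρ.trans hs.1)) subset_rfl)]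
  have hF : ContinuousOn (fun q : ℝ × ℝ => q.1 * ‖d (circleMap 0 q.1 q.2)‖ ^ 2)
      (Icc ρ r ×ˢ Icc (-π) π) := by
    refine continuousOn_fst.mul (hdc.comp ?_ fun q hq => ?_)
    · exact Continuous.continuousOn (by unfold circleMap; fun_prop)
    · obtain ⟨⟨h1, h2⟩, -⟩ := hq
      simp [abs_of_pos (hρ.trans_le h1), h1, h2]
  have hFi : IntegrableOn (fun q : ℝ × ℝ => q.1 * ‖d (circleMap 0 q.1 q.2)‖ ^ 2)
      (Ioo ρ r ×ˢ Ioo (-π) π) (volume.prod volume) :=
    (hF.integrableOn_compact (isCompact_Icc.prod isCompact_Icc)).mono_set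
      (prod_mono Ioo_subset_Icc_self Ioo_subset_Icc_self)
  rw [Measure.volume_eq_prod, setIntegral_prod _ hFi]
  have hinner : ∀ s ∈ Ioo ρ r, 2 * π * (1 / s ^ 3 + ‖k 0‖ ^ 2 * s) ≤
      ∫ θ in Ioo (-π) π, s * ‖d (circleMap 0 s θ)‖ ^ 2 := by
    intro s hs
    have hs0 : 0 < s := hρ.trans hs.1
    have hlow := circle_lower hk hs0 (hs.2.trans hr)
    rw [integral_const_mul, ← integral_Ioc_eq_integral_Ioo,
      ← intervalIntegral.integral_of_le (by linarith [Real.pi_pos])]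
    have hper : Function.Periodic (fun θ => ‖d (circleMap 0 s θ)‖ ^ 2) (2 * π) := fun θ => by
      simp only [periodic_circleMap 0 s θ]
    have := hper.intervalIntegral_add_eq (-π) 0
    rw [show -π + 2 * π = π by ring, zero_add] at this
    rw [this]
    rw [Real.circleAverage_def, smul_eq_mul] at hlow
    calc 2 * π * (1 / s ^ 3 + ‖k 0‖ ^ 2 * s) = s * (2 * π * (1 / s ^ 4 + ‖k 0‖ ^ 2)) := by
          field_simp
      _ ≤ _ := by
          refine mul_le_mul_of_nonneg_left ?_ hs0.le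
          have h2 : (2 * π) * (1 / s ^ 4 + ‖k 0‖ ^ 2) ≤
              (2 * π) * ((2 * π)⁻¹ * ∫ θ in (0 : ℝ)..2 * π, ‖d (circleMap 0 s θ)‖ ^ 2) :=
            mul_le_mul_of_nonneg_left hlow (by positivity)
          rwa [← mul_assoc (2 * π) (2 * π)⁻¹, mul_inv_cancel₀ (by positivity), one_mul] at h2
  have hc : ContinuousOn (fun s : ℝ => 2 * π * (1 / s ^ 3 + ‖k 0‖ ^ 2 * s)) (Icc ρ r) := by
    refine continuousOn_const.mul ((continuousOn_const.div (continuousOn_id.pow 3)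
      fun s hs => pow_ne_zero 3 (hρ.trans_le hs.1).ne').add (continuousOn_const.mul continuousOn_id))
  have hFi' : IntegrableOn (fun s => ∫ θ in Ioo (-π) π, s * ‖d (circleMap 0 s θ)‖ ^ 2)
      (Ioo ρ r) := by
    have := hFi
    rw [IntegrableOn, ← Measure.prod_restrict] at this
    exact this.integral_prod_left
  refine le_trans (le_of_eq ?_) (setIntegral_mono_on
    ((hc.integrableOn_compact isCompact_Icc).mono_set Ioo_subset_Icc_self) hFi'
    measurableSet_Ioo hinner)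
  have hu : ∀ s ∈ uIcc ρ r, HasDerivAt (fun s : ℝ => π * (-(1 / s ^ 2) + ‖k 0‖ ^ 2 * s ^ 2))
      (2 * π * (1 / s ^ 3 + ‖k 0‖ ^ 2 * s)) s := by
    intro s hs
    rw [uIcc_of_le hρr.le] at hs
    have hs0 : s ≠ 0 := (hρ.trans_le hs.1).ne'
    have h1 : HasDerivAt (fun s : ℝ => (s ^ 2)⁻¹) (-(2 * s) / (s ^ 2) ^ 2) s := by
      simpa using ((hasDerivAt_pow 2 s).fun_inv (pow_ne_zero 2 hs0))
    have h2 : HasDerivAt (fun s : ℝ => s ^ 2) (2 * s) s := by simpa using hasDerivAt_pow 2 s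
    have := (h1.neg.add (h2.const_mul (‖k 0‖ ^ 2))).const_mul π
    convert! this using 1
    · funext x; simp [one_div]
    · field_simp
  rw [← integral_Ioc_eq_integral_Ioo, ← intervalIntegral.integral_of_le hρr.le,
    intervalIntegral.integral_eq_sub_of_hasDerivAt hu
      ((hc.mono (by rw [uIcc_of_le hρr.le])).intervalIntegrable)]
  ring

lemma norm_g_mem {ρ s α B C : ℝ} {z b R : ℂ} (hρ : 0 < ρ) (hz : ‖z‖ = s) (hρs : ρ ≤ s)
    (hα : 1 / ρ ≤ α) (hb : ‖b‖ = B) (hR : ‖R‖ ≤ C * s ^ 2) (hs : 0 < s)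
    (hsmall : B ^ 2 * ρ * s ^ 2 ≤ α) (hBα : B * ρ ≤ α) :
    ‖(α : ℂ) * (z⁻¹ + b * z + R) - b * ρ * conj (z⁻¹ + b * z + R)‖ ≤
      (α - B * ρ) / s + B * α * s + 2 * α * C * s ^ 2 := by
  have hz0 : z ≠ 0 := norm_pos_iff.1 (hz ▸ hs)
  have hzc : z * conj z = (s : ℂ) ^ 2 := by
    rw [Complex.mul_conj, Complex.normSq_eq_norm_sq, hz]; norm_cast
  have hbc : b * conj b = (B : ℂ) ^ 2 := by
    rw [Complex.mul_conj, Complex.normSq_eq_norm_sq, hb]; norm_cast
  have hconjinv : conj z⁻¹ = z / (s : ℂ) ^ 2 := by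
    rw [← hzc, map_inv₀]
    have : conj z ≠ 0 := by simpa using hz0
    field_simp
  have hconjz : conj z = (s : ℂ) ^ 2 / z := by rw [← hzc]; field_simp
  have hid : (α : ℂ) * (z⁻¹ + b * z + R) - b * ρ * conj (z⁻¹ + b * z + R) =
      ((α - B ^ 2 * ρ * s ^ 2 : ℝ) : ℂ) * z⁻¹ + ((α - ρ / s ^ 2 : ℝ) : ℂ) * (b * z)
        + ((α : ℂ) * R - b * ρ * conj R) := by
    simp only [map_add, map_mul, hconjinv, hconjz]
    push_cast
    have hs' : (s : ℂ) ≠ 0 := Complex.ofReal_ne_zero.2 hs.ne'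
    rw [← hbc]
    field_simp
    ring
  have hα0 : 0 ≤ α := le_trans (by positivity) hα
  have hρs2 : ρ / s ^ 2 ≤ α := by
    refine le_trans ?_ hα
    rw [div_le_div_iff₀ (by positivity) hρ]
    nlinarith
  have hC0 : 0 ≤ C * s ^ 2 := le_trans (norm_nonneg _) hR
  have hB : 0 ≤ B := hb ▸ norm_nonneg b
  rw [hid]
  refine (norm_add₃_le).trans ?_
  rw [norm_mul, norm_mul, Complex.norm_real, Complex.norm_real, norm_inv, norm_mul, hz, hb,
    Real.norm_eq_abs, Real.norm_eq_abs, abs_of_nonneg (sub_nonneg.2 hsmall),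
    abs_of_nonneg (sub_nonneg.2 hρs2)]
  have h3 : ‖(α : ℂ) * R - b * ρ * conj R‖ ≤ 2 * α * (C * s ^ 2) := by
    refine (norm_sub_le _ _).trans ?_
    rw [norm_mul, norm_mul, norm_mul, Complex.norm_real, Complex.norm_real, RCLike.norm_conj, hb,
      Real.norm_eq_abs, Real.norm_eq_abs, abs_of_nonneg hα0, abs_of_pos hρ]
    nlinarith [mul_le_mul_of_nonneg_left hR hα0, mul_le_mul hBα hR (norm_nonneg _) hα0]
  have h4 : (α - B ^ 2 * ρ * s ^ 2) * s⁻¹ + (α - ρ / s ^ 2) * (B * s)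
      = (α - B * ρ) / s + B * α * s - B ^ 2 * ρ * s := by
    field_simp
    ring
  have : 0 ≤ B ^ 2 * ρ * s := by positivity
  linarith

lemma inner_le {ρ α B C K : ℝ} (hρ : 0 < ρ) (hρ1 : ρ ≤ 1) (hB : 0 ≤ B) (hC : 0 ≤ C)
    (hK : K = 4 * C + 2) (hα : α = 1 / ρ + K * ρ ^ 2) (h3 : B ^ 2 * ρ + B * K * ρ ≤ 1) :
    (α - B * ρ) / ρ + B * α * ρ + 2 * α * C * ρ ^ 2 ≤ α ^ 2 - B ^ 2 * ρ ^ 2 := by
  have e : α ^ 2 - B ^ 2 * ρ ^ 2 - ((α - B * ρ) / ρ + B * α * ρ + 2 * α * C * ρ ^ 2) =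
      α * ρ ^ 2 * (K - 2 * C) - B ^ 2 * ρ ^ 2 - B * K * ρ ^ 3 := by
    rw [hα]; field_simp; ring
  have hK0 : 0 ≤ K := by linarith
  have h4 : ρ ≤ α * ρ ^ 2 := by
    rw [hα, show (1 / ρ + K * ρ ^ 2) * ρ ^ 2 = ρ + K * ρ ^ 4 by field_simp]
    have : 0 ≤ K * ρ ^ 4 := by positivity
    linarith
  have h5 : ρ * 1 ≤ α * ρ ^ 2 * (K - 2 * C) := mul_le_mul h4 (by linarith) zero_le_one (by linarith)
  have h6 : (B ^ 2 * ρ + B * K * ρ) * ρ ≤ ρ * 1 := by
    rw [mul_comm ρ 1]; exact mul_le_mul_of_nonneg_right h3 hρ.le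
  have h7 : B * K * ρ ^ 3 ≤ B * K * ρ ^ 2 :=
    mul_le_mul_of_nonneg_left (pow_le_pow_of_le_one hρ.le hρ1 (by norm_num)) (by positivity)
  linarith [show (B ^ 2 * ρ + B * K * ρ) * ρ = B ^ 2 * ρ ^ 2 + B * K * ρ ^ 2 by ring]

lemma radial_le {ρ s α B C : ℝ} (hρ : 0 < ρ) (hs : ρ ≤ s) (hs1 : s ≤ 1) (hB : 0 ≤ B) (hC : 0 ≤ C)
    (hα : 0 < α) (hBρ : B * ρ ≤ α / 2) (h2' : 2 * ρ * (B + 4 * C) < 1) :
    (α - B * ρ) / s + B * α * s + 2 * α * C * s ^ 2 ≤
      (α - B * ρ) / ρ + B * α * ρ + 2 * α * C * ρ ^ 2 := by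
  have hs0 : 0 < s := hρ.trans_le hs
  have h3 : α * (B + 4 * C) ≤ (α - B * ρ) / (s * ρ) := by
    rw [le_div_iff₀ (by positivity)]
    have h4 : α * (B + 4 * C) * (s * ρ) ≤ α * (B + 4 * C) * ρ :=
      mul_le_mul_of_nonneg_left (mul_le_of_le_one_left hρ.le hs1) (by positivity)
    have h5 : α * (2 * ρ * (B + 4 * C)) ≤ α * 1 := mul_le_mul_of_nonneg_left h2'.le hα.le
    linarith
  have h6 : 2 * α * C * (s + ρ) ≤ 2 * α * C * 2 :=
    mul_le_mul_of_nonneg_left (by linarith) (by positivity)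
  have key : 0 ≤ (s - ρ) * ((α - B * ρ) / (s * ρ) - B * α - 2 * α * C * (s + ρ)) :=
    mul_nonneg (by linarith) (by linarith)
  have e : (s - ρ) * ((α - B * ρ) / (s * ρ) - B * α - 2 * α * C * (s + ρ)) =
      ((α - B * ρ) / ρ + B * α * ρ + 2 * α * C * ρ ^ 2)
        - ((α - B * ρ) / s + B * α * s + 2 * α * C * s ^ 2) := by
    field_simp; ring
  linarith

/-- The first coefficient bound of the area theorem. -/
theorem norm_deriv_le_one {P : ℂ → ℂ} (hP : DifferentiableOn ℂ P (ball 0 1)) (hP0 : P 0 = 0)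
    (hinj : InjOn (fun z => z⁻¹ + P z) (ball 0 1 \ {0})) : ‖deriv P 0‖ ≤ 1 := by
  set b := deriv P 0 with hb
  set B := ‖b‖ with hB
  have hB0 : 0 ≤ B := norm_nonneg _
  have h0 : (0 : ℂ) ∈ ball (0 : ℂ) 1 := by simp
  -- the remainder is quadratic
  have hnh : ball (0 : ℂ) 1 ∈ 𝓝 (0 : ℂ) := isOpen_ball.mem_nhds h0
  have hd1 : DifferentiableOn ℂ (dslope P 0) (ball 0 1) :=
    (Complex.differentiableOn_dslope hnh).2 hP
  have hd2 : DifferentiableOn ℂ (dslope (dslope P 0) 0) (ball 0 1) :=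
    (Complex.differentiableOn_dslope hnh).2 hd1
  have hPz : ∀ z : ℂ, P z = b * z + z ^ 2 * dslope (dslope P 0) 0 z := by
    intro z
    have h1 : z * dslope P 0 z = P z := by
      have := sub_smul_dslope P 0 z
      simpa [hP0] using this
    have h2 : z * dslope (dslope P 0) 0 z = dslope P 0 z - b := by
      have := sub_smul_dslope (dslope P 0) 0 z
      simpa [dslope_same] using this
    rw [← h1, show z ^ 2 * dslope (dslope P 0) 0 z = z * (z * dslope (dslope P 0) 0 z) by ring, h2]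
    ring
  suffices h : ∀ r ∈ Ioo (1 / 2 : ℝ) 1, B ^ 2 * r ^ 2 ≤ 1 / r ^ 2 by
    by_contra hlt
    push Not at hlt
    have ht : Tendsto (fun r : ℝ => B ^ 2 * r ^ 2 - 1 / r ^ 2) (𝓝[<] 1) (𝓝 (B ^ 2 - 1)) := by
      have hc : ContinuousAt (fun r : ℝ => B ^ 2 * r ^ 2 - 1 / r ^ 2) 1 := by
        fun_prop (disch := norm_num)
      simpa using hc.tendsto.mono_left nhdsWithin_le_nhds
    have hle : B ^ 2 - 1 ≤ 0 := le_of_tendsto ht (by
      filter_upwards [Ioo_mem_nhdsLT (show (1 / 2 : ℝ) < 1 by norm_num)] with r hr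
      linarith [h r hr])
    nlinarith
  intro r hr
  obtain ⟨C, hC⟩ := (isCompact_closedBall (0 : ℂ) r).exists_bound_of_continuousOn
    (hd2.continuousOn.mono (closedBall_subset_ball hr.2))
  have hC0 : 0 ≤ C := le_trans (norm_nonneg _) (hC 0 (by simp; linarith [hr.1]))
  set K := 4 * C + 2 with hK
  suffices h : ∀ᶠ ρ in 𝓝[>] (0 : ℝ),
      -(1 / r ^ 2) + B ^ 2 * (r ^ 2 - ρ ^ 2) ≤ 2 * K * ρ + K ^ 2 * ρ ^ 4 - B ^ 2 * ρ ^ 2 by
    have ht : ∀ f : ℝ → ℝ, Continuous f → Tendsto f (𝓝[>] 0) (𝓝 (f 0)) := fun f hf =>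
      (hf.tendsto 0).mono_left nhdsWithin_le_nhds
    have := le_of_tendsto_of_tendsto (ht _ (by fun_prop)) (ht _ (by fun_prop)) h
    simp at this
    rw [one_div]
    linarith
  have hev : ∀ᶠ ρ in 𝓝[>] (0 : ℝ), 0 < ρ ∧ ρ < r ∧ ρ < 1 ∧ B * ρ ≤ 1 / (2 * ρ) ∧
      2 * ρ * (B + 4 * C) < 1 ∧ B ^ 2 * ρ + (B * K) * ρ ≤ 1 := by
    have hh : ∀ (c : ℝ) (f : ℝ → ℝ), Continuous f → f 0 < c → ∀ᶠ ρ in 𝓝[>] (0 : ℝ), f ρ < c :=
      fun c f hf h => nhdsWithin_le_nhds ((hf.tendsto 0).eventually (Iio_mem_nhds h))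
    filter_upwards [self_mem_nhdsWithin, hh r id continuous_id (by simp; linarith [hr.1]),
      hh 1 id continuous_id (by simp), hh 1 (fun ρ => 2 * B * ρ ^ 2) (by fun_prop) (by simp),
      hh 1 (fun ρ => 2 * ρ * (B + 4 * C)) (by fun_prop) (by simp),
      hh 1 (fun ρ => B ^ 2 * ρ + B * K * ρ) (by fun_prop) (by simp)]
      with ρ h1 h2 h3 h4 h5 h6
    have h1' : 0 < ρ := h1
    refine ⟨h1', h2, h3, ?_, h5, h6.le⟩
    rw [le_div_iff₀ (by positivity)]
    linarith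
  filter_upwards [hev] with ρ hh
  obtain ⟨hρ, hρr, hρ1, hB1, hB2, hB3⟩ := hh
  set α := 1 / ρ + K * ρ ^ 2 with hα
  have hK0 : 0 ≤ K := by positivity
  have hα1 : 1 / ρ ≤ α := by rw [hα]; nlinarith
  have hinv : 0 < 1 / ρ := by positivity
  have hBρ : B * ρ ≤ α / 2 := by
    have : 1 / (2 * ρ) = 1 / ρ / 2 := by ring
    linarith
  have hα0 : 0 < α := by linarith
  -- containment in the ellipse
  have hcont : (fun z => z⁻¹ + P z) '' (ball 0 r \ closedBall 0 ρ) ⊆
      ellipseMap (α : ℂ) (b * ρ) '' closedBall 0 1 := by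
    rintro _ ⟨z, ⟨hz1, hz2⟩, rfl⟩
    simp only [mem_ball, mem_closedBall, dist_zero_right, not_le] at hz1 hz2
    set s := ‖z‖ with hs
    set D := α ^ 2 - B ^ 2 * ρ ^ 2 with hD
    have hDpos : 0 < D := by
      rw [hD, show α ^ 2 - B ^ 2 * ρ ^ 2 = (α - B * ρ) * (α + B * ρ) by ring]
      exact mul_pos (by linarith) (by nlinarith)
    set w := z⁻¹ + P z with hw
    refine ⟨((α : ℂ) * w - b * ρ * conj w) / (D : ℂ), ?_, ?_⟩
    · rw [mem_closedBall, dist_zero_right, norm_div, Complex.norm_real, Real.norm_eq_abs,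
        abs_of_pos hDpos, div_le_one hDpos]
      have hs0 : 0 < s := hρ.trans hz2
      have hs1 : s ≤ 1 := by linarith [hr.2]
      have hzC : ‖dslope (dslope P 0) 0 z‖ ≤ C := hC z (by simp [← hs]; linarith)
      have hbound := norm_g_mem (R := z ^ 2 * dslope (dslope P 0) 0 z) (C := C) (b := b) (B := B)
        hρ hs.symm hz2.le hα1 rfl
        (by rw [norm_mul, norm_pow, ← hs, mul_comm]
            exact mul_le_mul_of_nonneg_right hzC (sq_nonneg _)) hs0
        (by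
          have : B ^ 2 * ρ * s ^ 2 ≤ B ^ 2 * ρ * 1 :=
            mul_le_mul_of_nonneg_left (by nlinarith) (by positivity)
          have h1 : (1 : ℝ) ≤ 1 / ρ := by rw [le_div_iff₀ hρ]; linarith
          nlinarith [mul_nonneg (mul_nonneg hB0 hK0) hρ.le])
        (by linarith)
      rw [show z⁻¹ + b * z + z ^ 2 * dslope (dslope P 0) 0 z = w by rw [hw, hPz]; ring] at hbound
      refine hbound.trans ?_
      -- compare with the value at the inner circle
      have h1 : (α - B * ρ) / ρ + B * α * ρ + 2 * α * C * ρ ^ 2 ≤ D :=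
        inner_le hρ hρ1.le hB0 hC0 rfl hα hB3
      refine le_trans ?_ h1
      exact radial_le hρ hz2.le hs1 hB0 hC0 hα0 hBρ hB2
    · rw [ellipseMap_apply]
      have hD' : (D : ℂ) ≠ 0 := Complex.ofReal_ne_zero.2 hDpos.ne'
      simp only [map_div₀, map_sub, map_mul, Complex.conj_ofReal, Complex.conj_conj]
      field_simp
      rw [hD]
      push_cast
      rw [show (B : ℂ) ^ 2 = b * conj b by
        rw [Complex.mul_conj, Complex.normSq_eq_norm_sq]; norm_cast]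
      ring
  have hD0 : 0 ≤ α ^ 2 - B ^ 2 * ρ ^ 2 := by
    rw [show α ^ 2 - B ^ 2 * ρ ^ 2 = (α - B * ρ) * (α + B * ρ) by ring]
    exact mul_nonneg (by linarith) (by nlinarith)
  have hlow := (area_lower hP hinj hρ hρr hr.2).trans (measure_mono hcont)
  rw [Measure.addHaar_image_continuousLinearMap] at hlow
  rw [show LinearMap.det ((ellipseMap (α : ℂ) (b * ρ)) : ℂ →ₗ[ℝ] ℂ) = _ from ellipseMap_det _ _,
    Complex.volume_closedBall,
    norm_mul, Complex.norm_real, Complex.norm_real, Real.norm_eq_abs, Real.norm_eq_abs,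
    abs_of_pos hα0, abs_of_pos hρ, mul_pow, ← hB,
    abs_of_nonneg hD0] at hlow
  simp only [ENNReal.ofReal_one, one_pow, one_mul] at hlow
  rw [show (NNReal.pi : ℝ≥0∞) = ENNReal.ofReal π by
        rw [← ENNReal.ofReal_coe_nnreal, NNReal.coe_real_pi],
    ← ENNReal.ofReal_mul hD0,
    ENNReal.ofReal_le_ofReal_iff (by
      exact mul_nonneg hD0 Real.pi_pos.le),
    mul_comm (α ^ 2 - B ^ 2 * ρ ^ 2)] at hlow
  have h := le_of_mul_le_mul_left hlow Real.pi_pos
  have e : α ^ 2 = 1 / ρ ^ 2 + 2 * K * ρ + K ^ 2 * ρ ^ 4 := by rw [hα]; field_simp; ring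
  linarith

end Vale.Agent.P142
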