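import Mathlib

/-!
Quadratic forms given by upper triangular lists of integers, a certificate of their positivity,
and their expansion into Hermitian matrices of integers.
-/

noncomputable section

open scoped ComplexConjugate

namespace Vale.Agent.P142

section
variable {α : Type*}

/-- `∑ᵢ cᵢ f aᵢ` over two lists. -/
def pairSum (c : List ℤ) (as : List α) (f : α → ℝ) : ℝ :=
  match c, as with
  | x :: xs, a :: rest => (x : ℝ) * f a + pairSum xs rest f
  | _, _ => 0

/-- The symmetric sum with weights from an upper triangular list. -/
def qfn (f : α → α → ℝ) : List (List ℤ) → List α → ℝ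
  | (d :: e) :: rows, u :: us => (d : ℝ) * f u u + 2 * pairSum e us (f u) + qfn f rows us
  | _, _ => 0

lemma pairSum_add (c : List ℤ) (as : List α) (f g : α → ℝ) :
    pairSum c as (fun a => f a + g a) = pairSum c as f + pairSum c as g := by
  induction c generalizing as with
  | nil => simp [pairSum]
  | cons x xs ih => cases as with
    | nil => simp [pairSum]
    | cons a rest => simp only [pairSum, ih]; ring

lemma pairSum_mul (c : List ℤ) (as : List α) (k : ℝ) (f : α → ℝ) :
    pairSum c as (fun a => k * f a) = k * pairSum c as f := by
  induction c generalizing as with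
  | nil => simp [pairSum]
  | cons x xs ih => cases as with
    | nil => simp [pairSum]
    | cons a rest => simp only [pairSum, ih]; ring

lemma pairSum_congr (c : List ℤ) (as : List α) {f g : α → ℝ} (h : ∀ a ∈ as, f a = g a) :
    pairSum c as f = pairSum c as g := by
  induction c generalizing as with
  | nil => simp [pairSum]
  | cons x xs ih => cases as with
    | nil => simp [pairSum]
    | cons a rest =>
      simp only [pairSum, h a (by simp), ih rest fun b hb => h b (by simp [hb])]

lemma pairSum_map {β : Type*} (φ : β → α) (c : List ℤ) (as : List β) (f : α → ℝ) :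
    pairSum c (as.map φ) f = pairSum c as (fun b => f (φ b)) := by
  induction c generalizing as with
  | nil => simp [pairSum]
  | cons x xs ih => cases as with
    | nil => simp [pairSum]
    | cons a rest => simp [pairSum, ih]

lemma qfn_add (rows : List (List ℤ)) (us : List α) (f g : α → α → ℝ) :
    qfn (fun a b => f a b + g a b) rows us = qfn f rows us + qfn g rows us := by
  induction rows generalizing us with
  | nil => simp [qfn]
  | cons r rows ih =>
    cases r with
    | nil => simp [qfn]
    | cons d e => cases us with
      | nil => simp [qfn]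
      | cons u us => simp only [qfn, ih, pairSum_add]; ring

lemma qfn_mul (rows : List (List ℤ)) (us : List α) (k : ℝ) (f : α → α → ℝ) :
    qfn (fun a b => k * f a b) rows us = k * qfn f rows us := by
  induction rows generalizing us with
  | nil => simp [qfn]
  | cons r rows ih =>
    cases r with
    | nil => simp [qfn]
    | cons d e => cases us with
      | nil => simp [qfn]
      | cons u us => simp only [qfn, ih, pairSum_mul]; ring

lemma qfn_congr (rows : List (List ℤ)) (us : List α) {f g : α → α → ℝ}
    (h : ∀ a ∈ us, ∀ b ∈ us, f a b = g a b) : qfn f rows us = qfn g rows us := by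
  induction rows generalizing us with
  | nil => simp [qfn]
  | cons r rows ih =>
    cases r with
    | nil => simp [qfn]
    | cons d e => cases us with
      | nil => simp [qfn]
      | cons u us =>
        simp only [qfn, h u (by simp) u (by simp),
          pairSum_congr e us (fun a ha => h u (by simp) a (by simp [ha])),
          ih us fun a ha b hb => h a (by simp [ha]) b (by simp [hb])]

lemma qfn_map {β : Type*} (φ : β → α) (rows : List (List ℤ)) (us : List β) (f : α → α → ℝ) :
    qfn f rows (us.map φ) = qfn (fun a b => f (φ a) (φ b)) rows us := by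
  induction rows generalizing us with
  | nil => simp [qfn]
  | cons r rows ih =>
    cases r with
    | nil => simp [qfn]
    | cons d e => cases us with
      | nil => simp [qfn]
      | cons u us => simp [qfn, ih, pairSum_map]

end

section positivity
variable {V : Type*} [AddCommGroup V] [Module ℝ V]

/-- Linear combination with integer coefficients. -/
def combV : List ℤ → List V → V
  | x :: xs, a :: rest => (x : ℝ) • a + combV xs rest
  | _, _ => 0

lemma pairSum_linear (c : List ℤ) (as : List V) (φ : V →ₗ[ℝ] ℝ) :
    pairSum c as φ = φ (combV c as) := by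
  induction c generalizing as with
  | nil => simp [pairSum, combV]
  | cons x xs ih => cases as with
    | nil => simp [pairSum, combV]
    | cons a rest => simp [pairSum, combV, ih]

/-- The upper triangle of `w wᵀ`. -/
def outerU : List ℤ → List (List ℤ)
  | x :: xs => (x * x :: xs.map (x * ·)) :: outerU xs
  | [] => []

omit [AddCommGroup V] [Module ℝ V] in
lemma pairSum_scale (x : ℤ) (c : List ℤ) (as : List V) (f : V → ℝ) :
    pairSum (c.map (x * ·)) as f = (x : ℝ) * pairSum c as f := by
  induction c generalizing as with
  | nil => simp [pairSum]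
  | cons y ys ih => cases as with
    | nil => simp [pairSum]
    | cons a rest => simp [pairSum, ih]; ring

lemma qfn_outerU (B : V →ₗ[ℝ] V →ₗ[ℝ] ℝ) (hs : ∀ a b, B a b = B b a) (w : List ℤ) (us : List V) :
    qfn (fun a b => B a b) (outerU w) us = B (combV w us) (combV w us) := by
  induction w generalizing us with
  | nil => simp [qfn, outerU, combV]
  | cons x xs ih => cases us with
    | nil => simp [qfn, outerU, combV]
    | cons u us =>
      simp only [qfn, outerU, combV, pairSum_scale, pairSum_linear xs us (B u), ih, map_add,
        map_smul, LinearMap.add_apply, LinearMap.smul_apply, smul_eq_mul, hs (combV xs us) u]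
      push_cast
      ring

/-- Entrywise difference, keeping the shape of the first list. -/
def subL : List ℤ → List ℤ → List ℤ
  | a :: as, b :: bs => (a - b) :: subL as bs
  | l, _ => l

/-- Entrywise difference of triangles. -/
def subT : List (List ℤ) → List (List ℤ) → List (List ℤ)
  | a :: as, b :: bs => subL a b :: subT as bs
  | l, _ => l

/-- `b` fits inside `a`, entry by entry. -/
def fitsL : List ℤ → List ℤ → Bool
  | _ :: as, _ :: bs => fitsL as bs
  | [], [] => true
  | _, _ => false

/-- The triangles `a` and `b` have the same shape. -/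
def fitsT : List (List ℤ) → List (List ℤ) → Bool
  | a :: as, b :: bs => fitsL a b && fitsT as bs
  | [], [] => true
  | _, _ => false

lemma pairSum_subL {α : Type*} (a b : List ℤ) (us : List α) (f : α → ℝ) (h : fitsL a b = true) :
    pairSum (subL a b) us f + pairSum b us f = pairSum a us f := by
  induction a generalizing b us with
  | nil => cases b <;> simp_all [fitsL, subL, pairSum]
  | cons x xs ih => cases b with
    | nil => simp [fitsL] at h
    | cons y ys => cases us with
      | nil => simp [pairSum, subL]
      | cons u us =>
        simp only [fitsL] at h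
        simp only [subL, pairSum, ← ih ys us h]
        push_cast
        ring

lemma qfn_subT {α : Type*} (a b : List (List ℤ)) (us : List α) (f : α → α → ℝ)
    (h : fitsT a b = true) : qfn f (subT a b) us + qfn f b us = qfn f a us := by
  induction a generalizing b us with
  | nil => cases b <;> simp_all [fitsT, subT, qfn]
  | cons r rows ih => cases b with
    | nil => simp [fitsT] at h
    | cons r' rows' =>
      simp only [fitsT, Bool.and_eq_true] at h
      obtain ⟨h1, h2⟩ := h
      cases r with
      | nil => cases r' <;> simp_all [fitsL, subT, subL, qfn]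
      | cons d e => cases r' with
        | nil => simp [fitsL] at h1
        | cons d' e' => cases us with
          | nil => simp [qfn, subT, subL]
          | cons u us =>
            simp only [fitsL] at h1
            simp only [subT, subL, qfn, ← ih rows' us h2, ← pairSum_subL e e' us (f u) h1]
            push_cast
            ring

/-- Lower the diagonal of a triangle by the absolute values in a list. -/
def lowerDiag : List ℤ → List (List ℤ) → List (List ℤ)
  | x :: xs, (d :: e) :: rows => ((d - |x|) :: e) :: lowerDiag xs rows
  | [], rows => rows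
  | _, rows => rows

/-- Diagonal dominance of a triangle. -/
def ddCheck : ℕ → List (List ℤ) → Bool
  | n + 1, (d :: e) :: rows =>
      decide ((e.map (|·|)).sum ≤ d) && decide (e.length = rows.length) &&
        ddCheck n (lowerDiag e rows)
  | _, [] => true
  | _, _ => false

lemma ddCheck_nonempty : ∀ (n : ℕ) (rows : List (List ℤ)), ddCheck n rows = true →
    ∀ r ∈ rows.head?, r ≠ []
  | _, [], _ => by simp
  | 0, _ :: _, h => by simp [ddCheck] at h
  | n + 1, [] :: _, h => by simp [ddCheck] at h
  | n + 1, (d :: e) :: _, _ => by simp

lemma sum_abs_head (e : List ℤ) (us : List V) (B : V →ₗ[ℝ] V →ₗ[ℝ] ℝ) (hs : ∀ a b, B a b = B b a)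
    (hB : ∀ a, 0 ≤ B a a) (u : V) :
    -((((e.map (|·|)).sum : ℤ) : ℝ) * B u u) - pairSum (e.map (|·|)) us (fun a => B a a) ≤
      2 * pairSum e us (B u) := by
  induction e generalizing us with
  | nil => simp [pairSum]
  | cons x xs ih => cases us with
    | nil =>
      simp only [pairSum, List.map_cons, List.sum_cons]
      have h1 : (0 : ℝ) ≤ (((|x| + (xs.map (|·|)).sum : ℤ)) : ℝ) := by
        have : 0 ≤ (xs.map (|·|)).sum := List.sum_nonneg (by simp)
        exact_mod_cast add_nonneg (abs_nonneg x) this
      nlinarith [hB u, mul_nonneg h1 (hB u)]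
    | cons a us =>
      simp only [pairSum, List.map_cons, List.sum_cons]
      have hp : 0 ≤ B u u + B a a + 2 * B u a := by
        have := hB (u + a)
        simp [hs a u] at this
        linarith
      have hm : 0 ≤ B u u + B a a - 2 * B u a := by
        have := hB (u - a)
        simp [hs a u] at this
        linarith
      have hx := ih us
      obtain ⟨S, hS⟩ : ∃ S : ℤ, S = (xs.map (|·|)).sum := ⟨_, rfl⟩
      rw [← hS] at hx ⊢
      push_cast at hx ⊢
      rcases abs_cases (x : ℝ) with ⟨e1, e2⟩ | ⟨e1, e2⟩ <;> rw [e1] <;>
        nlinarith [mul_nonneg (abs_nonneg (x : ℝ)) hp, mul_nonneg (abs_nonneg (x : ℝ)) hm]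

lemma lowerDiag_length : ∀ (e : List ℤ) (rows : List (List ℤ)),
    (lowerDiag e rows).length = rows.length
  | [], _ => rfl
  | _ :: _, [] => rfl
  | _ :: _, [] :: _ => rfl
  | x :: xs, (d :: e) :: rows => by simp [lowerDiag, lowerDiag_length xs rows]

/-- All rows of a triangle of size `n` have the right length. -/
def shape : List (List ℤ) → Bool
  | r :: rows => decide (r.length = rows.length + 1) && shape rows
  | [] => true

lemma qfn_lowerDiag {α : Type*} (f : α → α → ℝ) : ∀ (e : List ℤ) (rows : List (List ℤ))
    (us : List α), shape rows = true → e.length = rows.length →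
    qfn f (lowerDiag e rows) us + pairSum (e.map (|·|)) us (fun a => f a a) = qfn f rows us
  | [], rows, us, _, _ => by simp [lowerDiag, pairSum]
  | x :: xs, [], _, _, h => by simp at h
  | x :: xs, [] :: rows, _, h, _ => by simp [shape] at h
  | x :: xs, (d :: e) :: rows, [], _, _ => by simp [qfn, pairSum, lowerDiag]
  | x :: xs, (d :: e) :: rows, u :: us, h, h' => by
    simp only [shape, Bool.and_eq_true] at h
    have := qfn_lowerDiag f xs rows us h.2 (by simpa using h')
    simp only [lowerDiag, qfn, pairSum, List.map_cons, ← this]
    push_cast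
    ring

lemma shape_lowerDiag : ∀ (e : List ℤ) (rows : List (List ℤ)), shape rows = true →
    shape (lowerDiag e rows) = true
  | [], _, h => h
  | _ :: _, [], h => h
  | _ :: _, [] :: _, h => h
  | x :: xs, (d :: e) :: rows, h => by
    simp only [shape, Bool.and_eq_true] at h
    simp [shape, lowerDiag, lowerDiag_length, shape_lowerDiag xs rows h.2]
    simpa using h.1

lemma qfn_nonneg_of_dd (B : V →ₗ[ℝ] V →ₗ[ℝ] ℝ) (hs : ∀ a b, B a b = B b a) (hB : ∀ a, 0 ≤ B a a) :
    ∀ (n : ℕ) (rows : List (List ℤ)) (us : List V), ddCheck n rows = true → shape rows = true →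
      0 ≤ qfn (fun a b => B a b) rows us
  | _, [], _, _, _ => by simp [qfn]
  | 0, _ :: _, _, h, _ => by simp [ddCheck] at h
  | _ + 1, [] :: _, _, h, _ => by simp [ddCheck] at h
  | n + 1, (d :: e) :: rows, [], _, _ => by simp [qfn]
  | n + 1, (d :: e) :: rows, u :: us, h, hsh => by
    simp only [ddCheck, Bool.and_eq_true, decide_eq_true_eq] at h
    simp only [shape, Bool.and_eq_true] at hsh
    obtain ⟨⟨h1, h2⟩, h3⟩ := h
    have ih := qfn_nonneg_of_dd B hs hB n _ us h3 (shape_lowerDiag e rows hsh.2)
    have hl := qfn_lowerDiag (fun a b => B a b) e rows us hsh.2 h2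
    have h4 := sum_abs_head e us B hs hB u
    have h5 : (((e.map (|·|)).sum : ℤ) : ℝ) ≤ d := by exact_mod_cast h1
    simp only [qfn]
    nlinarith [mul_le_mul_of_nonneg_right h5 (hB u)]

/-- Remove the squares of the given vectors. -/
def peel : List (List ℤ) → List (List ℤ) → List (List ℤ)
  | t, c :: cs => peel (subT t (outerU c)) cs
  | t, [] => t

/-- The check that every step of `peel` keeps the shape. -/
def peelFits : List (List ℤ) → List (List ℤ) → Bool
  | t, c :: cs => fitsT t (outerU c) && peelFits (subT t (outerU c)) cs
  | _, [] => true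

/-- A certificate that the triangle `w` is positive semidefinite. -/
def psdCheck (w l : List (List ℤ)) : Bool :=
  peelFits w l && shape (peel w l) && ddCheck (peel w l).length (peel w l)

lemma qfn_peel_le (B : V →ₗ[ℝ] V →ₗ[ℝ] ℝ) (hs : ∀ a b, B a b = B b a) (hB : ∀ a, 0 ≤ B a a) :
    ∀ (l w : List (List ℤ)) (us : List V), peelFits w l = true →
      qfn (fun a b => B a b) (peel w l) us ≤ qfn (fun a b => B a b) w us
  | [], w, us, _ => le_rfl
  | c :: cs, w, us, h => by
    simp only [peelFits, Bool.and_eq_true] at h
    have h1 := qfn_subT w (outerU c) us (fun a b => B a b) h.1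
    rw [qfn_outerU B hs] at h1
    have h2 := qfn_peel_le B hs hB cs _ us h.2
    have := hB (combV c us)
    simp only [peel]
    linarith

theorem qfn_nonneg (B : V →ₗ[ℝ] V →ₗ[ℝ] ℝ) (hs : ∀ a b, B a b = B b a) (hB : ∀ a, 0 ≤ B a a)
    {w l : List (List ℤ)} (h : psdCheck w l = true) (us : List V) :
    0 ≤ qfn (fun a b => B a b) w us := by
  simp only [psdCheck, Bool.and_eq_true] at h
  exact (qfn_nonneg_of_dd B hs hB _ _ us h.2 h.1.2).trans (qfn_peel_le B hs hB l w us h.1.1)

end positivity

section expansion

/-- The dot product of an integer vector with a list of complex numbers. -/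
def ev : List ℤ → List ℂ → ℂ
  | x :: xs, m :: ms => (x : ℂ) * m + ev xs ms
  | _, _ => 0

/-- The value of an integer matrix as a Hermitian form. -/
def evM : List (List ℤ) → List ℂ → List ℂ → ℂ
  | r :: rows, m :: ms, full => m * conj (ev r full) + evM rows ms full
  | _, _, _ => 0

/-- Multiply by an integer. -/
def scaleL (c : ℤ) (v : List ℤ) : List ℤ := v.map (c * ·)

/-- Entrywise sum, padding with zero. -/
def addL : List ℤ → List ℤ → List ℤ
  | a :: as, b :: bs => (a + b) :: addL as bs
  | [], l => l
  | l, [] => l

/-- Entrywise sum of matrices, padding with zero. -/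
def addM : List (List ℤ) → List (List ℤ) → List (List ℤ)
  | a :: as, b :: bs => addL a b :: addM as bs
  | [], l => l
  | l, [] => l

lemma ev_scaleL (c : ℤ) : ∀ (v : List ℤ) (m : List ℂ), ev (scaleL c v) m = (c : ℂ) * ev v m
  | [], m => by simp [scaleL, ev]
  | a :: as, [] => by simp [scaleL, ev]
  | a :: as, x :: m => by
    have := ev_scaleL c as m
    simp only [scaleL, List.map_cons, ev] at *
    rw [this]
    push_cast
    ring

lemma ev_addL : ∀ (a b : List ℤ) (m : List ℂ), ev (addL a b) m = ev a m + ev b m
  | [], b, m => by cases b <;> simp [addL, ev]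
  | a :: as, [], m => by simp [addL, ev]
  | a :: as, b :: bs, [] => by simp [addL, ev]
  | a :: as, b :: bs, x :: m => by simp [addL, ev, ev_addL as bs m]; ring

lemma evM_addM : ∀ (a b : List (List ℤ)) (m full : List ℂ),
    evM (addM a b) m full = evM a m full + evM b m full
  | [], b, m, full => by cases b <;> simp [addM, evM]
  | a :: as, [], m, full => by simp [addM, evM]
  | a :: as, b :: bs, [], full => by simp [addM, evM]
  | a :: as, b :: bs, x :: m, full => by
    simp [addM, evM, ev_addL, evM_addM as bs m full]; ring

/-- The symmetrised product of two vectors. -/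
def soMat : List ℤ → List ℤ → List ℤ → List ℤ → List (List ℤ)
  | x :: xs, y :: ys, xf, yf => addL (scaleL x yf) (scaleL y xf) :: soMat xs ys xf yf
  | _, _, _, _ => []

lemma evM_soMat : ∀ (x y xf yf : List ℤ) (m full : List ℂ), x.length = y.length →
    evM (soMat x y xf yf) m full = ev x m * conj (ev yf full) + ev y m * conj (ev xf full)
  | [], [], xf, yf, m, full, _ => by simp [soMat, evM, ev]
  | [], _ :: _, _, _, _, _, h => by simp at h
  | _ :: _, [], _, _, _, _, h => by simp at h
  | a :: as, b :: bs, xf, yf, [], full, _ => by simp [soMat, evM, ev]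
  | a :: as, b :: bs, xf, yf, u :: m, full, h => by
    have := evM_soMat as bs xf yf m full (by simpa using h)
    simp only [soMat, evM, ev, ev_addL, ev_scaleL, this, map_add, map_mul, map_intCast]
    ring

/-- Pad or cut a vector to length `n`. -/
def pad : ℕ → List ℤ → List ℤ
  | 0, _ => []
  | n + 1, [] => 0 :: pad n []
  | n + 1, x :: xs => x :: pad n xs

lemma pad_length : ∀ (n : ℕ) (v : List ℤ), (pad n v).length = n
  | 0, _ => rfl
  | n + 1, [] => by simp [pad, pad_length n []]
  | n + 1, x :: xs => by simp [pad, pad_length n xs]

lemma ev_pad : ∀ (n : ℕ) (v : List ℤ) (m : List ℂ), m.length = n → ev (pad n v) m = ev v m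
  | 0, v, m, h => by cases v <;> simp_all [pad, ev]
  | n + 1, v, [], h => by simp at h
  | n + 1, [], x :: m, h => by simp [pad, ev, ev_pad n [] m (by simpa using h)]
  | n + 1, a :: as, x :: m, h => by simp [pad, ev, ev_pad n as m (by simpa using h)]

/-- The matrix of `c` times the symmetrised product. -/
def soTerm (c : ℤ) (x y : List ℤ) : List (List ℤ) :=
  soMat (pad 30 (scaleL c x)) (pad 30 y) (pad 30 (scaleL c x)) (pad 30 y)

lemma evM_soTerm (c : ℤ) (x y : List ℤ) (m : List ℂ) (hm : m.length = 30) :
    (evM (soTerm c x y) m m).re = 2 * (c : ℝ) * (ev x m * conj (ev y m)).re := by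
  rw [soTerm, evM_soMat _ _ _ _ _ _ (by simp [pad_length])]
  simp only [ev_pad _ _ _ hm, ev_scaleL, map_mul, map_intCast]
  simp only [Complex.add_re, Complex.mul_re, Complex.mul_im, Complex.conj_re, Complex.conj_im,
    Complex.intCast_re, Complex.intCast_im]
  ring

/-- A bilinear form on tuples of vectors, as a list of weighted pairs of components. -/
abbrev Spec := List (ℤ × ℕ × ℕ)

/-- The value of a `Spec` on two tuples. -/
def specVal (F : Spec) (u v : List ℂ) : ℝ :=
  (F.map fun t => (t.1 : ℝ) * (u.getD t.2.1 0 * conj (v.getD t.2.2 0)).re).sum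

/-- Evaluate all components of a tuple. -/
def evT (u : List (List ℤ)) (m : List ℂ) : List ℂ := u.map fun x => ev x m

/-- Componentwise linear combination of tuples. -/
def combT : List ℤ → List (List (List ℤ)) → ℕ → List ℤ
  | x :: xs, a :: rest, j => addL (scaleL x (a.getD j [])) (combT xs rest j)
  | _, _, _ => []

/-- The matrix of `F` applied to `u` and a combination of tuples. -/
def specRow (F : Spec) (u : List (List ℤ)) (c : List ℤ) (us : List (List (List ℤ))) :
    List (List ℤ) :=
  F.foldr (fun t acc => addM (soTerm t.1 (u.getD t.2.1 []) (combT c us t.2.2)) acc) []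

/-- The matrix of a weighted symmetric sum. -/
def specMat (F : Spec) : List (List ℤ) → List (List (List ℤ)) → List (List ℤ)
  | (d :: e) :: rows, u :: us =>
      addM (specRow F u (d :: e.map (2 * ·)) (u :: us)) (specMat F rows us)
  | _, _ => []

lemma getD_evT (u : List (List ℤ)) (m : List ℂ) (j : ℕ) :
    (evT u m).getD j 0 = ev (u.getD j []) m := by
  simp only [evT, List.getD_eq_getElem?_getD, List.getElem?_map]
  cases u[j]? <;> simp [ev]

lemma ev_combT (m : List ℂ) : ∀ (c : List ℤ) (us : List (List (List ℤ))) (j : ℕ) (z : ℂ),
    (z * conj (ev (combT c us j) m)).re =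
      pairSum c us (fun a => (z * conj (ev (a.getD j []) m)).re)
  | [], us, j, z => by simp [combT, pairSum, ev]
  | x :: xs, [], j, z => by simp [combT, pairSum, ev]
  | x :: xs, a :: rest, j, z => by
    simp only [combT, pairSum, ev_addL, ev_scaleL, map_add, mul_add, Complex.add_re,
      ev_combT m xs rest j z, map_mul, map_intCast]
    congr 1
    simp only [Complex.mul_re, Complex.mul_im, Complex.intCast_re, Complex.intCast_im]
    ring

lemma evM_specRow (m : List ℂ) (hm : m.length = 30) (F : Spec) (u : List (List ℤ)) (c : List ℤ)
    (us : List (List (List ℤ))) :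
    (evM (specRow F u c us) m m).re =
      2 * pairSum c us (fun v => specVal F (evT u m) (evT v m)) := by
  induction F with
  | nil =>
    have : pairSum c us (fun _ => (0 : ℝ)) = 0 := by
      simpa using pairSum_mul c us 0 (fun _ => (0 : ℝ))
    simp [specRow, specVal, evM, this]
  | cons t F ih =>
    simp only [specRow, List.foldr_cons] at *
    rw [evM_addM, Complex.add_re, ih, evM_soTerm _ _ _ _ hm, ev_combT]
    simp only [specVal, List.map_cons, List.sum_cons, getD_evT, pairSum_add, pairSum_mul]
    ring

lemma pairSum_twice {α : Type*} (c : List ℤ) (us : List α) (f : α → ℝ) :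
    pairSum (c.map (2 * ·)) us f = 2 * pairSum c us f := by
  induction c generalizing us with
  | nil => simp [pairSum]
  | cons y ys ih => cases us with
    | nil => simp [pairSum]
    | cons a rest => simp [pairSum, ih]; ring

theorem evM_specMat (m : List ℂ) (hm : m.length = 30) (F : Spec) :
    ∀ (rows : List (List ℤ)) (us : List (List (List ℤ))),
      (evM (specMat F rows us) m m).re =
        2 * qfn (fun a b => specVal F (evT a m) (evT b m)) rows us
  | [], us => by simp [specMat, qfn, evM]
  | [] :: rows, us => by simp [specMat, qfn, evM]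
  | (d :: e) :: rows, [] => by simp [specMat, qfn, evM]
  | (d :: e) :: rows, u :: us => by
    simp only [specMat, qfn, evM_addM, Complex.add_re, evM_specRow m hm, pairSum, pairSum_twice,
      evM_specMat m hm F rows us]
    ring

/-- The sum of weighted rotation identities. -/
def nuMat (D : List (List ℤ)) (E : List (List ℤ)) : List (ℤ × ℕ × ℕ) → List (List ℤ)
  | (c, i, k) :: rest =>
      addM (soTerm c (D.getD i []) (E.getD k []))
        (addM (soTerm (-c) (E.getD i []) (D.getD k [])) (nuMat D E rest))
  | [] => []

theorem evM_nuMat (m : List ℂ) (hm : m.length = 30) (D E : List (List ℤ)) :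
    ∀ l : List (ℤ × ℕ × ℕ), (evM (nuMat D E l) m m).re =
      2 * (l.map fun t => (t.1 : ℝ) *
        ((ev (D.getD t.2.1 []) m * conj (ev (E.getD t.2.2 []) m)).re -
          (ev (E.getD t.2.1 []) m * conj (ev (D.getD t.2.2 []) m)).re)).sum
  | [] => by simp [nuMat, evM]
  | (c, i, k) :: rest => by
    simp only [nuMat, evM_addM, Complex.add_re, evM_soTerm _ _ _ _ hm, evM_nuMat m hm D E rest,
      List.map_cons, List.sum_cons]
    push_cast
    ring

lemma evM_zero : ∀ (a : List (List ℤ)) (m full : List ℂ),
    (a.all fun r => r.all fun x => decide (x = 0)) = true → evM a m full = 0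
  | [], m, full, _ => by simp [evM]
  | r :: rows, [], full, _ => by simp [evM]
  | r :: rows, x :: m, full, h => by
    simp only [List.all_cons, Bool.and_eq_true] at h
    have hr : ∀ (r : List ℤ) (v : List ℂ), (r.all fun x => decide (x = 0)) = true → ev r v = 0 := by
      intro r
      induction r with
      | nil => intro v _; simp [ev]
      | cons a as ih =>
        intro v hv
        simp only [List.all_cons, Bool.and_eq_true, decide_eq_true_eq] at hv
        cases v with
        | nil => simp [ev]
        | cons y ys => simp [ev, hv.1, ih ys hv.2]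
    simp [evM, hr r full h.1, evM_zero rows m full h.2]

end expansion

end Vale.Agent.P142
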