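import Vale.Agent.P142.CertData
import Vale.Agent.P142.Forms

/-!
The kernel check of the certificate.
-/

noncomputable section

open scoped ComplexConjugate

namespace Vale.Agent.P142

/-- The square of the modulus. -/
def F0 : Spec := [(30, 0, 0)]
/-- The Grunsky form with two parameters and one coefficient. -/
def F1 : Spec := [(30, 0, 0), (15, 1, 1), (-30, 2, 2)]
/-- The Grunsky form with three parameters and three coefficients. -/
def F3 : Spec := [(30, 0, 0), (15, 1, 1), (10, 2, 2), (-30, 3, 3), (-60, 4, 4), (-90, 5, 5)]
/-- The Grunsky form with two parameters and four coefficients. -/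
def F4 : Spec :=
  [(30, 0, 0), (15, 1, 1), (-30, 2, 2), (-60, 3, 3), (-90, 4, 4), (-120, 5, 5)]
/-- The radial derivative form at the boundary. -/
def FZ : Spec := [(15, 1, 0), (15, 0, 1), (-36, 0, 0), (-30, 2, 0), (-30, 0, 2)]

/-- The standard basis vectors of the monomials of weight at most five. -/
def eTable : List (List ℤ) := (List.range 19).map fun i => List.replicate i 0 ++ [1]

/-- The complete combination. -/
def totalMat : List (List ℤ) :=
  addM (specMat F0 wX0 vX0) (addM (specMat F1 wX1 vX1) (addM (specMat F3 wX3 vX3)
    (addM (specMat F4 wX4 vX4) (addM (specMat FZ wXZ vXZ)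
      (addM (soTerm cPrincipal [1] [1]) (nuMat dTable eTable nuList))))))

theorem totalMat_zero : (totalMat.all fun r => r.all fun x => decide (x = 0)) = true := by
  decide +kernel

theorem psd_X0 : psdCheck wX0 lX0 = true := by decide +kernel
theorem psd_X1 : psdCheck wX1 lX1 = true := by decide +kernel
theorem psd_X3 : psdCheck wX3 lX3 = true := by decide +kernel
theorem psd_X4 : psdCheck wX4 lX4 = true := by decide +kernel
theorem psd_XZ : psdCheck wXZ lXZ = true := by decide +kernel

theorem cPrincipal_pos : 0 < cPrincipal := by decide +kernel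

/-- **The certificate identity.** -/
theorem certificate (m : List ℂ) (hm : m.length = 30) :
    qfn (fun a b => specVal F0 (evT a m) (evT b m)) wX0 vX0 +
      qfn (fun a b => specVal F1 (evT a m) (evT b m)) wX1 vX1 +
      qfn (fun a b => specVal F3 (evT a m) (evT b m)) wX3 vX3 +
      qfn (fun a b => specVal F4 (evT a m) (evT b m)) wX4 vX4 +
      qfn (fun a b => specVal FZ (evT a m) (evT b m)) wXZ vXZ +
      (cPrincipal : ℝ) * (ev [1] m * conj (ev [1] m)).re +
      (nuList.map fun t => (t.1 : ℝ) *
        ((ev (dTable.getD t.2.1 []) m * conj (ev (eTable.getD t.2.2 []) m)).re -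
          (ev (eTable.getD t.2.1 []) m * conj (ev (dTable.getD t.2.2 []) m)).re)).sum = 0 := by
  have h : (evM totalMat m m).re = 0 := by rw [evM_zero _ _ _ totalMat_zero]; rfl
  simp only [totalMat, evM_addM, Complex.add_re, evM_specMat m hm, evM_soTerm _ _ _ _ hm,
    evM_nuMat m hm] at h
  linarith

end Vale.Agent.P142
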