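import Vale.Agent.P142.AreaThm

/-!
Bieberbach's second coefficient bound and the distortion theorem, from the area theorem.
-/

noncomputable section

open Set Filter MeasureTheory Metric
open scoped Topology Real ComplexConjugate

namespace Vale.Agent.P142

/-- An injective holomorphic function has nonvanishing derivative, normalised at `0`. -/
lemma dslope_ne_zero {f : ℂ → ℂ} (hinj : InjOn f (ball 0 1)) (h0 : f 0 = 0) (hd : deriv f 0 ≠ 0)
    {z : ℂ} (hz : z ∈ ball (0 : ℂ) 1) : dslope f 0 z ≠ 0 := by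
  rcases eq_or_ne z 0 with rfl | hz0
  · rwa [dslope_same]
  · intro h
    have := sub_smul_dslope f 0 z
    simp [h, h0] at this
    exact hz0 (hinj hz (by simp) (by rw [h0]; exact this.symm))

/-- Bieberbach: `‖f'' 0‖ ≤ 4 ‖f' 0‖` for `f` univalent on the disc. -/
theorem norm_deriv2_le {f : ℂ → ℂ} (hf : DifferentiableOn ℂ f (ball 0 1))
    (hinj : InjOn f (ball 0 1)) (h0 : f 0 = 0) (h1 : deriv f 0 ≠ 0) :
    ‖deriv (deriv f) 0‖ ≤ 4 * ‖deriv f 0‖ := by
  have hm0 : (0 : ℂ) ∈ ball (0 : ℂ) 1 := by simp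
  have hnh : ball (0 : ℂ) 1 ∈ 𝓝 (0 : ℂ) := isOpen_ball.mem_nhds hm0
  set q := dslope f 0 with hq
  have hqd : DifferentiableOn ℂ q (ball 0 1) := (Complex.differentiableOn_dslope hnh).2 hf
  have hq0 : ∀ z ∈ ball (0 : ℂ) 1, q z ≠ 0 := fun z hz => dslope_ne_zero hinj h0 h1 hz
  have hqa : ∀ z ∈ ball (0 : ℂ) 1, HasDerivAt q (deriv q z) z := fun z hz =>
    (hqd.differentiableAt (isOpen_ball.mem_nhds hz)).hasDerivAt
  -- a square root of `q`
  obtain ⟨ℓ, hℓ⟩ := ((hqd.deriv isOpen_ball).div hqd hq0).isExactOn_ball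
  set c := q 0 * Complex.exp (-ℓ 0) with hc
  have hqe : ∀ z ∈ ball (0 : ℂ) 1, q z = c * Complex.exp (ℓ z) := by
    intro z hz
    have hder : ∀ w ∈ ball (0 : ℂ) 1, HasDerivAt (fun w => q w * Complex.exp (-ℓ w)) 0 w := by
      intro w hw
      have := (hqa w hw).mul ((hℓ w hw).neg.cexp)
      refine this.congr_deriv ?_
      have := hq0 w hw
      simp only [Pi.div_apply, Pi.neg_apply]
      field_simp
      ring
    have := isOpen_ball.is_const_of_deriv_eq_zero (isPreconnected_ball)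
      (fun w hw => (hder w hw).differentiableAt.differentiableWithinAt)
      (fun w hw => (hder w hw).deriv) hz hm0
    rw [hc, ← this, mul_assoc, ← Complex.exp_add, neg_add_cancel, Complex.exp_zero, mul_one]
  have hc0 : c ≠ 0 := mul_ne_zero (hq0 0 hm0) (Complex.exp_ne_zero _)
  obtain ⟨d, hd⟩ := IsAlgClosed.exists_eq_mul_self c
  have hd0 : d ≠ 0 := fun h => hc0 (by rw [hd, h, zero_mul])
  set T : ℂ → ℂ := fun z => (d * Complex.exp (ℓ z / 2))⁻¹ with hT
  have hTq : ∀ z ∈ ball (0 : ℂ) 1, T z ^ 2 * q z = 1 := by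
    intro z hz
    have he : Complex.exp (ℓ z / 2) * Complex.exp (ℓ z / 2) = Complex.exp (ℓ z) := by
      rw [← Complex.exp_add]; ring_nf
    rw [hqe z hz, hd, ← he]
    simp only [T]
    have := Complex.exp_ne_zero (ℓ z / 2)
    field_simp
  have hTd : ∀ z ∈ ball (0 : ℂ) 1, HasDerivAt T (-(T z) * (deriv q z / q z) / 2) z := by
    intro z hz
    have hne := mul_ne_zero hd0 (Complex.exp_ne_zero (ℓ z / 2))
    have h := (((hℓ z hz).div_const 2).cexp.const_mul d).fun_inv hne
    refine h.congr_deriv ?_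
    simp only [T, Pi.div_apply]
    have := hq0 z hz
    field_simp
  have hT0 : T 0 ≠ 0 := inv_ne_zero (mul_ne_zero hd0 (Complex.exp_ne_zero _))
  set U : ℂ → ℂ := fun z => T z / T 0 - 1 with hU
  have hUd : DifferentiableOn ℂ U (ball 0 1) := fun z hz =>
    (((hTd z hz).differentiableAt.div_const _).sub_const _).differentiableWithinAt
  set V := dslope U 0 with hV
  have hVd : DifferentiableOn ℂ V (ball 0 1) := (Complex.differentiableOn_dslope hnh).2 hUd
  have hsq : ∀ z ∈ ball (0 : ℂ) 1, z ^ 2 ∈ ball (0 : ℂ) 1 := fun z hz => by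
    simp only [mem_ball, dist_zero_right, norm_pow] at hz ⊢
    exact pow_lt_one₀ (norm_nonneg _) hz two_ne_zero
  set P : ℂ → ℂ := fun z => z * V (z ^ 2) with hP
  have hPd : DifferentiableOn ℂ P (ball 0 1) :=
    differentiableOn_id.mul (hVd.comp (differentiableOn_id.pow 2) hsq)
  have hU0 : U 0 = 0 := by simp [U, hT0]
  have hg : ∀ z ∈ ball (0 : ℂ) 1, z ≠ 0 → z⁻¹ + P z = T (z ^ 2) / T 0 * z⁻¹ := by
    intro z hz hz0
    have := sub_smul_dslope U 0 (z ^ 2)
    simp only [sub_zero, smul_eq_mul, hU0] at this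
    rw [show T (z ^ 2) / T 0 = U (z ^ 2) + 1 by simp [U], ← this]
    simp only [P, hV]
    field_simp
    ring
  have hPinj : InjOn (fun z => z⁻¹ + P z) (ball 0 1 \ {0}) := by
    intro x ⟨hx, hx0⟩ y ⟨hy, hy0⟩ hxy
    simp only [mem_singleton_iff] at hx0 hy0
    simp only [hg x hx hx0, hg y hy hy0] at hxy
    have hxy' : T (x ^ 2) * x⁻¹ = T (y ^ 2) * y⁻¹ := by
      have := congrArg (· * T 0) hxy
      field_simp at this ⊢
      linear_combination this
    have hf2 : ∀ w ∈ ball (0 : ℂ) 1, (T (w ^ 2) * w⁻¹) ^ 2 * f (w ^ 2) = 1 ∨ w = 0 := by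
      intro w hw
      rcases eq_or_ne w 0 with h | h
      · exact Or.inr h
      · left
        have h' := sub_smul_dslope f 0 (w ^ 2)
        simp only [sub_zero, smul_eq_mul, h0] at h'
        rw [← h', mul_pow]
        have := hTq _ (hsq w hw)
        field_simp
        linear_combination this
    have e1 := (hf2 x hx).resolve_right hx0
    have e2 := (hf2 y hy).resolve_right hy0
    rw [hxy'] at e1
    have hne : (T (y ^ 2) * y⁻¹) ^ 2 ≠ 0 := fun h => by simp [h] at e2
    have h2 := hinj (hsq x hx) (hsq y hy) (mul_left_cancel₀ hne (e1.trans e2.symm))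
    rcases sq_eq_sq_iff_eq_or_eq_neg.1 h2 with h | h
    · exact h
    · exfalso
      subst h
      rw [neg_sq, inv_neg, mul_neg] at hxy'
      have hz : T (y ^ 2) * y⁻¹ = 0 := by linear_combination (-1 / 2 : ℂ) * hxy'
      rw [hz] at hne
      simp at hne
  have hb := norm_deriv_le_one hPd (by simp [P]) hPinj
  have hP' : deriv P 0 = deriv U 0 := by
    have hVa : DifferentiableAt ℂ (fun z : ℂ => V (z ^ 2)) 0 :=
      (hVd.comp (differentiableOn_id.pow 2) hsq).differentiableAt hnh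
    have := (hasDerivAt_id (0 : ℂ)).mul hVa.hasDerivAt
    simp at this
    rw [show deriv P 0 = V 0 from this.deriv, hV, dslope_same]
  have hU' : deriv U 0 = -(deriv q 0 / q 0) / 2 := by
    rw [(((hTd 0 hm0).div_const (T 0)).sub_const 1).deriv]
    field_simp
  have hq' : deriv (deriv f) 0 = 2 * deriv q 0 := by
    have hfq : ∀ z, f z = z * q z := fun z => by
      have := sub_smul_dslope f 0 z
      simpa [h0] using this.symm
    have hev : deriv f =ᶠ[𝓝 0] fun z => q z + z * deriv q z := by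
      filter_upwards [hnh] with z hz
      have := (hasDerivAt_id z).mul (hqa z hz)
      simp at this
      exact ((this.congr_of_eventuallyEq (Eventually.of_forall hfq)).deriv)
    rw [hev.deriv_eq]
    have h2 : HasDerivAt (deriv q) (deriv (deriv q) 0) 0 :=
      ((hqd.deriv isOpen_ball).differentiableAt hnh).hasDerivAt
    have := ((hqa 0 hm0).add ((hasDerivAt_id (0 : ℂ)).mul h2)).deriv
    simp at this
    rw [show (fun z => q z + z * deriv q z) = q + id * deriv q from rfl, this]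
    ring
  have hq00 : q 0 = deriv f 0 := dslope_same f 0
  rw [hP', hU', hq00, norm_div, norm_neg, norm_div, Complex.norm_two] at hb
  rw [hq', norm_mul, Complex.norm_two]
  have hpos : 0 < ‖deriv f 0‖ := norm_pos_iff.2 h1
  rw [div_div, div_le_one (by positivity)] at hb
  linarith

/-- The derivative of a univalent function does not vanish. -/
theorem deriv_ne_zero_of_injOn {f : ℂ → ℂ} {U : Set ℂ} (hU : IsOpen U)
    (hf : DifferentiableOn ℂ f U) (hinj : InjOn f U) {z : ℂ} (hz : z ∈ U) : deriv f z ≠ 0 := by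
  intro h0
  have hfa : AnalyticAt ℂ f z := hf.analyticAt (hU.mem_nhds hz)
  obtain ⟨g, hga, hg0, hgev⟩ : ∃ g, AnalyticAt ℂ g z ∧ g z ≠ 0 ∧ ∃ m, 2 ≤ m ∧
      ∀ᶠ w in 𝓝 z, f w - f z = (w - z) ^ m * g w := by
    have ha : AnalyticAt ℂ (fun w => f w - f z) z := hfa.sub analyticAt_const
    have hne : analyticOrderAt (fun w => f w - f z) z ≠ ⊤ := by
      rw [Ne, analyticOrderAt_eq_top]
      intro hev
      have hev' : ∀ᶠ w in 𝓝[≠] z, f w = f z ∧ w ∈ U :=
        nhdsWithin_le_nhds ((hev.mono fun w hw => sub_eq_zero.1 hw).and (hU.mem_nhds hz))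
      obtain ⟨w, ⟨hw1, hw2⟩, hw3⟩ := (hev'.and self_mem_nhdsWithin).exists
      exact hw3 (hinj hw2 hz hw1)
    obtain ⟨m, hm⟩ := ENat.ne_top_iff_exists.1 hne
    obtain ⟨g, hga, hg0, hgev⟩ := (ha.analyticOrderAt_eq_natCast).1 hm.symm
    refine ⟨g, hga, hg0, m, ?_, by simpa using hgev⟩
    by_contra hlt
    interval_cases m
    · have h := hgev.self_of_nhds; simp at h; exact hg0 h.symm
    · have hd : HasDerivAt (fun w => (w - z) * g w) (g z) z := by
        have := ((hasDerivAt_id z).sub_const z).fun_mul hga.differentiableAt.hasDerivAt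
        simpa using this
      have hd2 : HasDerivAt (fun w => f w - f z) (g z) z :=
        hd.congr_of_eventuallyEq (hgev.mono fun w hw => by simpa using hw)
      have h1 := hd2.deriv
      rw [deriv_sub_const] at h1
      exact hg0 (h1.symm.trans h0)
  obtain ⟨m, hm, hev⟩ := hgev
  have hm0 : (m : ℂ) ≠ 0 := Nat.cast_ne_zero.2 (by omega)
  obtain ⟨c, hc⟩ := IsAlgClosed.exists_pow_nat_eq (g z) (by omega : 0 < m)
  have hc0 : c ≠ 0 := fun h => hg0 (by rw [← hc, h, zero_pow (by omega)])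
  set φ : ℂ → ℂ := fun w => (w - z) * (c * Complex.exp (Complex.log (g w / g z) / m)) with hφ
  have hsl : g z / g z ∈ Complex.slitPlane := by rw [div_self hg0]; exact Complex.one_mem_slitPlane
  have hψa : AnalyticAt ℂ (fun w => c * Complex.exp (Complex.log (g w / g z) / m)) z :=
    analyticAt_const.mul ((((hga.div_const).clog hsl).div_const).cexp)
  have hψz : c * Complex.exp (Complex.log (g z / g z) / m) = c := by
    rw [div_self hg0]; simp
  have hφd : HasStrictDerivAt φ c z := by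
    have hsub : HasStrictDerivAt (fun w => w - z) 1 z := (hasStrictDerivAt_id z).sub_const z
    have := hsub.fun_mul hψa.hasStrictDerivAt
    simpa [φ, hψz] using this
  have hmap := hφd.map_nhds_eq hc0
  have hφz : φ z = 0 := by simp [φ]
  have hgne : ∀ᶠ w in 𝓝 z, g w ≠ 0 := hga.continuousAt.eventually_ne hg0
  have hS : {w | w ∈ U ∧ f w - f z = φ w ^ m} ∈ 𝓝 z := by
    filter_upwards [hev, hgne, hU.mem_nhds hz] with w hw hgw hwU
    refine ⟨hwU, ?_⟩
    rw [hw, mul_pow, mul_pow, hc, ← Complex.exp_nat_mul, mul_div_cancel₀ _ hm0,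
      Complex.exp_log (div_ne_zero hgw hg0)]
    field_simp
  have himg := image_mem_map (m := φ) hS
  rw [hmap, hφz] at himg
  set ω : ℂ := Complex.exp (2 * Real.pi * Complex.I / m) with hω
  have hωp : IsPrimitiveRoot ω m := Complex.isPrimitiveRoot_exp m (by omega)
  have hrot : Tendsto (fun w : ℂ => ω * w) (𝓝 0) (𝓝 0) :=
    (continuous_const_mul ω).tendsto' 0 0 (mul_zero ω)
  have hev2 : ∀ᶠ w in 𝓝[≠] (0 : ℂ), w ∈ φ '' {w | w ∈ U ∧ f w - f z = φ w ^ m} ∧
      ω * w ∈ φ '' {w | w ∈ U ∧ f w - f z = φ w ^ m} :=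
    nhdsWithin_le_nhds (Eventually.and himg (hrot himg))
  obtain ⟨w, ⟨⟨a, ⟨ha, ha'⟩, haw⟩, ⟨b, ⟨hb, hb'⟩, hbw⟩⟩, hw0⟩ :=
    (hev2.and self_mem_nhdsWithin).exists
  have hab : f a = f b := by
    have : f a - f z = f b - f z := by
      rw [ha', hb', haw, hbw, mul_pow, hωp.pow_eq_one, one_mul]
    exact sub_left_inj.1 this
  have := hinj ha hb hab
  subst this
  rw [haw] at hbw
  have : ω = 1 := by
    have h' : (ω - 1) * w = 0 := by linear_combination -hbw
    exact sub_eq_zero.1 ((mul_eq_zero.1 h').resolve_right hw0)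
  exact hωp.ne_one (by omega) this

/-- The pre-Schwarzian bound of a univalent function. -/
theorem preSchwarzian_le {f : ℂ → ℂ} (hf : DifferentiableOn ℂ f (ball 0 1))
    (hinj : InjOn f (ball 0 1)) (hd : ∀ z ∈ ball (0 : ℂ) 1, deriv f z ≠ 0)
    {z : ℂ} (hz : z ∈ ball (0 : ℂ) 1) :
    ‖deriv (deriv f) z / deriv f z * (1 - (‖z‖ : ℂ) ^ 2) - 2 * conj z‖ ≤ 4 := by
  have hzn : ‖z‖ < 1 := by simpa using hz
  have hzc : z * conj z = (‖z‖ : ℂ) ^ 2 := by
    rw [Complex.mul_conj, Complex.normSq_eq_norm_sq]; norm_cast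
  set κ : ℂ := 1 - (‖z‖ : ℂ) ^ 2 with hκ
  have hκ0 : κ ≠ 0 := by
    rw [hκ, sub_ne_zero]
    intro h
    have : ‖z‖ ^ 2 = 1 := by exact_mod_cast h.symm
    nlinarith [norm_nonneg z]
  set M : ℂ → ℂ := fun w => (w + z) / (1 + conj z * w) with hM
  have hden : ∀ w ∈ ball (0 : ℂ) 1, 1 + conj z * w ≠ 0 := by
    intro w hw h
    have hwn : ‖w‖ < 1 := by simpa using hw
    have h1 : ‖conj z * w‖ = 1 := by
      rw [show conj z * w = -1 by linear_combination h]; simp
    rw [norm_mul, RCLike.norm_conj] at h1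
    nlinarith [norm_nonneg w, norm_nonneg z]
  have hmaps : ∀ w ∈ ball (0 : ℂ) 1, M w ∈ ball (0 : ℂ) 1 := by
    intro w hw
    have hwn : ‖w‖ < 1 := by simpa using hw
    simp only [M, mem_ball, dist_zero_right, norm_div]
    rw [div_lt_one (norm_pos_iff.2 (hden w hw))]
    refine lt_of_pow_lt_pow_left₀ 2 (norm_nonneg _) ?_
    have e : ‖1 + conj z * w‖ ^ 2 - ‖w + z‖ ^ 2 = (1 - ‖z‖ ^ 2) * (1 - ‖w‖ ^ 2) := by
      simp only [Complex.sq_norm, Complex.normSq_apply, Complex.add_re, Complex.add_im,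
        Complex.one_re, Complex.one_im, Complex.mul_re, Complex.mul_im, Complex.conj_re,
        Complex.conj_im]
      ring
    nlinarith [mul_pos (by nlinarith [norm_nonneg z] : 0 < 1 - ‖z‖ ^ 2)
      (by nlinarith [norm_nonneg w] : 0 < 1 - ‖w‖ ^ 2)]
  have hMd : ∀ w ∈ ball (0 : ℂ) 1, HasDerivAt M (κ / (1 + conj z * w) ^ 2) w := by
    intro w hw
    refine ((((hasDerivAt_id w).add_const z).div
      (((hasDerivAt_id w).const_mul (conj z)).const_add 1) (hden w hw))).congr_deriv ?_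
    simp only [id, hκ, ← hzc]
    ring
  have hMinj : InjOn M (ball 0 1) := by
    intro a ha b hb hab
    simp only [M, div_eq_div_iff (hden a ha) (hden b hb)] at hab
    have : κ * (a - b) = 0 := by rw [hκ, ← hzc]; linear_combination hab
    exact sub_eq_zero.1 ((mul_eq_zero.1 this).resolve_left hκ0)
  set F : ℂ → ℂ := fun w => f (M w) - f z with hF
  have hfa : ∀ u ∈ ball (0 : ℂ) 1, HasDerivAt f (deriv f u) u := fun u hu =>
    (hf.differentiableAt (isOpen_ball.mem_nhds hu)).hasDerivAt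
  have hFa : ∀ w ∈ ball (0 : ℂ) 1,
      HasDerivAt F (deriv f (M w) * (κ / (1 + conj z * w) ^ 2)) w := fun w hw =>
    (((hfa _ (hmaps w hw)).comp w (hMd w hw))).sub_const _
  have hm0 : (0 : ℂ) ∈ ball (0 : ℂ) 1 := by simp
  have hM0 : M 0 = z := by simp [M]
  have hF0 : F 0 = 0 := by simp [F, hM0]
  have hF1 : deriv F 0 = deriv f z * κ := by rw [(hFa 0 hm0).deriv, hM0]; simp
  have hF2 : deriv (deriv F) 0 =
      deriv (deriv f) z * κ * κ + deriv f z * (κ * (-2 * conj z)) := by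
    have hev : deriv F =ᶠ[𝓝 0] fun w => deriv f (M w) * (κ / (1 + conj z * w) ^ 2) := by
      filter_upwards [isOpen_ball.mem_nhds hm0] with w hw
      exact (hFa w hw).deriv
    rw [hev.deriv_eq]
    have hd1 : HasDerivAt (fun w => deriv f (M w)) (deriv (deriv f) z * κ) 0 := by
      have h := ((hf.deriv isOpen_ball).differentiableAt (isOpen_ball.mem_nhds hz)).hasDerivAt
      have h2 := hMd 0 hm0
      simp at h2
      exact HasDerivAt.comp 0 (by rw [hM0]; exact h) h2
    have hd2 : HasDerivAt (fun w => κ / (1 + conj z * w) ^ 2) (κ * (-2 * conj z)) 0 := by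
      have h := ((((hasDerivAt_id (0 : ℂ)).const_mul (conj z)).const_add 1).fun_pow 2)
      have := (hasDerivAt_const (0 : ℂ) κ).fun_div h (by simp)
      refine this.congr_deriv ?_
      simp
    have := (hd1.fun_mul hd2).deriv
    rw [this, hM0]
    simp
  have hb := norm_deriv2_le (f := F) (fun w hw => (hFa w hw).differentiableAt.differentiableWithinAt)
    (fun a ha b hb hab => hMinj ha hb (hinj (hmaps a ha) (hmaps b hb) (sub_left_inj.1 hab)))
    hF0 (by rw [hF1]; exact mul_ne_zero (hd z hz) hκ0)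
  rw [hF1, hF2] at hb
  have e : deriv (deriv f) z * κ * κ + deriv f z * (κ * (-2 * conj z)) =
      deriv f z * κ * (deriv (deriv f) z / deriv f z * κ - 2 * conj z) := by
    have := hd z hz
    field_simp
    ring
  rw [e, norm_mul, mul_comm 4] at hb
  exact le_of_mul_le_mul_left hb (norm_pos_iff.2 (mul_ne_zero (hd z hz) hκ0))

/-- The distortion theorem along a radius. -/
theorem log_norm_deriv_bounds {f : ℂ → ℂ} (hf : DifferentiableOn ℂ f (ball 0 1))
    (hinj : InjOn f (ball 0 1)) (hd : ∀ z ∈ ball (0 : ℂ) 1, deriv f z ≠ 0)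
    {ξ : ℂ} (hξ : ‖ξ‖ = 1) {r : ℝ} (hr : r ∈ Ico (0 : ℝ) 1) :
    Real.log ‖deriv f 0‖ + Real.log (1 - r) - 3 * Real.log (1 + r)
        ≤ Real.log ‖deriv f (r * ξ)‖ ∧
      Real.log ‖deriv f (r * ξ)‖
        ≤ Real.log ‖deriv f 0‖ - 3 * Real.log (1 - r) + Real.log (1 + r) := by
  set y : ℝ → ℝ := fun s => Real.log ‖deriv f (s * ξ)‖ with hy
  set y' : ℝ → ℝ := fun s => (ξ * (deriv (deriv f) (s * ξ) / deriv f (s * ξ))).re
  have hmem : ∀ s ∈ Ico (0 : ℝ) 1, (s : ℂ) * ξ ∈ ball (0 : ℂ) 1 := fun s hs => by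
    simp [hξ, abs_of_nonneg hs.1, hs.2]
  have hyd : ∀ s ∈ Ico (0 : ℝ) 1, HasDerivAt y (y' s) s := by
    intro s hs
    have hz := hmem s hs
    have h1 : HasDerivAt (fun t : ℝ => (t : ℂ) * ξ) ξ s := by
      simpa using Complex.ofRealCLM.hasDerivAt.mul_const ξ
    have h2 := ((hf.deriv isOpen_ball).differentiableAt (isOpen_ball.mem_nhds hz)).hasDerivAt
    have h3 : HasDerivAt (fun t : ℝ => deriv f ((t : ℂ) * ξ))
        (deriv (deriv f) ((s : ℂ) * ξ) * ξ) s :=
      HasDerivAt.comp s (h₂ := deriv f) h2 h1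
    have hne := hd _ hz
    have h4 := ((h3.norm_sq).log (by
      simpa using hne)).div_const 2
    have hfun : y = fun t : ℝ => Real.log (‖deriv f ((t : ℂ) * ξ)‖ ^ 2) / 2 := by
      funext t; simp [y, Real.log_pow]
    rw [hfun]
    refine h4.congr_deriv ?_
    simp only [y', Complex.inner]
    have hn : (0 : ℝ) < ‖deriv f (↑s * ξ)‖ := norm_pos_iff.2 hne
    set A := deriv f (↑s * ξ)
    set B := deriv (deriv f) (↑s * ξ)
    rw [show ξ * (B / A) = (B * ξ) * conj A / ((‖A‖ : ℂ) ^ 2) by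
      rw [← Complex.ofReal_pow, ← Complex.normSq_eq_norm_sq, ← Complex.mul_conj]
      have : conj A ≠ 0 := by simpa using hne
      field_simp]
    rw [← Complex.ofReal_pow, Complex.div_ofReal_re]
    field_simp
  have hbound : ∀ s ∈ Ico (0 : ℝ) 1,
      (2 * s - 4) / (1 - s ^ 2) ≤ y' s ∧ y' s ≤ (2 * s + 4) / (1 - s ^ 2) := by
    intro s hs
    have hn : ‖(s : ℂ) * ξ‖ = s := by simp [hξ, abs_of_nonneg hs.1]
    have h := preSchwarzian_le hf hinj hd (hmem s hs)
    have hpos : 0 < 1 - s ^ 2 := by nlinarith [hs.1, hs.2]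
    rw [hn] at h
    set A := deriv (deriv f) ((s : ℂ) * ξ) / deriv f ((s : ℂ) * ξ) with hA
    have h2 : |(ξ * (A * (1 - (s : ℂ) ^ 2) - 2 * conj ((s : ℂ) * ξ))).re| ≤ 4 :=
      (Complex.abs_re_le_norm _).trans (by rw [norm_mul, hξ, one_mul]; exact h)
    have hid : ξ * (A * (1 - (s : ℂ) ^ 2) - 2 * conj ((s : ℂ) * ξ)) =
        ((1 - s ^ 2 : ℝ) : ℂ) * (ξ * A) - ((2 * s : ℝ) : ℂ) := by
      have : ξ * conj ξ = 1 := by
        rw [Complex.mul_conj, Complex.normSq_eq_norm_sq, hξ]; simp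
      simp only [map_mul, Complex.conj_ofReal]
      push_cast
      linear_combination (-2 * (s : ℂ)) * this
    rw [hid, Complex.sub_re, Complex.re_ofReal_mul, Complex.ofReal_re] at h2
    have h3 := abs_le.1 h2
    constructor
    · rw [div_le_iff₀ hpos]; simp only [y']; linarith
    · rw [le_div_iff₀ hpos]; simp only [y']; linarith
  have hlog : ∀ s ∈ Ico (0 : ℝ) 1, HasDerivAt (fun s : ℝ => Real.log (1 - s)) (-1 / (1 - s)) s ∧
      HasDerivAt (fun s : ℝ => Real.log (1 + s)) (1 / (1 + s)) s := fun s hs =>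
    ⟨((hasDerivAt_id s).const_sub 1).log (sub_ne_zero.2 hs.2.ne'),
      ((hasDerivAt_id s).const_add 1).log (by linarith [hs.1] : (1 : ℝ) + s ≠ 0)⟩
  have hm0 : (0 : ℝ) ∈ Ico (0 : ℝ) 1 := ⟨le_rfl, zero_lt_one⟩
  have hint : interior (Ico (0 : ℝ) 1) ⊆ Ico (0 : ℝ) 1 := interior_subset
  have hy0 : y 0 = Real.log ‖deriv f 0‖ := by simp [y]
  refine ⟨?_, ?_⟩
  · have hG : ∀ s ∈ Ico (0 : ℝ) 1, HasDerivAt
        (fun s => y s - Real.log (1 - s) + 3 * Real.log (1 + s))
        (y' s - -1 / (1 - s) + 3 * (1 / (1 + s))) s := fun s hs =>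
      ((hyd s hs).sub (hlog s hs).1).add ((hlog s hs).2.const_mul 3)
    have hmono := monotoneOn_of_deriv_nonneg (convex_Ico 0 1)
      (fun s hs => (hG s hs).continuousAt.continuousWithinAt)
      (fun s hs => (hG s (hint hs)).differentiableAt.differentiableWithinAt) fun s hs => by
        rw [(hG s (hint hs)).deriv]
        have h := (hbound s (hint hs)).1
        have h1 : (0 : ℝ) < 1 - s := sub_pos.2 (hint hs).2
        have h2 : (0 : ℝ) < 1 + s := by linarith [(hint hs).1]
        have e : (2 * s - 4) / (1 - s ^ 2) = -1 / (1 - s) - 3 * (1 / (1 + s)) := by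
          rw [show 1 - s ^ 2 = (1 - s) * (1 + s) by ring]; field_simp; ring
        linarith
    have := hmono hm0 hr hr.1
    simp only [hy0, sub_zero, add_zero, Real.log_one, mul_zero] at this
    show _ ≤ y r
    linarith
  · have hG : ∀ s ∈ Ico (0 : ℝ) 1, HasDerivAt
        (fun s => -y s - 3 * Real.log (1 - s) + Real.log (1 + s))
        (-y' s - 3 * (-1 / (1 - s)) + 1 / (1 + s)) s := fun s hs =>
      ((hyd s hs).neg.sub ((hlog s hs).1.const_mul 3)).add (hlog s hs).2
    have hmono := monotoneOn_of_deriv_nonneg (convex_Ico 0 1)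
      (fun s hs => (hG s hs).continuousAt.continuousWithinAt)
      (fun s hs => (hG s (hint hs)).differentiableAt.differentiableWithinAt) fun s hs => by
        rw [(hG s (hint hs)).deriv]
        have h := (hbound s (hint hs)).2
        have h1 : (0 : ℝ) < 1 - s := sub_pos.2 (hint hs).2
        have h2 : (0 : ℝ) < 1 + s := by linarith [(hint hs).1]
        have e : (2 * s + 4) / (1 - s ^ 2) = 3 * (1 / (1 - s)) + 1 / (1 + s) := by
          rw [show 1 - s ^ 2 = (1 - s) * (1 + s) by ring]; field_simp; ring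
        have e2 : -1 / (1 - s) = -(1 / (1 - s)) := by ring
        linarith
    have := hmono hm0 hr hr.1
    simp only [hy0, sub_zero, add_zero, Real.log_one, mul_zero] at this
    show y r ≤ _
    linarith

end Vale.Agent.P142
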