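import Vale.Agent.P142.AreaThm

/-!
The generalized area theorem (finite Grunsky inequality): if `f` is injective and holomorphic on
the disc, `f 0 = 0`, and a polynomial in `1 / f` equals `∑ L k / z ^ (k + 1) + R`, then the
coefficients of `R` are controlled by those of the principal part.
-/

noncomputable section

open Set Filter MeasureTheory Metric Function
open scoped Topology Real ComplexConjugate ENNReal NNReal

namespace Vale.Agent.P142.Grunsky

/-- The Taylor coefficient at the origin. -/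
def coef (H : ℂ → ℂ) (n : ℕ) : ℂ := ((Function.swap dslope 0)^[n] H) 0

lemma avg_pow {s : ℝ} {i : ℕ} (hi : i ≠ 0) :
    Real.circleAverage (fun z : ℂ => z ^ i) 0 s = 0 := by
  have h : DiffContOnCl ℂ (fun z : ℂ => z ^ i) (ball 0 |s|) :=
    (differentiable_id.pow i).diffContOnCl
  rw [h.circleAverage]; simp [hi]

lemma avg_conj {F : ℂ → ℂ} {c : ℂ} {s : ℝ} (hF : CircleIntegrable F c s) :
    Real.circleAverage (fun z => conj (F z)) c s = conj (Real.circleAverage F c s) :=
  (Complex.conjCLE.toContinuousLinearMap.circleAverage_comp_comm hF)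

lemma avg_conj_pow_mul {s : ℝ} (hs : 0 < s) (hs1 : s < 1) :
    ∀ (n : ℕ) {H : ℂ → ℂ}, DifferentiableOn ℂ H (ball 0 1) →
      Real.circleAverage (fun z => conj (z ^ n) * H z) 0 s = (s : ℂ) ^ (2 * n) * coef H n := by
  intro n
  induction n with
  | zero =>
    intro H hH
    have hc : DiffContOnCl ℂ H (ball 0 |s|) := by
      refine (hH.mono ?_).diffContOnCl
      rw [abs_of_pos hs]
      exact closure_ball_subset_closedBall.trans (closedBall_subset_ball hs1)
    simp [coef, hc.circleAverage]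
  | succ n ih =>
    intro H hH
    have hD : DifferentiableOn ℂ (dslope H 0) (ball 0 1) :=
      (Complex.differentiableOn_dslope (ball_mem_nhds 0 one_pos)).2 hH
    have hsph : sphere (0 : ℂ) |s| ⊆ ball 0 1 := by
      rw [abs_of_pos hs]; exact sphere_subset_closedBall.trans (closedBall_subset_ball hs1)
    have i1 : CircleIntegrable (fun z => H 0 * conj (z ^ (n + 1))) 0 s :=
      (Continuous.continuousOn (by fun_prop)).circleIntegrable'
    have i2 : CircleIntegrable (fun z => (s : ℂ) ^ 2 * (conj (z ^ n) * dslope H 0 z)) 0 s :=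
      (continuousOn_const.mul ((Continuous.continuousOn (by fun_prop)).mul
        (hD.continuousOn.mono hsph))).circleIntegrable'
    have e : EqOn (fun z => conj (z ^ (n + 1)) * H z)
        (fun z => H 0 * conj (z ^ (n + 1)) + (s : ℂ) ^ 2 * (conj (z ^ n) * dslope H 0 z))
        (sphere 0 |s|) := by
      intro z hz
      have hzn : z * conj z = (s : ℂ) ^ 2 := by
        rw [Complex.mul_conj, Complex.normSq_eq_norm_sq]
        have : ‖z‖ = s := by simpa [abs_of_pos hs] using hz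
        rw [this]; norm_cast
      have h := sub_smul_dslope H 0 z
      rw [sub_zero, smul_eq_mul] at h
      simp only [pow_succ, map_mul, map_pow]
      linear_combination (conj z ^ n * dslope H 0 z) * hzn - (conj z ^ n * conj z) * h
    have hp : CircleIntegrable (fun z : ℂ => z ^ (n + 1)) 0 s :=
      (Continuous.continuousOn (by fun_prop)).circleIntegrable'
    have e1 : Real.circleAverage (fun z : ℂ => H 0 * conj (z ^ (n + 1))) 0 s = 0 := by
      simp_rw [← smul_eq_mul]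
      rw [Real.circleAverage_fun_smul, avg_conj hp, avg_pow n.succ_ne_zero]
      simp
    have e2 : Real.circleAverage (fun z => (s : ℂ) ^ 2 * (conj (z ^ n) * dslope H 0 z)) 0 s
        = (s : ℂ) ^ 2 * ((s : ℂ) ^ (2 * n) * coef (dslope H 0) n) := by
      rw [show (fun z => (s : ℂ) ^ 2 * (conj (z ^ n) * dslope H 0 z))
          = (fun z => (s : ℂ) ^ 2 • (conj (z ^ n) * dslope H 0 z)) from rfl,
        Real.circleAverage_fun_smul, ih hD, smul_eq_mul]
    rw [Real.circleAverage_congr_sphere e, Real.circleAverage_fun_add i1 i2, e1, e2, zero_add, coef,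
      coef, Function.iterate_succ_apply, ← mul_assoc, ← pow_add]
    ring_nf

lemma avg_monomials {s : ℝ} (hs : 0 < s) (a b : ℕ) :
    Real.circleAverage (fun z : ℂ => conj (z ^ a) * z ^ b) 0 s
      = if a = b then (s : ℂ) ^ (2 * a) else 0 := by
  have hz : ∀ z ∈ sphere (0 : ℂ) |s|, conj z * z = (s : ℂ) ^ 2 := fun z hz => by
    rw [mul_comm, Complex.mul_conj, Complex.normSq_eq_norm_sq]
    have : ‖z‖ = s := by simpa [abs_of_pos hs] using hz
    rw [this]; norm_cast
  rcases le_or_gt a b with h | h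
  · obtain ⟨d, rfl⟩ := Nat.exists_eq_add_of_le h
    rw [Real.circleAverage_congr_sphere (f₂ := fun z : ℂ => (s : ℂ) ^ (2 * a) • z ^ d) fun z hz' => by
      simp only [smul_eq_mul, map_pow, pow_add, ← mul_assoc, ← mul_pow, hz z hz', ← pow_mul]]
    rw [Real.circleAverage_fun_smul]
    rcases eq_or_ne d 0 with rfl | hd
    · simp [Real.circleAverage_const]
    · rw [avg_pow hd]; simp [hd]
  · obtain ⟨d, rfl⟩ := Nat.exists_eq_add_of_le h.le
    have hd : d ≠ 0 := by omega
    rw [Real.circleAverage_congr_sphere (f₂ := fun z : ℂ => (s : ℂ) ^ (2 * b) • conj (z ^ d))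
      fun z hz' => by
        simp only [smul_eq_mul, map_mul, map_pow, pow_add, pow_mul, ← hz z hz', mul_pow]; ring]
    rw [Real.circleAverage_fun_smul, avg_conj (Continuous.continuousOn (by fun_prop)).circleIntegrable',
      avg_pow hd]
    simp [hd]

/-- The principal part at the index shift `j`. -/
def prin {m : ℕ} (c : Fin m → ℂ) (j : ℕ) (z : ℂ) : ℂ := ∑ k, c k * z⁻¹ ^ ((k : ℕ) + j)

lemma continuousOn_prin {m : ℕ} (c : Fin m → ℂ) (j : ℕ) : ContinuousOn (prin c j) {0}ᶜ :=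
  continuousOn_finsetSum _ fun _ _ => continuousOn_const.mul
    ((continuousOn_id.inv₀ fun _ hz => hz).pow _)

lemma sphere_subset_compl {s : ℝ} (hs : 0 < s) : sphere (0 : ℂ) |s| ⊆ {0}ᶜ := fun z hz h => by
  simp only [mem_singleton_iff] at h
  simp [h, abs_of_pos hs] at hz
  linarith

lemma avg_prin {m : ℕ} (b c : Fin m → ℂ) (j : ℕ) {s : ℝ} (hs : 0 < s) :
    Real.circleAverage (fun z => conj (prin b j z) * prin c j z) 0 s
      = ∑ k, conj (b k) * c k / (s : ℂ) ^ (2 * ((k : ℕ) + j)) := by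
  have hs' : (s : ℂ) ≠ 0 := Complex.ofReal_ne_zero.2 hs.ne'
  have e : EqOn (fun z => conj (prin b j z) * prin c j z)
      (fun z => ∑ k : Fin m, ∑ l : Fin m, (conj (b k) * c l / (s : ℂ) ^ (2 * ((k : ℕ) + j))
        / (s : ℂ) ^ (2 * ((l : ℕ) + j))) • (conj (z ^ ((l : ℕ) + j)) * z ^ ((k : ℕ) + j)))
      (sphere 0 |s|) := by
    intro z hz
    have hz0 : z ≠ 0 := sphere_subset_compl hs hz
    have hzn : z * conj z = (s : ℂ) ^ 2 := by
      rw [Complex.mul_conj, Complex.normSq_eq_norm_sq]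
      have : ‖z‖ = s := by simpa [abs_of_pos hs] using hz
      rw [this]; norm_cast
    simp only [prin, map_sum, Finset.sum_mul, Finset.mul_sum, smul_eq_mul]
    rw [Finset.sum_comm]
    refine Finset.sum_congr rfl fun k _ => Finset.sum_congr rfl fun l _ => ?_
    rw [pow_mul (s : ℂ), pow_mul (s : ℂ), ← hzn, map_mul, map_pow, map_inv₀, map_pow, mul_pow,
      mul_pow, inv_pow, inv_pow]
    have : conj z ≠ 0 := by simpa using hz0
    field_simp
  rw [Real.circleAverage_congr_sphere e]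
  rw [Real.circleAverage_fun_sum fun k _ => ?_]
  · refine Finset.sum_congr rfl fun k _ => ?_
    rw [Real.circleAverage_fun_sum fun l _ => (Continuous.continuousOn (by fun_prop)).circleIntegrable']
    rw [Finset.sum_eq_single k]
    · rw [Real.circleAverage_fun_smul, avg_monomials hs, if_pos rfl, smul_eq_mul]
      field_simp
    · intro l _ hl
      rw [Real.circleAverage_fun_smul, avg_monomials hs, if_neg, smul_zero]
      intro h; exact hl (Fin.ext (by omega))
    · simp
  · exact (Continuous.continuousOn (by fun_prop)).circleIntegrable'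

lemma avg_prin_holo {m : ℕ} (c : Fin m → ℂ) {j : ℕ} (hj : j ≠ 0) {s : ℝ} (hs : 0 < s) (hs1 : s < 1)
    {H : ℂ → ℂ} (hH : DifferentiableOn ℂ H (ball 0 1)) :
    Real.circleAverage (fun z => conj (prin c j z) * H z) 0 s = 0 := by
  have hs' : (s : ℂ) ≠ 0 := Complex.ofReal_ne_zero.2 hs.ne'
  set G : ℂ → ℂ := fun z => (∑ k : Fin m, conj (c k) / (s : ℂ) ^ (2 * ((k : ℕ) + j))
    * z ^ ((k : ℕ) + j)) * H z with hG
  have e : EqOn (fun z => conj (prin c j z) * H z) G (sphere 0 |s|) := by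
    intro z hz
    have hz0 : z ≠ 0 := sphere_subset_compl hs hz
    have hzn : z * conj z = (s : ℂ) ^ 2 := by
      rw [Complex.mul_conj, Complex.normSq_eq_norm_sq]
      have : ‖z‖ = s := by simpa [abs_of_pos hs] using hz
      rw [this]; norm_cast
    simp only [hG, prin, map_sum]
    congr 1
    refine Finset.sum_congr rfl fun k _ => ?_
    have : conj z ≠ 0 := by simpa using hz0
    rw [pow_mul (s : ℂ), ← hzn, map_mul, map_pow, map_inv₀, mul_pow, inv_pow]
    field_simp
  have hd : DiffContOnCl ℂ G (ball 0 |s|) := by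
    refine DifferentiableOn.diffContOnCl (DifferentiableOn.mono (t := ball 0 1) ?_ ?_)
    · exact (DifferentiableOn.fun_sum fun k _ => (differentiableOn_id.pow _).const_mul _).mul hH
    · rw [abs_of_pos hs]
      exact closure_ball_subset_closedBall.trans (closedBall_subset_ball hs1)
  rw [Real.circleAverage_congr_sphere e, hd.circleAverage]
  have : ∀ k : Fin m, (k : ℕ) + j ≠ 0 := fun k => by omega
  simp only [hG, mul_eq_zero]
  exact Or.inl (Finset.sum_eq_zero fun k _ => by rw [zero_pow (this k)]; simp)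

lemma avg_re {F : ℂ → ℂ} {s : ℝ} (hF : CircleIntegrable F 0 s) :
    Real.circleAverage (fun z => (F z).re) 0 s = (Real.circleAverage F 0 s).re :=
  Complex.reCLM.circleAverage_comp_comm hF

/-- The mean square of the derivative from below. -/
lemma circle_sq_lower {m : ℕ} (c : Fin m → ℂ) {j : ℕ} (hj : j ≠ 0) {k : ℂ → ℂ}
    (hk : DifferentiableOn ℂ k (ball 0 1)) (N : ℕ) {s : ℝ} (hs : 0 < s) (hs1 : s < 1) :
    ∑ i, ‖c i‖ ^ 2 / s ^ (2 * ((i : ℕ) + j)) + ∑ n ∈ Finset.range N, ‖coef k n‖ ^ 2 * s ^ (2 * n)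
      ≤ Real.circleAverage (fun z => ‖-prin c j z + k z‖ ^ 2) 0 s := by
  have hsph : sphere (0 : ℂ) |s| ⊆ ball 0 1 := by
    rw [abs_of_pos hs]; exact sphere_subset_closedBall.trans (closedBall_subset_ball hs1)
  have hA := (continuousOn_prin c j).mono (sphere_subset_compl hs)
  have hkc := hk.continuousOn.mono hsph
  set P : ℂ → ℂ := fun z => ∑ n ∈ Finset.range N, coef k n * z ^ n with hP
  have hPc : Continuous P := by fun_prop
  set F : ℂ → ℂ := fun z => conj (prin c j z) * prin c j z - 2 * (conj (prin c j z) * k z)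
    + 2 * (conj (P z) * k z) - conj (P z) * P z with hF
  have i1 : CircleIntegrable (fun z => conj (prin c j z) * prin c j z) 0 s :=
    ((Complex.continuous_conj.comp_continuousOn hA).mul hA).circleIntegrable'
  have i2 : CircleIntegrable (fun z => 2 * (conj (prin c j z) * k z)) 0 s :=
    (continuousOn_const.mul ((Complex.continuous_conj.comp_continuousOn hA).mul hkc)).circleIntegrable'
  have i3 : CircleIntegrable (fun z => 2 * (conj (P z) * k z)) 0 s :=
    (continuousOn_const.mul ((Complex.continuous_conj.comp hPc).continuousOn.mul hkc)).circleIntegrable'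
  have i4 : CircleIntegrable (fun z => conj (P z) * P z) 0 s :=
    (Continuous.continuousOn ((Complex.continuous_conj.comp hPc).mul hPc)).circleIntegrable'
  have iF : CircleIntegrable F 0 s := ((i1.sub i2).add i3).sub i4
  have e3 : Real.circleAverage (fun z => conj (P z) * k z) 0 s
      = ∑ n ∈ Finset.range N, ((‖coef k n‖ ^ 2 * s ^ (2 * n) : ℝ) : ℂ) := by
    rw [Real.circleAverage_congr_sphere (f₂ := fun z => ∑ n ∈ Finset.range N,
      conj (coef k n) • (conj (z ^ n) * k z)) fun z _ => by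
        simp only [hP, map_sum, map_mul, Finset.sum_mul, smul_eq_mul, mul_assoc]]
    rw [Real.circleAverage_fun_sum fun n _ =>
      (show ContinuousOn (fun z => conj (coef k n) • (conj (z ^ n) * k z)) (sphere 0 |s|) from
        ((Continuous.continuousOn (by fun_prop)).mul hkc).const_smul (conj (coef k n))).circleIntegrable']
    refine Finset.sum_congr rfl fun n _ => ?_
    rw [Real.circleAverage_fun_smul, avg_conj_pow_mul hs hs1 n hk, smul_eq_mul]
    push_cast
    rw [← Complex.conj_mul' (coef k n)]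
    ring
  have e4 : Real.circleAverage (fun z => conj (P z) * P z) 0 s
      = ∑ n ∈ Finset.range N, ((‖coef k n‖ ^ 2 * s ^ (2 * n) : ℝ) : ℂ) := by
    rw [Real.circleAverage_congr_sphere (f₂ := fun z => ∑ a ∈ Finset.range N, ∑ b ∈ Finset.range N,
      (conj (coef k a) * coef k b) • (conj (z ^ a) * z ^ b)) fun z _ => by
        simp only [hP, map_sum, map_mul, Finset.sum_mul, Finset.mul_sum, smul_eq_mul]
        rw [Finset.sum_comm]
        exact Finset.sum_congr rfl fun _ _ => Finset.sum_congr rfl fun _ _ => by ring]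
    rw [Real.circleAverage_fun_sum fun a _ => (Continuous.continuousOn (by fun_prop)).circleIntegrable']
    refine Finset.sum_congr rfl fun a ha => ?_
    rw [Real.circleAverage_fun_sum fun b _ => (Continuous.continuousOn (by fun_prop)).circleIntegrable',
      Finset.sum_eq_single_of_mem a ha fun b _ hb => by
        rw [Real.circleAverage_fun_smul, avg_monomials hs, if_neg (Ne.symm hb), smul_zero],
      Real.circleAverage_fun_smul, avg_monomials hs, if_pos rfl, smul_eq_mul]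
    push_cast
    rw [← Complex.conj_mul' (coef k a)]
  have hav : Real.circleAverage F 0 s = ((∑ i, ‖c i‖ ^ 2 / s ^ (2 * ((i : ℕ) + j))
      + ∑ n ∈ Finset.range N, ‖coef k n‖ ^ 2 * s ^ (2 * n) : ℝ) : ℂ) := by
    have i12 : CircleIntegrable
        (fun z => conj (prin c j z) * prin c j z - 2 * (conj (prin c j z) * k z)) 0 s := i1.sub i2
    have i123 : CircleIntegrable (fun z => conj (prin c j z) * prin c j z
        - 2 * (conj (prin c j z) * k z) + 2 * (conj (P z) * k z)) 0 s := i12.add i3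
    rw [hF, Real.circleAverage_fun_sub i123 i4, Real.circleAverage_fun_add i12 i3,
      Real.circleAverage_fun_sub i1 i2]
    simp_rw [show ∀ x : ℂ, 2 * x = (2 : ℂ) • x from fun x => rfl]
    rw [Real.circleAverage_fun_smul, Real.circleAverage_fun_smul, avg_prin c c j hs,
      avg_prin_holo c hj hs hs1 hk, e3, e4]
    simp only [Complex.conj_mul', smul_eq_mul]
    push_cast
    ring
  have hre := avg_re iF
  rw [hav, Complex.ofReal_re] at hre
  rw [← hre]
  refine Real.circleAverage_mono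
    (Complex.continuous_re.comp_continuousOn ((((Complex.continuous_conj.comp_continuousOn hA).mul hA).sub
      (continuousOn_const.mul ((Complex.continuous_conj.comp_continuousOn hA).mul hkc))).add
      (continuousOn_const.mul ((Complex.continuous_conj.comp hPc).continuousOn.mul hkc)) |>.sub
      ((Complex.continuous_conj.comp hPc).mul hPc).continuousOn)).circleIntegrable'
    ((hA.neg.add hkc).norm.pow 2).circleIntegrable' fun z _ => ?_
  have h := sq_nonneg ‖k z - P z‖
  simp only [Complex.sq_norm, Complex.normSq_apply, hF, Complex.add_re, Complex.sub_re,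
    Complex.sub_im, Complex.mul_re, Complex.mul_im, Complex.conj_re, Complex.conj_im,
    Complex.neg_re, Complex.neg_im, Complex.add_im, Complex.re_ofNat, Complex.im_ofNat] at h ⊢
  nlinarith

/-- The mean square over an annulus from below. -/
lemma annulus_lower {m : ℕ} (L : Fin m → ℂ) {k : ℂ → ℂ} (hk : DifferentiableOn ℂ k (ball 0 1))
    (N : ℕ) {ρ r : ℝ} (hρ : 0 < ρ) (hρr : ρ < r) (hr : r < 1) :
    ENNReal.ofReal (π * (∑ i : Fin m, ((i : ℕ) + 1 : ℝ) * ‖L i‖ ^ 2
        * (1 / ρ ^ (2 * ((i : ℕ) + 1)) - 1 / r ^ (2 * ((i : ℕ) + 1)))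
      + ∑ n ∈ Finset.range N, ‖coef k n‖ ^ 2 / ((n : ℝ) + 1)
        * (r ^ (2 * (n + 1)) - ρ ^ (2 * (n + 1))))) ≤
      ∫⁻ z in ball 0 r \ closedBall 0 ρ,
        ENNReal.ofReal (‖-prin (fun i => ((i : ℕ) + 1 : ℂ) * L i) 2 z + k z‖ ^ 2) := by
  set c : Fin m → ℂ := fun i => ((i : ℕ) + 1 : ℂ) * L i with hc
  set d : ℂ → ℂ := fun z => -prin c 2 z + k z with hd
  set S : Set ℂ := ball 0 r \ closedBall 0 ρ with hSdef
  have hS : MeasurableSet S := measurableSet_ball.diff measurableSet_closedBall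
  have hK0 : closedBall (0 : ℂ) r \ ball 0 ρ ⊆ {0}ᶜ := fun z hz h => by
    simp only [mem_singleton_iff] at h
    exact hz.2 (by simp [h, hρ])
  have hcpt : IsCompact (closedBall (0 : ℂ) r \ ball 0 ρ) :=
    (isCompact_closedBall _ _).diff isOpen_ball
  have hdc : ContinuousOn (fun z => ‖d z‖ ^ 2) (closedBall (0 : ℂ) r \ ball 0 ρ) :=
    (((continuousOn_prin c 2).mono hK0).neg.add (hk.continuousOn.mono
      (sdiff_subset.trans (closedBall_subset_ball hr)))).norm.pow 2
  have hint : IntegrableOn (fun z => ‖d z‖ ^ 2) S :=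
    (hdc.integrableOn_compact hcpt).mono_set
      (sdiff_subset_sdiff ball_subset_closedBall ball_subset_closedBall)
  rw [← ofReal_integral_eq_lintegral_ofReal hint (Eventually.of_forall fun z => sq_nonneg _)]
  refine ENNReal.ofReal_le_ofReal ?_
  rw [← integral_indicator hS, ← Complex.integral_comp_polarCoord_symm]
  have heq : ∀ p : ℝ × ℝ, p ∈ polarCoord.target →
      p.1 • S.indicator (fun z => ‖d z‖ ^ 2) (Complex.polarCoord.symm p) =
        (Ioo ρ r ×ˢ Ioo (-π) π).indicator (fun q : ℝ × ℝ => q.1 * ‖d (circleMap 0 q.1 q.2)‖ ^ 2) p := by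
    rintro ⟨s, θ⟩ ⟨hs, hθ⟩
    simp only [mem_Ioi] at hs
    have hpc : Complex.polarCoord.symm (s, θ) = circleMap 0 s θ := by
      simp [Complex.polarCoord_symm_apply, circleMap, Complex.exp_mul_I]
    rw [hpc]
    by_cases h : s ∈ Ioo ρ r
    · rw [indicator_of_mem (show ((s, θ) : ℝ × ℝ) ∈ Ioo ρ r ×ˢ Ioo (-π) π from ⟨h, hθ⟩),
        indicator_of_mem, smul_eq_mul]
      simp [S, abs_of_pos hs, h.1, h.2]
    · rw [indicator_of_notMem (fun hc : ((s, θ) : ℝ × ℝ) ∈ Ioo ρ r ×ˢ Ioo (-π) π => h hc.1),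
        indicator_of_notMem, smul_zero]
      intro hc
      simp [S, abs_of_pos hs] at hc
      exact h ⟨hc.2, hc.1⟩
  rw [setIntegral_congr_fun polarCoord.open_target.measurableSet heq,
    setIntegral_indicator (measurableSet_Ioo.prod measurableSet_Ioo),
    inter_eq_right.2 (show Ioo ρ r ×ˢ Ioo (-π) π ⊆ polarCoord.target from
      prod_mono (fun s hs => mem_Ioi.2 (hρ.trans hs.1)) subset_rfl)]
  have hF : ContinuousOn (fun q : ℝ × ℝ => q.1 * ‖d (circleMap 0 q.1 q.2)‖ ^ 2)
      (Icc ρ r ×ˢ Icc (-π) π) := by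
    refine continuousOn_fst.mul (hdc.comp ?_ fun q hq => ?_)
    · exact Continuous.continuousOn (by unfold circleMap; fun_prop)
    · obtain ⟨⟨h1, h2⟩, -⟩ := hq
      simp [abs_of_pos (hρ.trans_le h1), h1, h2]
  have hFi : IntegrableOn (fun q : ℝ × ℝ => q.1 * ‖d (circleMap 0 q.1 q.2)‖ ^ 2)
      (Ioo ρ r ×ˢ Ioo (-π) π) (volume.prod volume) :=
    (hF.integrableOn_compact (isCompact_Icc.prod isCompact_Icc)).mono_set
      (prod_mono Ioo_subset_Icc_self Ioo_subset_Icc_self)
  rw [Measure.volume_eq_prod, setIntegral_prod _ hFi]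
  set u : ℝ → ℝ := fun s => 2 * π * (s * (∑ i : Fin m, ‖c i‖ ^ 2 / s ^ (2 * ((i : ℕ) + 2))
      + ∑ n ∈ Finset.range N, ‖coef k n‖ ^ 2 * s ^ (2 * n))) with hu
  have hinner : ∀ s ∈ Ioo ρ r, u s ≤ ∫ θ in Ioo (-π) π, s * ‖d (circleMap 0 s θ)‖ ^ 2 := by
    intro s hs
    have hs0 : 0 < s := hρ.trans hs.1
    have hlow := circle_sq_lower c two_ne_zero hk N hs0 (hs.2.trans hr)
    rw [integral_const_mul, ← integral_Ioc_eq_integral_Ioo,
      ← intervalIntegral.integral_of_le (by linarith [Real.pi_pos])]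
    have hper : Function.Periodic (fun θ => ‖d (circleMap 0 s θ)‖ ^ 2) (2 * π) := fun θ => by
      simp only [periodic_circleMap 0 s θ]
    have := hper.intervalIntegral_add_eq (-π) 0
    rw [show -π + 2 * π = π by ring, zero_add] at this
    rw [this]
    rw [Real.circleAverage_def, smul_eq_mul, inv_mul_eq_div, le_div_iff₀ (by positivity)] at hlow
    simp only [hu]
    rw [mul_left_comm]
    exact mul_le_mul_of_nonneg_left (by linarith) hs0.le
  have huc : ContinuousOn u (Icc ρ r) := by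
    refine continuousOn_const.mul (continuousOn_id.mul ((continuousOn_finsetSum _ fun i _ =>
      continuousOn_const.div (continuousOn_id.pow _) fun s hs => pow_ne_zero _
        (hρ.trans_le hs.1).ne').add (Continuous.continuousOn (by fun_prop))))
  have hFi' : IntegrableOn (fun s => ∫ θ in Ioo (-π) π, s * ‖d (circleMap 0 s θ)‖ ^ 2) (Ioo ρ r) := by
    have := hFi
    rw [IntegrableOn, ← Measure.prod_restrict] at this
    exact this.integral_prod_left
  refine le_trans (le_of_eq ?_) (setIntegral_mono_on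
    ((huc.integrableOn_compact isCompact_Icc).mono_set Ioo_subset_Icc_self) hFi'
    measurableSet_Ioo hinner)
  have hprim : ∀ s ∈ uIcc ρ r, HasDerivAt (fun s : ℝ =>
      π * (∑ i : Fin m, ((i : ℕ) + 1 : ℝ) * ‖L i‖ ^ 2 * (-(s ^ (2 * ((i : ℕ) + 1)))⁻¹)
        + ∑ n ∈ Finset.range N, ‖coef k n‖ ^ 2 / ((n : ℝ) + 1) * s ^ (2 * (n + 1)))) (u s) s := by
    intro s hs
    rw [uIcc_of_le hρr.le] at hs
    have hs0 : s ≠ 0 := (hρ.trans_le hs.1).ne'
    have h1 : ∀ i : Fin m, HasDerivAt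
        (fun s : ℝ => ((i : ℕ) + 1 : ℝ) * ‖L i‖ ^ 2 * (-(s ^ (2 * ((i : ℕ) + 1)))⁻¹))
        (2 * s * (‖c i‖ ^ 2 / s ^ (2 * ((i : ℕ) + 2)))) s := fun i => by
      refine (((hasDerivAt_pow (2 * ((i : ℕ) + 1)) s).fun_inv (pow_ne_zero _ hs0)).fun_neg.const_mul
        _).congr_deriv ?_
      rw [hc, norm_mul, show ((i : ℕ) + 1 : ℂ) = (((i : ℕ) + 1 : ℝ) : ℂ) by push_cast; ring,
        Complex.norm_of_nonneg (by positivity), show 2 * ((i : ℕ) + 1) - 1 = 2 * (i : ℕ) + 1 by omega]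
      push_cast
      field_simp
      ring
    have h2 : ∀ n : ℕ, HasDerivAt (fun s : ℝ => ‖coef k n‖ ^ 2 / ((n : ℝ) + 1) * s ^ (2 * (n + 1)))
        (2 * s * (‖coef k n‖ ^ 2 * s ^ (2 * n))) s := fun n => by
      refine ((hasDerivAt_pow (2 * (n + 1)) s).const_mul _).congr_deriv ?_
      rw [show 2 * (n + 1) - 1 = 2 * n + 1 by omega]
      push_cast
      field_simp
      ring
    refine (((HasDerivAt.fun_sum fun i _ => h1 i).add
      (HasDerivAt.fun_sum fun n _ => h2 n)).const_mul π).congr_deriv ?_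
    simp only [hu, ← Finset.mul_sum]
    ring
  rw [← integral_Ioc_eq_integral_Ioo, ← intervalIntegral.integral_of_le hρr.le,
    intervalIntegral.integral_eq_sub_of_hasDerivAt hprim
      ((huc.mono (by rw [uIcc_of_le hρr.le])).intervalIntegrable)]
  simp only [one_div, mul_sub, mul_neg, mul_add, Finset.sum_sub_distrib, Finset.sum_neg_distrib]
  ring

variable {f : ℂ → ℂ}

/-- Constants for the star-shaped image of small circles. -/
lemma small_circle (hf : DifferentiableOn ℂ f (ball 0 1)) (ha : deriv f 0 ≠ 0) :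
    ∃ δ, 0 < δ ∧ δ < 1 ∧ ∀ z ∈ closedBall (0 : ℂ) δ, ‖deriv f z - deriv f 0‖ ≤ ‖deriv f 0‖ / 8 ∧
      ∀ w ∈ closedBall (0 : ℂ) δ, ‖(f z - deriv f 0 * z) - (f w - deriv f 0 * w)‖
        ≤ ‖deriv f 0‖ / 8 * ‖z - w‖ := by
  have hc : ContinuousAt (deriv f) 0 :=
    ((hf.deriv isOpen_ball).differentiableAt (ball_mem_nhds 0 one_pos)).continuousAt
  obtain ⟨ε, hε, hεd⟩ := Metric.continuousAt_iff.1 hc (‖deriv f 0‖ / 8)
    (div_pos (norm_pos_iff.2 ha) (by norm_num))
  refine ⟨min (ε / 2) (1 / 2), by positivity, lt_of_le_of_lt (min_le_right _ _) (by norm_num),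
    fun z hz => ?_⟩
  have hmem : ∀ y ∈ closedBall (0 : ℂ) (min (ε / 2) (1 / 2)),
      y ∈ ball (0 : ℂ) 1 ∧ ‖deriv f y - deriv f 0‖ ≤ ‖deriv f 0‖ / 8 := by
    intro y hy
    simp only [mem_closedBall, dist_zero_right] at hy
    refine ⟨by simp; linarith [min_le_right (ε / 2) (1 / 2 : ℝ)], ?_⟩
    rw [← dist_eq_norm]
    exact (hεd (by rw [dist_zero_right]; linarith [min_le_left (ε / 2) (1 / 2 : ℝ)])).le
  refine ⟨(hmem z hz).2, fun w hw => ?_⟩
  refine (convex_closedBall 0 _).norm_image_sub_le_of_norm_hasDerivWithin_le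
    (f := fun y => f y - deriv f 0 * y) (f' := fun y => deriv f y - deriv f 0)
    (fun y hy => ?_) (fun y hy => (hmem y hy).2) hw hz
  exact ((((hf.differentiableAt (isOpen_ball.mem_nhds (hmem y hy).1)).hasDerivAt).sub
    ((hasDerivAt_id y).const_mul (deriv f 0) |>.congr_deriv (mul_one _)))).hasDerivWithinAt

/-- Points on a ray below the image of a small circle have preimages inside the circle. -/
lemma ray_preimage {δ : ℝ} (ha : deriv f 0 ≠ 0) (h0 : f 0 = 0)
    (hδ : ∀ z ∈ closedBall (0 : ℂ) δ, ‖deriv f z - deriv f 0‖ ≤ ‖deriv f 0‖ / 8 ∧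
      ∀ w ∈ closedBall (0 : ℂ) δ, ‖(f z - deriv f 0 * z) - (f w - deriv f 0 * w)‖
        ≤ ‖deriv f 0‖ / 8 * ‖z - w‖)
    {ζ : ℂ} (hζδ : ‖ζ‖ ≤ δ) (hζ : ζ ≠ 0) {t : ℝ} (ht0 : 0 ≤ t) (ht1 : t < 1) :
    ∃ z, ‖z‖ < ‖ζ‖ ∧ f z = t * f ζ := by
  set a := deriv f 0 with hadef
  set e : ℂ → ℂ := fun z => f z - a * z with he
  have hap : 0 < ‖a‖ := norm_pos_iff.2 ha
  have hρ : 0 < ‖ζ‖ := norm_pos_iff.2 hζ
  set c : ℂ := t * ζ with hcdef
  set R : ℝ := (1 - t) * ‖ζ‖ / 2 with hR
  have hcn : ‖c‖ = t * ‖ζ‖ := by rw [hcdef, norm_mul, Complex.norm_of_nonneg ht0]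
  have hball : ∀ z ∈ closedBall c R, ‖z‖ < ‖ζ‖ ∧ z ∈ closedBall (0 : ℂ) δ := by
    intro z hz
    rw [mem_closedBall, dist_eq_norm] at hz
    have hnz : ‖z‖ < ‖ζ‖ := by
      have h1 := norm_le_norm_add_norm_sub' z c
      have : 0 < (1 - t) * ‖ζ‖ := mul_pos (by linarith) hρ
      rw [hcn] at h1
      linarith
    exact ⟨hnz, by simp; linarith⟩
  have hζm : ζ ∈ closedBall (0 : ℂ) δ := by simpa using hζδ
  have h0m : (0 : ℂ) ∈ closedBall (0 : ℂ) δ := by simp; linarith
  set T : ℂ → ℂ := fun z => z - (f z - t * f ζ) / a with hT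
  have hTdiff : ∀ z w, T z - T w = -(e z - e w) / a := fun z w => by
    simp only [hT, he]; field_simp; ring
  have hcm : c ∈ closedBall c R := mem_closedBall_self (by nlinarith)
  have hTc : ‖T c - c‖ ≤ R / 2 := by
    have e1 : T c - c = -((e c - e ζ) + (1 - t) * e ζ) / a := by
      simp only [hT, he, hcdef]; field_simp; ring
    rw [e1, norm_div, norm_neg, div_le_iff₀ hap]
    refine (norm_add_le _ _).trans ?_
    have h1 := (hδ c (hball c hcm).2).2 ζ hζm
    have h2 : ‖c - ζ‖ = (1 - t) * ‖ζ‖ := by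
      rw [hcdef, ← norm_neg, show -((t : ℂ) * ζ - ζ) = ((1 - t : ℝ) : ℂ) * ζ by push_cast; ring,
        norm_mul, Complex.norm_of_nonneg (by linarith)]
    have h3 := (hδ ζ hζm).2 0 h0m
    simp only [mul_zero, sub_zero, h0] at h3
    rw [h2] at h1
    rw [norm_mul, show ((1 : ℂ) - t) = ((1 - t : ℝ) : ℂ) by push_cast; ring,
      Complex.norm_of_nonneg (by linarith : (0 : ℝ) ≤ 1 - t)]
    have h4 := mul_le_mul_of_nonneg_left h3 (by linarith : (0 : ℝ) ≤ 1 - t)
    rw [hR]
    nlinarith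
  have hlip : ∀ z ∈ closedBall c R, ∀ w ∈ closedBall c R, dist (T z) (T w) ≤ 1 / 8 * dist z w := by
    intro z hz w hw
    rw [dist_eq_norm, dist_eq_norm, hTdiff, norm_div, norm_neg, div_le_iff₀ hap]
    have := (hδ z (hball z hz).2).2 w (hball w hw).2
    linarith
  have hmaps : MapsTo T (closedBall c R) (closedBall c R) := by
    intro z hz
    have h1 := hlip z hz c hcm
    rw [mem_closedBall] at hz ⊢
    have h2 := dist_triangle (T z) (T c) c
    rw [← dist_eq_norm] at hTc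
    have := dist_nonneg (x := z) (y := c)
    linarith
  have hcon : ContractingWith (1 / 8) (hmaps.restrict T (closedBall c R) (closedBall c R)) :=
    ⟨by rw [← NNReal.coe_lt_coe]; norm_num, LipschitzWith.of_dist_le_mul fun z w => by
      simpa [Subtype.dist_eq] using hlip z z.2 w w.2⟩
  obtain ⟨y, hy, hfix, -⟩ := hcon.exists_fixedPoint' isClosed_closedBall.isComplete hmaps hcm
    (edist_ne_top _ _)
  refine ⟨y, (hball y hy).1, ?_⟩
  have : y - (f y - t * f ζ) / a = y := hfix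
  rw [sub_eq_self, div_eq_zero_iff, or_iff_left ha, sub_eq_zero] at this
  exact this

/-- Symbol of a polynomial without constant term. -/
def poly {m : ℕ} (q : Fin m → ℂ) (u : ℂ) : ℂ := ∑ k : Fin m, q k * u ^ ((k : ℕ) + 1)

/-- Its derivative. -/
def poly' {m : ℕ} (q : Fin m → ℂ) (u : ℂ) : ℂ := ∑ k : Fin m, ((k : ℕ) + 1) * q k * u ^ (k : ℕ)

lemma hasDerivAt_poly {m : ℕ} (q : Fin m → ℂ) (u : ℂ) : HasDerivAt (poly q) (poly' q u) u := by
  refine (HasDerivAt.fun_sum (u := Finset.univ) fun (k : Fin m) _ =>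
    (hasDerivAt_pow ((k : ℕ) + 1) u).const_mul (q k)).congr_deriv ?_
  exact Finset.sum_congr rfl fun k _ => by simp; ring

lemma hasDerivAt_prin {m : ℕ} (L : Fin m → ℂ) {z : ℂ} (hz : z ≠ 0) :
    HasDerivAt (prin L 1) (-prin (fun i => ((i : ℕ) + 1 : ℂ) * L i) 2 z) z := by
  refine (HasDerivAt.fun_sum (u := Finset.univ) fun (k : Fin m) _ =>
    ((hasDerivAt_inv hz).fun_pow ((k : ℕ) + 1)).const_mul (L k)).congr_deriv ?_
  rw [prin, ← Finset.sum_neg_distrib]
  refine Finset.sum_congr rfl fun k _ => ?_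
  rw [Nat.add_sub_cancel, ← inv_pow z 2]
  push_cast
  ring

/-- Stokes' formula for the region bounded by a closed curve and star-shaped about the origin. -/
lemma star_stokes {m : ℕ} (q : Fin m → ℂ) {γ γ' : ℝ → ℂ} (hγ : ∀ θ, HasDerivAt γ (γ' θ) θ)
    (hγ' : Continuous γ') (hper : γ (-π) = γ π) :
    ∫ θ in (-π)..π, (∫ t in (0 : ℝ)..1, t * (-(conj (γ θ) * γ' θ).im) * ‖poly' q (t * γ θ)‖ ^ 2)
      = ((Complex.I / 2) * ∫ θ in (-π)..π, conj (poly q (γ θ)) * (poly' q (γ θ) * γ' θ)).re := by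
  have hγc : Continuous γ := continuous_iff_continuousAt.2 fun θ => (hγ θ).continuousAt
  set C : Fin m → Fin m → ℂ := fun a b =>
    conj (((a : ℕ) + 1 : ℂ) * q a) * (((b : ℕ) + 1 : ℂ) * q b) / ((a : ℕ) + (b : ℕ) + 2) with hC
  set G : ℝ → ℂ := fun θ => (Complex.I / 2) * (conj (γ θ) * γ' θ - γ θ * conj (γ' θ)) *
    ∑ a : Fin m, ∑ b : Fin m, C a b * conj (γ θ) ^ (a : ℕ) * γ θ ^ (b : ℕ) with hG
  have hinner : ∀ θ, ((∫ t in (0 : ℝ)..1,
      t * (-(conj (γ θ) * γ' θ).im) * ‖poly' q (t * γ θ)‖ ^ 2 : ℝ) : ℂ) = G θ := by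
    intro θ
    rw [← intervalIntegral.integral_ofReal]
    have hw : ((-(conj (γ θ) * γ' θ).im : ℝ) : ℂ)
        = (Complex.I / 2) * (conj (γ θ) * γ' θ - γ θ * conj (γ' θ)) := by
      have h := Complex.sub_conj (conj (γ θ) * γ' θ)
      rw [map_mul, Complex.conj_conj] at h
      rw [h]
      push_cast
      linear_combination ((conj (γ θ) * γ' θ).im : ℂ) * (-1 : ℂ) * Complex.I_mul_I
    have e : ∀ t : ℝ, ((t * (-(conj (γ θ) * γ' θ).im) * ‖poly' q (t * γ θ)‖ ^ 2 : ℝ) : ℂ)
        = ∑ a : Fin m, ∑ b : Fin m, ((-(conj (γ θ) * γ' θ).im : ℝ) : ℂ) *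
          (conj (((a : ℕ) + 1 : ℂ) * q a) * (((b : ℕ) + 1 : ℂ) * q b)
            * conj (γ θ) ^ (a : ℕ) * γ θ ^ (b : ℕ)) * ((t ^ ((a : ℕ) + (b : ℕ) + 1) : ℝ) : ℂ) := by
      intro t
      rw [Complex.ofReal_mul, Complex.ofReal_mul, Complex.ofReal_pow ‖_‖, ← Complex.conj_mul']
      simp only [poly', map_sum, map_mul, map_pow, Complex.conj_ofReal, mul_pow,
        Finset.sum_mul, Finset.mul_sum, Complex.ofReal_pow, pow_add, pow_one]
      rw [Finset.sum_comm]
      refine Finset.sum_congr rfl fun a _ => Finset.sum_congr rfl fun b _ => ?_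
      push_cast
      ring
    simp only [e]
    rw [intervalIntegral.integral_finsetSum fun a _ =>
      Continuous.intervalIntegrable (by fun_prop) _ _]
    simp only [hG, ← hw, Finset.mul_sum]
    refine Finset.sum_congr rfl fun a _ => ?_
    rw [intervalIntegral.integral_finsetSum fun b _ =>
      Continuous.intervalIntegrable (by fun_prop) _ _]
    refine Finset.sum_congr rfl fun b _ => ?_
    rw [intervalIntegral.integral_const_mul, intervalIntegral.integral_ofReal, integral_pow]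
    simp only [hC, one_pow, ne_eq, Nat.succ_ne_zero, not_false_eq_true, zero_pow, sub_zero]
    push_cast
    ring
  set K : ℝ → ℂ := fun θ => ∑ a : Fin m, ∑ b : Fin m, -(Complex.I / 2) * conj (q a) * q b *
    ((b : ℕ) + 1) / ((a : ℕ) + (b : ℕ) + 2) * (conj (γ θ) ^ ((a : ℕ) + 1) * γ θ ^ ((b : ℕ) + 1))
    with hK
  have hdK : ∀ θ, HasDerivAt K
      (G θ - (Complex.I / 2) * (conj (poly q (γ θ)) * (poly' q (γ θ) * γ' θ))) θ := by
    intro θ
    refine (HasDerivAt.fun_sum (u := Finset.univ) fun (a : Fin m) _ =>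
      HasDerivAt.fun_sum (u := Finset.univ) fun (b : Fin m) _ =>
      ((((hγ θ).star.fun_pow ((a : ℕ) + 1)).fun_mul ((hγ θ).fun_pow ((b : ℕ) + 1)))).const_mul
        (-(Complex.I / 2) * conj (q a) * q b * ((b : ℕ) + 1) / ((a : ℕ) + (b : ℕ) + 2))).congr_deriv ?_
    have hB : conj (poly q (γ θ)) * (poly' q (γ θ) * γ' θ) = ∑ a : Fin m, ∑ b : Fin m,
        conj (q a * γ θ ^ ((a : ℕ) + 1)) * (((b : ℕ) + 1) * q b * γ θ ^ (b : ℕ) * γ' θ) := by
      rw [poly, poly', map_sum, Finset.sum_mul (a := γ' θ), Finset.sum_mul_sum]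
    rw [hB]
    simp only [hG, Finset.mul_sum]
    rw [← Finset.sum_sub_distrib]
    refine Finset.sum_congr rfl fun a _ => ?_
    rw [← Finset.sum_sub_distrib]
    refine Finset.sum_congr rfl fun b _ => ?_
    have : ((a : ℕ) + (b : ℕ) + 2 : ℂ) ≠ 0 := by norm_cast
    simp only [hC, RCLike.star_def, Nat.add_sub_cancel, map_mul, map_pow, map_add, map_natCast,
      map_one, Nat.cast_add, Nat.cast_one]
    field_simp
    ring
  have hGc : Continuous G := by fun_prop
  have hBc : Continuous fun θ => (Complex.I / 2) * (conj (poly q (γ θ)) * (poly' q (γ θ) * γ' θ)) := by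
    unfold poly poly'; fun_prop
  have h0 := intervalIntegral.integral_eq_sub_of_hasDerivAt (fun θ _ => hdK θ)
    ((hGc.sub hBc).intervalIntegrable (-π) π)
  have hKeq : K π - K (-π) = 0 := by simp [hK, hper]
  rw [hKeq, intervalIntegral.integral_sub (hGc.intervalIntegrable _ _) (hBc.intervalIntegrable _ _),
    intervalIntegral.integral_const_mul, sub_eq_zero] at h0
  rw [← h0]
  simp only [← hinner, intervalIntegral.integral_ofReal, Complex.ofReal_re]

/-- The area enclosed by the image of a small circle bounds the area of the image of an annulus. -/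
lemma area_upper (hf : DifferentiableOn ℂ f (ball 0 1)) (hinj : InjOn f (ball 0 1)) (h0 : f 0 = 0)
    (ha : deriv f 0 ≠ 0) {m : ℕ} (q : Fin m → ℂ) :
    ∃ δ, 0 < δ ∧ δ < 1 ∧ ∀ ρ, 0 < ρ → ρ ≤ δ → ∀ r, r < 1 →
      ∫⁻ z in ball 0 r \ closedBall 0 ρ,
          ENNReal.ofReal (‖poly' q (f z)⁻¹ * (-deriv f z / f z ^ 2)‖ ^ 2)
        ≤ ENNReal.ofReal ((Complex.I / 2) * ∫ θ in (-π)..π,
            conj (poly q (f (circleMap 0 ρ θ))⁻¹) * (poly' q (f (circleMap 0 ρ θ))⁻¹ *
              (-deriv f (circleMap 0 ρ θ) / f (circleMap 0 ρ θ) ^ 2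
                * (circleMap 0 ρ θ * Complex.I)))).re := by
  obtain ⟨δ, hδ0, hδ1, hδ⟩ := small_circle hf ha
  refine ⟨δ, hδ0, hδ1, fun ρ hρ hρδ r hr => ?_⟩
  have hfne : ∀ z ∈ ball (0 : ℂ) 1, z ≠ 0 → f z ≠ 0 := fun z hz hz0 h =>
    hz0 (hinj hz (mem_ball_self one_pos) (h.trans h0.symm))
  have hz1 : ∀ θ, circleMap 0 ρ θ ∈ ball (0 : ℂ) 1 := fun θ => by
    simp [abs_of_pos hρ]; linarith
  have hzρ : ∀ θ, ‖circleMap 0 ρ θ‖ = ρ := fun θ => by simp [abs_of_pos hρ]
  have hz0 : ∀ θ, circleMap 0 ρ θ ≠ 0 := fun θ => circleMap_ne_center hρ.ne'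
  set γ : ℝ → ℂ := fun θ => (f (circleMap 0 ρ θ))⁻¹ with hγdef
  set γ' : ℝ → ℂ := fun θ => -deriv f (circleMap 0 ρ θ) / f (circleMap 0 ρ θ) ^ 2
    * (circleMap 0 ρ θ * Complex.I) with hγ'def
  have hfd : ∀ z ∈ ball (0 : ℂ) 1, HasDerivAt f (deriv f z) z := fun z hz =>
    (hf.differentiableAt (isOpen_ball.mem_nhds hz)).hasDerivAt
  have hγ : ∀ θ, HasDerivAt γ (γ' θ) θ := fun θ =>
    (((hfd _ (hz1 θ)).fun_inv (hfne _ (hz1 θ) (hz0 θ))).comp θ (hasDerivAt_circleMap 0 ρ θ))
  have hγ'c : Continuous γ' := by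
    have h1 : Continuous fun θ => deriv f (circleMap 0 ρ θ) :=
      (hf.deriv isOpen_ball).continuousOn.comp_continuous (continuous_circleMap 0 ρ) hz1
    have h2 : Continuous fun θ => f (circleMap 0 ρ θ) :=
      hf.continuousOn.comp_continuous (continuous_circleMap 0 ρ) hz1
    exact (h1.neg.div (h2.pow 2) fun θ => pow_ne_zero 2 (hfne _ (hz1 θ) (hz0 θ))).mul
      ((continuous_circleMap 0 ρ).mul continuous_const)
  have hγc : Continuous γ := continuous_iff_continuousAt.2 fun θ => (hγ θ).continuousAt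
  have hper : γ (-π) = γ π := by
    simp only [hγdef]
    rw [show π = -π + 2 * π by ring, periodic_circleMap 0 ρ, show -π + 2 * π = π by ring]
  -- the curve winds negatively
  have hratio : ∀ θ, ‖f (circleMap 0 ρ θ) / (deriv f 0 * circleMap 0 ρ θ) - 1‖ ≤ 1 / 8 := by
    intro θ
    have h := (hδ _ (show circleMap 0 ρ θ ∈ closedBall (0 : ℂ) δ by simp [abs_of_pos hρ, hρδ])).2 0
      (mem_closedBall_self hδ0.le)
    simp only [mul_zero, sub_zero, h0] at h
    rw [div_sub_one (mul_ne_zero ha (hz0 θ)), norm_div, norm_mul, div_le_iff₀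
      (mul_pos (norm_pos_iff.2 ha) (norm_pos_iff.2 (hz0 θ)))]
    linarith
  have hw : ∀ θ, 0 ≤ -(conj (γ θ) * γ' θ).im := by
    intro θ
    have hζ := hz0 θ
    have hF := hfne _ (hz1 θ) hζ
    have h1 := hratio θ
    have h2 := (hδ _ (show circleMap 0 ρ θ ∈ closedBall (0 : ℂ) δ by simp [abs_of_pos hρ, hρδ])).1
    simp only [hγdef, hγ'def]
    generalize circleMap 0 ρ θ = ζ at hζ hF h1 h2 ⊢
    set p := deriv f ζ / deriv f 0 with hp
    set s := f ζ / (deriv f 0 * ζ) with hs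
    have hs0 : s ≠ 0 := div_ne_zero hF (mul_ne_zero ha hζ)
    have hp1 : ‖p - 1‖ ≤ 1 / 8 := by
      rw [hp, div_sub_one ha, norm_div, div_le_iff₀ (norm_pos_iff.2 ha)]; linarith
    have e : conj (f ζ)⁻¹ * (-deriv f ζ / f ζ ^ 2 * (ζ * Complex.I))
        = ((-‖(f ζ)⁻¹‖ ^ 2 / ‖s‖ ^ 2 : ℝ) : ℂ) * (p * conj s) * Complex.I := by
      have hd : deriv f ζ * ζ = p / s * f ζ := by rw [hp, hs]; field_simp
      have hsc : ((‖s‖ : ℂ)) ^ 2 = conj s * s := (Complex.conj_mul' s).symm
      push_cast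
      rw [← Complex.conj_mul' (f ζ)⁻¹, hsc]
      have : conj s ≠ 0 := by simpa using hs0
      calc conj (f ζ)⁻¹ * (-deriv f ζ / f ζ ^ 2 * (ζ * Complex.I))
          = -conj (f ζ)⁻¹ * (deriv f ζ * ζ) / f ζ ^ 2 * Complex.I := by ring
        _ = _ := by rw [hd]; field_simp
    rw [e, Complex.mul_I_im, Complex.re_ofReal_mul, neg_div, neg_mul, neg_neg]
    refine mul_nonneg (by positivity) ?_
    have ep : p * conj s = 1 + ((p - 1) + conj (s - 1) + (p - 1) * conj (s - 1)) := by
      rw [map_sub, map_one]; ring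
    have hb : ‖(p - 1) + conj (s - 1) + (p - 1) * conj (s - 1)‖ ≤ 1 / 8 + 1 / 8 + 1 / 8 * (1 / 8) := by
      refine (norm_add₃_le).trans ?_
      rw [norm_mul, RCLike.norm_conj]
      gcongr
    rw [ep, Complex.add_re, Complex.one_re]
    have := neg_abs_le ((p - 1) + conj (s - 1) + (p - 1) * conj (s - 1)).re
    have := Complex.abs_re_le_norm ((p - 1) + conj (s - 1) + (p - 1) * conj (s - 1))
    linarith
  -- the star map
  set Ψ : ℂ → ℂ := fun u => (u.re : ℂ) * γ u.im with hΨ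
  set D : Set ℂ := {u | u.re ∈ Ioo (0 : ℝ) 1 ∧ u.im ∈ Ioc (-π) π} with hD
  set S : Set ℂ := ball 0 r \ closedBall 0 ρ with hSdef
  have hS : MeasurableSet S := measurableSet_ball.diff measurableSet_closedBall
  have hDm : MeasurableSet D :=
    (measurableSet_Ioo.preimage Complex.measurable_re).inter
      (measurableSet_Ioc.preimage Complex.measurable_im)
  have hpre : ∀ θ (c : ℝ), 0 ≤ c → c < 1 → ∃ z, ‖z‖ < ρ ∧ f z = c * f (circleMap 0 ρ θ) := by
    intro θ c hc0 hc1
    obtain ⟨z, h1, h2⟩ := ray_preimage ha h0 hδ (by rw [hzρ]; exact hρδ) (hz0 θ) hc0 hc1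
    exact ⟨z, by rwa [hzρ] at h1, h2⟩
  have hne : ∀ θ θ' (c : ℝ), 0 ≤ c → c < 1 → f (circleMap 0 ρ θ') ≠ c * f (circleMap 0 ρ θ) := by
    intro θ θ' c hc0 hc1 h
    obtain ⟨z, h1, h2⟩ := hpre θ c hc0 hc1
    have := hinj (by simp; linarith : z ∈ ball (0 : ℂ) 1) (hz1 θ') (h2.trans h.symm)
    rw [this, hzρ] at h1
    exact lt_irrefl _ h1
  have hΨi : InjOn Ψ D := by
    rintro u ⟨hu1, hu2⟩ v ⟨hv1, hv2⟩ h
    simp only [hΨ, hγdef] at h
    have hFu := hfne _ (hz1 u.im) (hz0 u.im)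
    have hFv := hfne _ (hz1 v.im) (hz0 v.im)
    have h' : f (circleMap 0 ρ v.im) = ((v.re / u.re : ℝ) : ℂ) * f (circleMap 0 ρ u.im) := by
      have : (u.re : ℂ) ≠ 0 := Complex.ofReal_ne_zero.2 hu1.1.ne'
      push_cast
      field_simp at h ⊢
      linear_combination h
    have hc : v.re = u.re := by
      rcases lt_trichotomy (v.re / u.re) 1 with hc | hc | hc
      · exact absurd h' (hne _ _ _ (div_pos hv1.1 hu1.1).le hc)
      · rwa [div_eq_one_iff_eq hu1.1.ne'] at hc
      · refine absurd (?_ : f (circleMap 0 ρ u.im) = ((u.re / v.re : ℝ) : ℂ) * _)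
          (hne v.im u.im _ (div_pos hu1.1 hv1.1).le ?_)
        · have : (u.re : ℂ) ≠ 0 := Complex.ofReal_ne_zero.2 hu1.1.ne'
          have : (v.re : ℂ) ≠ 0 := Complex.ofReal_ne_zero.2 hv1.1.ne'
          rw [h']; push_cast; field_simp
        · rw [div_lt_one hv1.1]; rw [one_lt_div hu1.1] at hc; exact hc
    rw [hc, div_self hu1.1.ne', Complex.ofReal_one, one_mul] at h'
    have := eq_of_circleMap_eq hρ.ne' (by
      rw [abs_lt]; constructor <;> linarith [hu2.1, hu2.2, hv2.1, hv2.2])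
      (hinj (hz1 v.im) (hz1 u.im) h')
    exact Complex.ext hc.symm this.symm
  have hΨd : ∀ u ∈ D, HasFDerivWithinAt Ψ (ellipseMap ((γ u.im - Complex.I * (u.re * γ' u.im)) / 2)
      ((γ u.im + Complex.I * (u.re * γ' u.im)) / 2)) D u := by
    intro u _
    have h1 : HasFDerivAt (fun v : ℂ => (v.re : ℂ)) (Complex.ofRealCLM.comp Complex.reCLM) u :=
      (Complex.ofRealCLM.comp Complex.reCLM).hasFDerivAt
    have h2 : HasFDerivAt (fun v : ℂ => γ v.im) _ u :=
      (hγ u.im).hasFDerivAt.comp u Complex.imCLM.hasFDerivAt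
    refine ((h1.mul h2).congr_fderiv ?_).hasFDerivWithinAt
    ext x
    rw [ellipseMap_apply]
    conv_rhs => rw [← Complex.re_add_im x]
    simp only [add_apply, smul_apply, ContinuousLinearMap.coe_comp, Function.comp_apply,
      Complex.ofRealCLM_apply, Complex.reCLM_apply, Complex.imCLM_apply,
      ContinuousLinearMap.toSpanSingleton_apply, smul_eq_mul, Complex.real_smul, map_add, map_mul,
      Complex.conj_ofReal, Complex.conj_I]
    linear_combination (u.re : ℂ) * γ' u.im * (x.im : ℂ) * Complex.I_mul_I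
  have hdet : ∀ u : ℂ, ‖(γ u.im - Complex.I * (u.re * γ' u.im)) / 2‖ ^ 2
      - ‖(γ u.im + Complex.I * (u.re * γ' u.im)) / 2‖ ^ 2 = -(u.re * -(conj (γ u.im) * γ' u.im).im) := by
    intro u
    simp only [Complex.sq_norm, Complex.normSq_apply, Complex.div_ofNat_re, Complex.div_ofNat_im,
      Complex.sub_re, Complex.sub_im, Complex.add_re, Complex.add_im, Complex.mul_re, Complex.mul_im,
      Complex.I_re, Complex.I_im, Complex.ofReal_re, Complex.ofReal_im, Complex.conj_re,
      Complex.conj_im]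
    ring
  have hd2 : ∀ z ∈ S, HasFDerivWithinAt (fun z => (f z)⁻¹) (ellipseMap (-deriv f z / f z ^ 2) 0) S z := by
    intro z hz
    obtain ⟨h1, h2⟩ := hz
    simp at h1 h2
    have hb : z ∈ ball (0 : ℂ) 1 := by simp; linarith
    have := ((hfd z hb).fun_inv (hfne z hb fun h => by simp [h] at h2; linarith)).complexToReal_fderiv
    refine (this.congr_fderiv ?_).hasFDerivWithinAt
    ext u
    simp [ellipseMap_apply]
  have hsubS : S ⊆ ball 0 1 := sdiff_subset.trans (ball_subset_ball hr.le)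
  have hgi : InjOn (fun z => (f z)⁻¹) S := fun z hz w hw h =>
    hinj (hsubS hz) (hsubS hw) (inv_inj.1 h)
  -- covering
  have hcov : (fun z => (f z)⁻¹) '' S ⊆ Ψ '' D := by
    rintro _ ⟨z, hz, rfl⟩
    obtain ⟨h1, h2⟩ := hz
    simp at h1 h2
    have hb : z ∈ ball (0 : ℂ) 1 := by simp; linarith
    have hFz : f z ≠ 0 := hfne z hb fun h => by simp [h] at h2; linarith
    set φ : ℝ → ℝ := fun θ => θ + Complex.arg (f (circleMap 0 ρ θ) / (deriv f 0 * circleMap 0 ρ θ))
      with hφ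
    have hsl : ∀ θ, f (circleMap 0 ρ θ) / (deriv f 0 * circleMap 0 ρ θ) ∈ Complex.slitPlane := by
      intro θ
      refine Complex.mem_slitPlane_iff.2 (Or.inl ?_)
      have h := (Complex.abs_re_le_norm _).trans (hratio θ)
      rw [Complex.sub_re, Complex.one_re, abs_le] at h
      linarith [h.1]
    have hφc : Continuous φ := by
      refine continuous_id.add (continuous_iff_continuousAt.2 fun θ => ?_)
      refine ContinuousAt.comp (g := Complex.arg) (f := fun θ => f (circleMap 0 ρ θ) / (deriv f 0 * circleMap 0 ρ θ)) (Complex.continuousAt_arg (hsl θ)) ?_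
      exact (((hf.continuousOn.comp_continuous (continuous_circleMap 0 ρ) hz1).div
        (continuous_const.mul (continuous_circleMap 0 ρ))
        fun θ => mul_ne_zero ha (hz0 θ))).continuousAt
    set β := Complex.arg (f z / deriv f 0) with hβ
    obtain ⟨θ₀, -, hθ₀⟩ := intermediate_value_Icc (show β - π ≤ β + π by linarith [Real.pi_pos])
      hφc.continuousOn (show β ∈ Icc (φ (β - π)) (φ (β + π)) by
        constructor <;> simp only [hφ]
        · linarith [Complex.arg_le_pi (f (circleMap 0 ρ (β - π)) / (deriv f 0 * circleMap 0 ρ (β - π)))]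
        · linarith [Complex.neg_pi_lt_arg (f (circleMap 0 ρ (β + π)) / (deriv f 0 * circleMap 0 ρ (β + π)))])
    set s := f (circleMap 0 ρ θ₀) / (deriv f 0 * circleMap 0 ρ θ₀) with hs
    set c : ℝ := ‖f z / deriv f 0‖ / (ρ * ‖s‖) with hc
    have hs0 : 0 < ‖s‖ := norm_pos_iff.2 (div_ne_zero (hfne _ (hz1 θ₀) (hz0 θ₀)) (mul_ne_zero ha (hz0 θ₀)))
    have hc0 : 0 < c := div_pos (norm_pos_iff.2 (div_ne_zero hFz ha)) (mul_pos hρ hs0)
    have hfc : f z = c * f (circleMap 0 ρ θ₀) := by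
      have e1 : f (circleMap 0 ρ θ₀) = deriv f 0 * circleMap 0 ρ θ₀ * s := by
        rw [hs]; field_simp [hz0 θ₀]
      have e2 : circleMap 0 ρ θ₀ * s = ((ρ * ‖s‖ : ℝ) : ℂ) * Complex.exp (β * Complex.I) := by
        have h5 := Complex.norm_mul_exp_arg_mul_I s
        have h6 : β = θ₀ + Complex.arg s := hθ₀.symm
        calc circleMap 0 ρ θ₀ * s
            = circleMap 0 ρ θ₀ * ((‖s‖ : ℂ) * Complex.exp (Complex.arg s * Complex.I)) := by rw [h5]
          _ = _ := by
            rw [h6, circleMap_zero]; push_cast; rw [add_mul, Complex.exp_add]; ring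
      rw [e1, mul_assoc (deriv f 0), e2, hc]
      have h7 := Complex.norm_mul_exp_arg_mul_I (f z / deriv f 0)
      rw [← hβ] at h7
      push_cast
      have : (ρ : ℂ) ≠ 0 := Complex.ofReal_ne_zero.2 hρ.ne'
      have : (‖s‖ : ℂ) ≠ 0 := Complex.ofReal_ne_zero.2 hs0.ne'
      field_simp at h7 ⊢
      linear_combination -h7
    set θ := toIocMod Real.two_pi_pos (-π) θ₀ with hθ
    have hθm : θ ∈ Ioc (-π) π := by
      have := toIocMod_mem_Ioc Real.two_pi_pos (-π) θ₀
      rwa [show -π + 2 * π = π by ring] at this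
    have hθe : circleMap 0 ρ θ = circleMap 0 ρ θ₀ := by
      rw [hθ, toIocMod, (periodic_circleMap 0 ρ).sub_zsmul_eq]
    rw [← hθe] at hfc
    have hc1 : 1 < c := by
      rcases lt_trichotomy c 1 with h | h | h
      · obtain ⟨y, hy1, hy2⟩ := hpre θ c hc0.le h
        have := hinj (by simp; linarith : y ∈ ball (0 : ℂ) 1) hb (hy2.trans hfc.symm)
        rw [this] at hy1; linarith
      · rw [h, Complex.ofReal_one, one_mul] at hfc
        have := hinj hb (hz1 θ) hfc
        rw [this, hzρ] at h2; linarith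
      · exact h
    refine ⟨⟨c⁻¹, θ⟩, ⟨⟨inv_pos.2 hc0, inv_lt_one_of_one_lt₀ hc1⟩, hθm⟩, ?_⟩
    simp only [hΨ, hγdef]
    rw [hfc, mul_inv]
    push_cast
    ring
  have e1 := lintegral_image_eq_lintegral_abs_det_fderiv_mul volume hS hd2 hgi
    fun w => ENNReal.ofReal (‖poly' q w‖ ^ 2)
  have e2 := lintegral_image_eq_lintegral_abs_det_fderiv_mul volume hDm hΨd hΨi
    fun w => ENNReal.ofReal (‖poly' q w‖ ^ 2)
  have hle : ∫⁻ w in (fun z => (f z)⁻¹) '' S, ENNReal.ofReal (‖poly' q w‖ ^ 2)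
      ≤ ∫⁻ w in Ψ '' D, ENNReal.ofReal (‖poly' q w‖ ^ 2) := lintegral_mono_set hcov
  rw [e1, e2] at hle
  have el : ∫⁻ z in S, ENNReal.ofReal (‖poly' q (f z)⁻¹ * (-deriv f z / f z ^ 2)‖ ^ 2)
      = ∫⁻ z in S, ENNReal.ofReal |(ellipseMap (-deriv f z / f z ^ 2) 0).det|
          * ENNReal.ofReal (‖poly' q (f z)⁻¹‖ ^ 2) := by
    refine lintegral_congr fun z => ?_
    rw [ellipseMap_det, ← ENNReal.ofReal_mul (abs_nonneg _), norm_mul, norm_zero,
      show (0 : ℝ) ^ 2 = 0 by norm_num, sub_zero, abs_of_nonneg (sq_nonneg _), mul_pow, mul_comm]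
  rw [el]
  refine hle.trans ?_
  -- evaluate on the rectangle
  set E : ℂ → ℝ := fun u => u.re * -(conj (γ u.im) * γ' u.im).im * ‖poly' q (u.re * γ u.im)‖ ^ 2
    with hE
  have e3 : ∀ u ∈ D, ENNReal.ofReal |(ellipseMap ((γ u.im - Complex.I * (u.re * γ' u.im)) / 2)
      ((γ u.im + Complex.I * (u.re * γ' u.im)) / 2)).det| * ENNReal.ofReal (‖poly' q (Ψ u)‖ ^ 2)
      = ENNReal.ofReal (E u) := by
    rintro u ⟨hu1, -⟩
    rw [ellipseMap_det, hdet, abs_neg, abs_of_nonneg (mul_nonneg hu1.1.le (hw _)),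
      ← ENNReal.ofReal_mul (mul_nonneg hu1.1.le (hw _))]
  rw [setLIntegral_congr_fun hDm e3]
  have hEc : Continuous E := by simp only [hE]; unfold poly'; fun_prop
  have hDsub : D ⊆ Complex.measurableEquivRealProd.symm '' (Icc (0 : ℝ) 1 ×ˢ Icc (-π) π) :=
    fun u hu => ⟨(u.re, u.im), ⟨Ioo_subset_Icc_self hu.1, Ioc_subset_Icc_self hu.2⟩, rfl⟩
  have hKc : IsCompact (Complex.equivRealProdCLM.symm '' (Icc (0 : ℝ) 1 ×ˢ Icc (-π) π)) :=
    (isCompact_Icc.prod isCompact_Icc).image Complex.equivRealProdCLM.symm.continuous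
  have hEi : IntegrableOn E D :=
    (hEc.continuousOn.integrableOn_compact hKc).mono_set fun u hu =>
      ⟨(u.re, u.im), ⟨Ioo_subset_Icc_self hu.1, Ioc_subset_Icc_self hu.2⟩, by
        apply Complex.equivRealProdCLM.injective; simp [Complex.equivRealProdCLM]; rfl⟩
  rw [← ofReal_integral_eq_lintegral_ofReal hEi
    ((ae_restrict_iff' hDm).2 (ae_of_all _ fun u hu => mul_nonneg
      (mul_nonneg hu.1.1.le (hw _)) (sq_nonneg _)))]
  refine le_of_eq (congrArg _ ?_)
  have hDe : D = Complex.measurableEquivRealProd ⁻¹' (Ioo (0 : ℝ) 1 ×ˢ Ioc (-π) π) := rfl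
  have := Complex.volume_preserving_equiv_real_prod.setIntegral_preimage_emb
    Complex.measurableEquivRealProd.measurableEmbedding
    (fun p : ℝ × ℝ => p.1 * -(conj (γ p.2) * γ' p.2).im * ‖poly' q (p.1 * γ p.2)‖ ^ 2)
    (Ioo (0 : ℝ) 1 ×ˢ Ioc (-π) π)
  simp only [Complex.measurableEquivRealProd_apply] at this
  rw [hDe]
  simp only [hE]
  rw [this, Measure.volume_eq_prod]
  have hFi : IntegrableOn (fun p : ℝ × ℝ => p.1 * -(conj (γ p.2) * γ' p.2).im
      * ‖poly' q (p.1 * γ p.2)‖ ^ 2) (Ioo (0 : ℝ) 1 ×ˢ Ioc (-π) π) (volume.prod volume) :=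
    ((Continuous.continuousOn (by unfold poly'; fun_prop)).integrableOn_compact
      (isCompact_Icc.prod isCompact_Icc)).mono_set (prod_mono Ioo_subset_Icc_self Ioc_subset_Icc_self)
  rw [← Measure.prod_restrict, integral_prod_symm _ (by rwa [Measure.prod_restrict]),
    ← intervalIntegral.integral_of_le (by linarith [Real.pi_pos] : -π ≤ π)]
  simp only [← integral_Ioc_eq_integral_Ioo, ← intervalIntegral.integral_of_le zero_le_one]
  exact star_stokes q hγ hγ'c hper

/-- The generalized area theorem. -/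
theorem generalized_area (hf : DifferentiableOn ℂ f (ball 0 1)) (hinj : InjOn f (ball 0 1))
    (h0 : f 0 = 0) (ha : deriv f 0 ≠ 0) {m : ℕ} (q L : Fin m → ℂ) {R : ℂ → ℂ}
    (hR : DifferentiableOn ℂ R (ball 0 1))
    (heq : ∀ z ∈ ball (0 : ℂ) 1, z ≠ 0 → poly q (f z)⁻¹ = prin L 1 z + R z) (N : ℕ) :
    ∑ n ∈ Finset.range N, ‖coef (deriv R) n‖ ^ 2 / ((n : ℝ) + 1)
      ≤ ∑ k : Fin m, ((k : ℕ) + 1 : ℝ) * ‖L k‖ ^ 2 := by
  obtain ⟨δ, hδ0, hδ1, hup⟩ := area_upper hf hinj h0 ha q
  have hk : DifferentiableOn ℂ (deriv R) (ball 0 1) := hR.deriv isOpen_ball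
  have hfne : ∀ z ∈ ball (0 : ℂ) 1, z ≠ 0 → f z ≠ 0 := fun z hz hz0 h =>
    hz0 (hinj hz (mem_ball_self one_pos) (h.trans h0.symm))
  set c : Fin m → ℂ := fun i => ((i : ℕ) + 1 : ℂ) * L i with hc
  have hder : ∀ z ∈ ball (0 : ℂ) 1, z ≠ 0 →
      poly' q (f z)⁻¹ * (-deriv f z / f z ^ 2) = -prin c 2 z + deriv R z := by
    intro z hz hz0
    have hn : ball (0 : ℂ) 1 \ {0} ∈ 𝓝 z :=
      (isOpen_ball.sdiff isClosed_singleton).mem_nhds ⟨hz, hz0⟩
    have h1 : HasDerivAt (fun y => poly q (f y)⁻¹) (poly' q (f z)⁻¹ * (-deriv f z / f z ^ 2)) z :=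
      (hasDerivAt_poly q _).comp z
        (((hf.differentiableAt (isOpen_ball.mem_nhds hz)).hasDerivAt).fun_inv (hfne z hz hz0))
    have h2 : HasDerivAt (fun y => prin L 1 y + R y) (-prin c 2 z + deriv R z) z :=
      (hasDerivAt_prin L hz0).add (hR.differentiableAt (isOpen_ball.mem_nhds hz)).hasDerivAt
    exact h1.unique (h2.congr_of_eventuallyEq (by
      filter_upwards [hn] with y hy
      exact heq y hy.1 (by simpa using hy.2)))
  have hcpt : IsCompact (closedBall (0 : ℂ) δ) := isCompact_closedBall _ _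
  have hbsub : closedBall (0 : ℂ) δ ⊆ ball 0 1 := closedBall_subset_ball hδ1
  obtain ⟨M, hM⟩ := hcpt.exists_bound_of_continuousOn
    ((hR.continuousOn.norm.mul hk.continuousOn.norm).mono hbsub)
  set A : ℕ → ℝ := fun n => ‖coef (deriv R) n‖ ^ 2 / ((n : ℝ) + 1) with hA
  have key : ∀ ρ r : ℝ, 0 < ρ → ρ ≤ δ → ρ < r → r < 1 →
      ∑ n ∈ Finset.range N, A n * (r ^ (2 * (n + 1)) - ρ ^ (2 * (n + 1))) ≤
        ∑ k : Fin m, ((k : ℕ) + 1 : ℝ) * ‖L k‖ ^ 2 / r ^ (2 * ((k : ℕ) + 1)) + ρ * M := by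
    intro ρ r hρ hρδ hρr hr
    have hlow := annulus_lower L hk N hρ hρr hr
    have hupp := hup ρ hρ hρδ r hr
    have hS : ∫⁻ z in ball 0 r \ closedBall 0 ρ,
          ENNReal.ofReal (‖-prin c 2 z + deriv R z‖ ^ 2)
        = ∫⁻ z in ball 0 r \ closedBall 0 ρ,
          ENNReal.ofReal (‖poly' q (f z)⁻¹ * (-deriv f z / f z ^ 2)‖ ^ 2) := by
      refine setLIntegral_congr_fun (measurableSet_ball.diff measurableSet_closedBall) fun z hz => ?_
      obtain ⟨h1, h2⟩ := hz
      simp at h1 h2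
      rw [hder z (by simp; linarith) fun h => by simp [h] at h2; linarith]
    rw [← hS] at hupp
    have hle := (hlow.trans hupp)
    -- the boundary integral
    have hρ1 : ρ < 1 := hρr.trans hr
    have hsph : sphere (0 : ℂ) |ρ| ⊆ ball 0 1 := by
      rw [abs_of_pos hρ]; exact sphere_subset_closedBall.trans (closedBall_subset_ball hρ1)
    set F : ℂ → ℂ := fun z => conj (prin L 1 z + R z) * ((-prin c 2 z + deriv R z) * z) with hF
    have hI : (Complex.I / 2) * (∫ θ in (-π)..π,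
        conj (poly q (f (circleMap 0 ρ θ))⁻¹) * (poly' q (f (circleMap 0 ρ θ))⁻¹ *
          (-deriv f (circleMap 0 ρ θ) / f (circleMap 0 ρ θ) ^ 2 * (circleMap 0 ρ θ * Complex.I))))
        = -(π : ℂ) * Real.circleAverage F 0 ρ := by
      have hp : Function.Periodic (fun θ => F (circleMap 0 ρ θ) * Complex.I) (2 * π) := fun θ => by
        simp only [periodic_circleMap 0 ρ θ]
      have h := hp.intervalIntegral_add_eq (-π) 0
      rw [show -π + 2 * π = π by ring, zero_add] at h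
      rw [intervalIntegral.integral_congr (g := fun θ => F (circleMap 0 ρ θ) * Complex.I)
        fun θ _ => ?_, h, intervalIntegral.integral_mul_const, Real.circleAverage_def,
        Complex.real_smul]
      · push_cast
        have : (π : ℂ) ≠ 0 := Complex.ofReal_ne_zero.2 Real.pi_ne_zero
        field_simp
        rw [Complex.I_sq]
        ring
      · have hz : circleMap 0 ρ θ ∈ ball (0 : ℂ) 1 := by simp [abs_of_pos hρ]; linarith
        have hz0 : circleMap 0 ρ θ ≠ 0 := circleMap_ne_center hρ.ne'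
        have hh := hder _ hz hz0
        simp only [hF]
        rw [heq _ hz hz0]
        linear_combination (conj (prin L 1 (circleMap 0 ρ θ) + R (circleMap 0 ρ θ))
          * (circleMap 0 ρ θ * Complex.I)) * hh
    have hP := (continuousOn_prin L 1).mono (sphere_subset_compl hρ)
    have hQ : ContinuousOn (prin c 1) (sphere (0 : ℂ) |ρ|) :=
      (continuousOn_prin c 1).mono (sphere_subset_compl hρ)
    have hRc := hR.continuousOn.mono hsph
    have hkc := hk.continuousOn.mono hsph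
    have hmul : ∀ z ∈ sphere (0 : ℂ) |ρ|, prin c 2 z * z = prin c 1 z := by
      intro z hz
      have : z ≠ 0 := sphere_subset_compl hρ hz
      simp only [prin, Finset.sum_mul]
      refine Finset.sum_congr rfl fun k _ => ?_
      rw [show (k : ℕ) + 2 = (k : ℕ) + 1 + 1 by ring, pow_succ]
      field_simp
    have i1 : CircleIntegrable (fun z => -(conj (prin L 1 z) * prin c 1 z)) 0 ρ :=
      ((Complex.continuous_conj.comp_continuousOn hP).mul hQ).neg.circleIntegrable'
    have i2 : CircleIntegrable (fun z => conj (prin L 1 z) * (deriv R z * z)) 0 ρ :=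
      ((Complex.continuous_conj.comp_continuousOn hP).mul (hkc.mul continuousOn_id)).circleIntegrable'
    have i3 : CircleIntegrable (fun z => -(conj (R z) * prin c 1 z)) 0 ρ :=
      ((Complex.continuous_conj.comp_continuousOn hRc).mul hQ).neg.circleIntegrable'
    have i4 : CircleIntegrable (fun z => conj (R z) * (deriv R z * z)) 0 ρ :=
      ((Complex.continuous_conj.comp_continuousOn hRc).mul (hkc.mul continuousOn_id)).circleIntegrable'
    have hav : Real.circleAverage F 0 ρ = -(∑ k : Fin m, conj (L k) * c k / (ρ : ℂ) ^ (2 * ((k : ℕ) + 1)))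
        + Real.circleAverage (fun z => conj (R z) * (deriv R z * z)) 0 ρ := by
      rw [Real.circleAverage_congr_sphere (f₂ := fun z => (-(conj (prin L 1 z) * prin c 1 z)
        + conj (prin L 1 z) * (deriv R z * z)) + (-(conj (R z) * prin c 1 z)
        + conj (R z) * (deriv R z * z))) fun z hz => by
          simp only [hF, map_add, ← hmul z hz]; ring]
      have i12 : CircleIntegrable (fun z => -(conj (prin L 1 z) * prin c 1 z)
          + conj (prin L 1 z) * (deriv R z * z)) 0 ρ := i1.add i2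
      have i34 : CircleIntegrable (fun z => -(conj (R z) * prin c 1 z)
          + conj (R z) * (deriv R z * z)) 0 ρ := i3.add i4
      rw [Real.circleAverage_fun_add i12 i34, Real.circleAverage_fun_add i1 i2,
        Real.circleAverage_fun_add i3 i4, avg_prin_holo L one_ne_zero hρ hρ1
          (H := fun z => deriv R z * z) (hk.mul differentiableOn_id)]
      have h1 : Real.circleAverage (fun z => -(conj (prin L 1 z) * prin c 1 z)) 0 ρ
          = -(∑ k : Fin m, conj (L k) * c k / (ρ : ℂ) ^ (2 * ((k : ℕ) + 1))) := by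
        rw [show (fun z => -(conj (prin L 1 z) * prin c 1 z))
            = fun z => (-1 : ℂ) • (conj (prin L 1 z) * prin c 1 z) from
          funext fun z => (neg_one_smul ℂ _).symm,
          Real.circleAverage_fun_smul, avg_prin L c 1 hρ, neg_one_smul]
      have h3 : Real.circleAverage (fun z => -(conj (R z) * prin c 1 z)) 0 ρ = 0 := by
        have e : (fun z => -(conj (R z) * prin c 1 z))
            = fun z => (-1 : ℂ) • conj (conj (prin c 1 z) * R z) := by
          funext z; rw [map_mul, Complex.conj_conj, smul_eq_mul]; ring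
        have iq : CircleIntegrable (fun z => conj (prin c 1 z) * R z) 0 ρ :=
          ((Complex.continuous_conj.comp_continuousOn hQ).mul hRc).circleIntegrable'
        rw [e, Real.circleAverage_fun_smul, avg_conj iq, avg_prin_holo c one_ne_zero hρ hρ1 hR]
        simp
      rw [h1, h3]; ring
    have hb : ‖Real.circleAverage (fun z => conj (R z) * (deriv R z * z)) 0 ρ‖ ≤ ρ * M := by
      rw [Real.circleAverage_def, norm_smul, Real.norm_eq_abs, abs_inv, abs_of_pos Real.two_pi_pos,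
        inv_mul_le_iff₀ Real.two_pi_pos]
      refine (intervalIntegral.norm_integral_le_of_norm_le_const (C := ρ * M) fun θ _ => ?_).trans_eq
        (by rw [sub_zero, abs_of_pos Real.two_pi_pos]; ring)
      have hz : circleMap 0 ρ θ ∈ closedBall (0 : ℂ) δ := by simp [abs_of_pos hρ, hρδ]
      have := hM _ hz
      simp only [Real.norm_eq_abs, Pi.mul_apply, abs_mul, abs_norm] at this
      rw [norm_mul, norm_mul, RCLike.norm_conj, norm_circleMap_zero, abs_of_pos hρ]
      calc ‖R (circleMap 0 ρ θ)‖ * (‖deriv R (circleMap 0 ρ θ)‖ * ρ)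
          = ‖R (circleMap 0 ρ θ)‖ * ‖deriv R (circleMap 0 ρ θ)‖ * ρ := by ring
        _ ≤ M * ρ := mul_le_mul_of_nonneg_right this hρ.le
        _ = ρ * M := by ring
    rw [hI, hav] at hle
    set T := Real.circleAverage (fun z => conj (R z) * (deriv R z * z)) 0 ρ
    have hsum : (∑ k : Fin m, conj (L k) * c k / (ρ : ℂ) ^ (2 * ((k : ℕ) + 1)))
        = ((∑ k : Fin m, ((k : ℕ) + 1 : ℝ) * ‖L k‖ ^ 2 / ρ ^ (2 * ((k : ℕ) + 1)) : ℝ) : ℂ) := by
      push_cast
      refine Finset.sum_congr rfl fun k _ => ?_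
      rw [hc, ← Complex.conj_mul' (L k)]
      ring
    set S0 := ∑ k : Fin m, ((k : ℕ) + 1 : ℝ) * ‖L k‖ ^ 2 / ρ ^ (2 * ((k : ℕ) + 1)) with hS0
    rw [hsum, neg_mul, ← mul_neg, neg_add, neg_neg, Complex.re_ofReal_mul, Complex.add_re,
      Complex.ofReal_re, Complex.neg_re, ENNReal.ofReal_le_ofReal_iff'] at hle
    have hT : -T.re ≤ ρ * M := (neg_le_abs T.re).trans ((Complex.abs_re_le_norm T).trans hb)
    have hM0 : 0 ≤ ρ * M := (norm_nonneg _).trans hb
    rcases hle with h | h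
    · have h' := le_of_mul_le_mul_left h Real.pi_pos
      simp only [mul_sub, mul_one_div, Finset.sum_sub_distrib, hA] at h' ⊢
      rw [← hS0] at h'
      linarith
    · have h' : ∑ i : Fin m, ((i : ℕ) + 1 : ℝ) * ‖L i‖ ^ 2
          * (1 / ρ ^ (2 * ((i : ℕ) + 1)) - 1 / r ^ (2 * ((i : ℕ) + 1)))
          + ∑ n ∈ Finset.range N, A n * (r ^ (2 * (n + 1)) - ρ ^ (2 * (n + 1))) ≤ 0 :=
        nonpos_of_mul_nonpos_right h Real.pi_pos
      have h'' : 0 ≤ ∑ k : Fin m, ((k : ℕ) + 1 : ℝ) * ‖L k‖ ^ 2 / ρ ^ (2 * ((k : ℕ) + 1)) :=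
        Finset.sum_nonneg fun k _ => by positivity
      simp only [mul_sub, mul_one_div, Finset.sum_sub_distrib] at h' ⊢
      linarith
  -- let `ρ → 0`, then `r → 1`
  have step : ∀ r : ℝ, 0 < r → r < 1 → ∑ n ∈ Finset.range N, A n * r ^ (2 * (n + 1)) ≤
      ∑ k : Fin m, ((k : ℕ) + 1 : ℝ) * ‖L k‖ ^ 2 / r ^ (2 * ((k : ℕ) + 1)) := by
    intro r hr0 hr1
    have t1 : Tendsto (fun ρ : ℝ => ∑ n ∈ Finset.range N, A n * (r ^ (2 * (n + 1)) - ρ ^ (2 * (n + 1))))
        (𝓝[>] 0) (𝓝 (∑ n ∈ Finset.range N, A n * r ^ (2 * (n + 1)))) := by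
      have := ((by fun_prop : Continuous fun ρ : ℝ => ∑ n ∈ Finset.range N,
        A n * (r ^ (2 * (n + 1)) - ρ ^ (2 * (n + 1)))).tendsto 0).mono_left
        (nhdsWithin_le_nhds (s := Ioi 0))
      simpa using this
    have t2 : Tendsto (fun ρ : ℝ =>
        ∑ k : Fin m, ((k : ℕ) + 1 : ℝ) * ‖L k‖ ^ 2 / r ^ (2 * ((k : ℕ) + 1)) + ρ * M)
        (𝓝[>] 0) (𝓝 (∑ k : Fin m, ((k : ℕ) + 1 : ℝ) * ‖L k‖ ^ 2 / r ^ (2 * ((k : ℕ) + 1)))) := by
      have := ((by fun_prop : Continuous fun ρ : ℝ => ∑ k : Fin m, ((k : ℕ) + 1 : ℝ) * ‖L k‖ ^ 2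
        / r ^ (2 * ((k : ℕ) + 1)) + ρ * M).tendsto 0).mono_left (nhdsWithin_le_nhds (s := Ioi 0))
      simpa using this
    refine le_of_tendsto_of_tendsto t1 t2 ?_
    filter_upwards [Ioo_mem_nhdsGT (lt_min hδ0 hr0)] with ρ hρ
    exact key ρ r hρ.1 (hρ.2.le.trans (min_le_left _ _)) (hρ.2.trans_le (min_le_right _ _)) hr1
  have u1 : Tendsto (fun r : ℝ => ∑ n ∈ Finset.range N, A n * r ^ (2 * (n + 1))) (𝓝[<] 1)
      (𝓝 (∑ n ∈ Finset.range N, A n)) := by
    have := ((by fun_prop : Continuous fun r : ℝ => ∑ n ∈ Finset.range N,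
      A n * r ^ (2 * (n + 1))).tendsto 1).mono_left (nhdsWithin_le_nhds (s := Iio 1))
    simpa using this
  have u2 : Tendsto (fun r : ℝ => ∑ k : Fin m, ((k : ℕ) + 1 : ℝ) * ‖L k‖ ^ 2 / r ^ (2 * ((k : ℕ) + 1)))
      (𝓝[<] 1) (𝓝 (∑ k : Fin m, ((k : ℕ) + 1 : ℝ) * ‖L k‖ ^ 2)) := by
    refine tendsto_finsetSum _ fun k _ => ?_
    have := (tendsto_const_nhds (x := ((k : ℕ) + 1 : ℝ) * ‖L k‖ ^ 2)).div
      ((tendsto_id.pow (2 * ((k : ℕ) + 1))).mono_left (nhdsWithin_le_nhds (s := Iio (1 : ℝ))))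
      (show (id 1 : ℝ) ^ (2 * ((k : ℕ) + 1)) ≠ 0 by simp)
    simp only [id, one_pow, div_one] at this ⊢
    exact this
  refine le_of_tendsto_of_tendsto u1 u2 ?_
  filter_upwards [Ioo_mem_nhdsLT (zero_lt_one' ℝ)] with r hr
  exact step r hr.1 hr.2

end Vale.Agent.P142.Grunsky

namespace Vale.Agent.P142.Grunsky

/-- `coef` is the Taylor coefficient. -/
lemma coef_eq {H : ℂ → ℂ} (hH : DifferentiableOn ℂ H (ball 0 1)) (n : ℕ) :
    coef H n = iteratedDeriv n H 0 / n.factorial := by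
  obtain ⟨p, hp⟩ := hH.analyticAt (ball_mem_nhds (0 : ℂ) one_pos)
  have h1 : coef H n = p.coeff n := by
    rw [coef, ← (HasFPowerSeriesAt.has_fpower_series_iterate_dslope_fslope n hp).coeff_zero 1,
      ← FormalMultilinearSeries.coeff, FormalMultilinearSeries.coeff_iterate_fslope, zero_add]
  have h2 : HasFPowerSeriesAt H (FormalMultilinearSeries.ofScalars ℂ
      fun n => iteratedDeriv n H 0 / n.factorial) 0 := by
    have := hH.analyticAt (ball_mem_nhds (0 : ℂ) one_pos) |>.hasFPowerSeriesAt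
    simpa [div_eq_mul_inv, mul_comm, smul_eq_mul] using this
  rw [h1, hp.eq_formalMultilinearSeries h2, FormalMultilinearSeries.coeff_ofScalars]

end Vale.Agent.P142.Grunsky
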