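import Mathlib
import Vale.Agent.P142.Distortion

/-!
The integral-means layer: normalised jets of a univalent map along circles, their derivative rules,
and the passage from a differential inequality to a bound on the integral-means exponent at `-2`.
-/

noncomputable section

open Set Filter MeasureTheory Metric
open scoped Topology Real ComplexConjugate

namespace Vale.Agent.P142.Means

variable {f : ℂ → ℂ}

/-- The normalised jet `ρ ^ (j - 1) ζ ^ (j - 1) f⁽ʲ⁾ / (j! f')` at `z = r ζ`, `ρ = 1 - r ^ 2`. -/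
def jet (f : ℂ → ℂ) (j : ℕ) (r θ : ℝ) : ℂ :=
  ((1 - r ^ 2 : ℝ) : ℂ) ^ (j - 1) * Complex.exp (θ * Complex.I) ^ (j - 1)
    * iteratedDeriv j f (circleMap 0 r θ) / (j.factorial * deriv f (circleMap 0 r θ))

/-- `|1 / f'| ^ 2`. -/
def wt (f : ℂ → ℂ) (r θ : ℝ) : ℝ := ‖(deriv f (circleMap 0 r θ))⁻¹‖ ^ 2

lemma mem_disc {r : ℝ} (hr : r ∈ Ico (0 : ℝ) 1) (θ : ℝ) : circleMap 0 r θ ∈ ball (0 : ℂ) 1 := by
  simp [abs_of_nonneg hr.1, hr.2]

lemma hasDerivAt_iteratedDeriv (hf : DifferentiableOn ℂ f (ball 0 1)) (j : ℕ) {z : ℂ}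
    (hz : z ∈ ball (0 : ℂ) 1) :
    HasDerivAt (iteratedDeriv j f) (iteratedDeriv (j + 1) f z) z := by
  have h := ((hf.analyticOnNhd isOpen_ball) z hz).iterated_deriv j
  rw [← iteratedDeriv_eq_iterate] at h
  rw [iteratedDeriv_succ]
  exact h.differentiableAt.hasDerivAt

lemma jet_one (hd : ∀ z ∈ ball (0 : ℂ) 1, deriv f z ≠ 0) {r : ℝ} (hr : r ∈ Ico (0 : ℝ) 1) (θ : ℝ) :
    jet f 1 r θ = 1 := by
  simp [jet, hd _ (mem_disc hr θ)]

lemma hasDerivAt_ray (r θ : ℝ) :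
    HasDerivAt (fun s : ℝ => circleMap 0 s θ) (Complex.exp (θ * Complex.I)) r := by
  simp only [circleMap, zero_add]
  simpa using ((hasDerivAt_id r).ofReal_comp).mul_const (Complex.exp (θ * Complex.I))

/-- Radial rule for the jets. -/
lemma jet_radial (hf : DifferentiableOn ℂ f (ball 0 1)) (hd : ∀ z ∈ ball (0 : ℂ) 1, deriv f z ≠ 0)
    {j : ℕ} (hj : 1 ≤ j) {r : ℝ} (hr : r ∈ Ico (0 : ℝ) 1) (θ : ℝ) :
    HasDerivAt (fun s => jet f j s θ)
      ((((j : ℂ) + 1) * jet f (j + 1) r θ - 2 * jet f 2 r θ * jet f j r θ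
        - 2 * r * ((j : ℂ) - 1) * jet f j r θ) / ((1 - r ^ 2 : ℝ) : ℂ)) r := by
  obtain ⟨k, rfl⟩ : ∃ k, j = k + 1 := ⟨j - 1, by omega⟩
  have hz := mem_disc hr θ
  have hne := hd _ hz
  have hρ : ((1 - r ^ 2 : ℝ) : ℂ) ≠ 0 := Complex.ofReal_ne_zero.2 (by nlinarith [hr.1, hr.2])
  have hρd : HasDerivAt (fun s : ℝ => ((1 - s ^ 2 : ℝ) : ℂ)) ((-(2 * r) : ℝ) : ℂ) r := by
    have : HasDerivAt (fun s : ℝ => 1 - s ^ 2) (-(2 * r)) r := by
      simpa using (hasDerivAt_pow 2 r).const_sub 1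
    exact this.ofReal_comp
  have h1 := (hasDerivAt_iteratedDeriv hf (k + 1) hz).comp r (hasDerivAt_ray r θ)
  have h2 : HasDerivAt (fun s : ℝ => deriv f (circleMap 0 s θ))
      (iteratedDeriv 2 f (circleMap 0 r θ) * Complex.exp (θ * Complex.I)) r := by
    have := (hasDerivAt_iteratedDeriv hf 1 hz).comp r (hasDerivAt_ray r θ)
    rwa [iteratedDeriv_one] at this
  have hfac : ((k + 1).factorial : ℂ) ≠ 0 := Nat.cast_ne_zero.2 (Nat.factorial_ne_zero _)
  refine ((((hρd.fun_pow k).mul_const (Complex.exp (θ * Complex.I) ^ k)).mul h1).div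
    (h2.const_mul ((k + 1).factorial : ℂ)) (mul_ne_zero hfac hne)).congr_deriv ?_
  simp only [jet, Nat.add_sub_cancel, show (2 : ℕ) - 1 = 1 from rfl, Nat.factorial_succ (k + 1),
    Nat.factorial_two, Function.comp_apply, Pi.mul_apply]
  generalize (k + 1).factorial = F at hfac ⊢
  rcases k with _ | k <;>
  · push_cast at hρ hfac ⊢
    simp only [Nat.add_sub_cancel, Nat.zero_sub, pow_succ, pow_zero]
    try have h3 : (k : ℂ) + 1 + 1 + 1 ≠ 0 := by norm_cast
    field_simp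
    ring

/-- Angular rule for the jets. -/
lemma jet_angular (hf : DifferentiableOn ℂ f (ball 0 1)) (hd : ∀ z ∈ ball (0 : ℂ) 1, deriv f z ≠ 0)
    {j : ℕ} (hj : 1 ≤ j) {r : ℝ} (hr : r ∈ Ico (0 : ℝ) 1) (θ : ℝ) :
    HasDerivAt (fun t => jet f j r t)
      (Complex.I * (((j : ℂ) - 1) * jet f j r θ + r * (((j : ℂ) + 1) * jet f (j + 1) r θ
        - 2 * jet f 2 r θ * jet f j r θ) / ((1 - r ^ 2 : ℝ) : ℂ))) θ := by
  obtain ⟨k, rfl⟩ : ∃ k, j = k + 1 := ⟨j - 1, by omega⟩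
  have hz := mem_disc hr θ
  have hne := hd _ hz
  have hρ : ((1 - r ^ 2 : ℝ) : ℂ) ≠ 0 := Complex.ofReal_ne_zero.2 (by nlinarith [hr.1, hr.2])
  have he : HasDerivAt (fun t : ℝ => Complex.exp (t * Complex.I))
      (Complex.exp (θ * Complex.I) * Complex.I) θ := by
    simpa using (((hasDerivAt_id θ).ofReal_comp).mul_const Complex.I).cexp
  have h1 := (hasDerivAt_iteratedDeriv hf (k + 1) hz).comp θ (hasDerivAt_circleMap 0 r θ)
  have h2 : HasDerivAt (fun t : ℝ => deriv f (circleMap 0 r t))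
      (iteratedDeriv 2 f (circleMap 0 r θ) * (circleMap 0 r θ * Complex.I)) θ := by
    have := (hasDerivAt_iteratedDeriv hf 1 hz).comp θ (hasDerivAt_circleMap 0 r θ)
    rwa [iteratedDeriv_one] at this
  have hfac : ((k + 1).factorial : ℂ) ≠ 0 := Nat.cast_ne_zero.2 (Nat.factorial_ne_zero _)
  refine ((((he.fun_pow k).const_mul (((1 - r ^ 2 : ℝ) : ℂ) ^ k)).mul h1).div
    (h2.const_mul ((k + 1).factorial : ℂ)) (mul_ne_zero hfac hne)).congr_deriv ?_
  simp only [jet, Nat.add_sub_cancel, show (2 : ℕ) - 1 = 1 from rfl, Nat.factorial_succ (k + 1),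
    Nat.factorial_two, Function.comp_apply, Pi.mul_apply]
  have hzc : circleMap 0 r θ = r * Complex.exp (θ * Complex.I) := circleMap_zero r θ
  generalize circleMap 0 r θ = z at hz hne hzc ⊢
  generalize (k + 1).factorial = F at hfac ⊢
  rcases k with _ | k <;>
  · push_cast at hρ hfac ⊢
    simp only [Nat.add_sub_cancel, Nat.zero_sub, pow_succ, pow_zero]
    try have h3 : (k : ℂ) + 1 + 1 + 1 ≠ 0 := by norm_cast
    field_simp
    rw [hzc]
    ring

lemma hasDerivAt_normSq {g : ℝ → ℂ} {g' : ℂ} {x : ℝ} (hg : HasDerivAt g g' x) :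
    HasDerivAt (fun t => ‖g t‖ ^ 2) (2 * (conj (g x) * g').re) x := by
  refine hg.norm_sq.congr_deriv ?_
  simp [Complex.inner, Complex.mul_re]
  ring

/-- Radial rule for the weight. -/
lemma wt_radial (hf : DifferentiableOn ℂ f (ball 0 1)) (hd : ∀ z ∈ ball (0 : ℂ) 1, deriv f z ≠ 0)
    {r : ℝ} (hr : r ∈ Ico (0 : ℝ) 1) (θ : ℝ) :
    HasDerivAt (fun s => wt f s θ) (-4 * (jet f 2 r θ).re / (1 - r ^ 2) * wt f r θ) r := by
  have hz := mem_disc hr θ
  have hne := hd _ hz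
  have hρ0 : (1 - r ^ 2 : ℝ) ≠ 0 := by nlinarith [hr.1, hr.2]
  have h2 : HasDerivAt (fun s : ℝ => deriv f (circleMap 0 s θ))
      (iteratedDeriv 2 f (circleMap 0 r θ) * Complex.exp (θ * Complex.I)) r := by
    have := (hasDerivAt_iteratedDeriv hf 1 hz).comp r (hasDerivAt_ray r θ)
    rwa [iteratedDeriv_one] at this
  refine (hasDerivAt_normSq (h2.fun_inv hne)).congr_deriv ?_
  simp only [wt, jet, show (2 : ℕ) - 1 = 1 from rfl, pow_one, Nat.factorial_two]
  generalize circleMap 0 r θ = z at hne ⊢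
  set w := Complex.exp (θ * Complex.I)
  have e : conj (deriv f z)⁻¹ * (-(iteratedDeriv 2 f z * w) / deriv f z ^ 2)
      = ((-(2 * ‖(deriv f z)⁻¹‖ ^ 2 / (1 - r ^ 2)) : ℝ) : ℂ)
        * (((1 - r ^ 2 : ℝ) : ℂ) * w * iteratedDeriv 2 f z / (2 * deriv f z)) := by
    push_cast
    rw [← Complex.conj_mul' (deriv f z)⁻¹]
    have : (1 - (r : ℂ) ^ 2) ≠ 0 := by exact_mod_cast hρ0
    field_simp
  rw [e, Complex.re_ofReal_mul]
  push_cast
  ring

/-- Angular rule for the weight. -/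
lemma wt_angular (hf : DifferentiableOn ℂ f (ball 0 1)) (hd : ∀ z ∈ ball (0 : ℂ) 1, deriv f z ≠ 0)
    {r : ℝ} (hr : r ∈ Ico (0 : ℝ) 1) (θ : ℝ) :
    HasDerivAt (fun t => wt f r t) (4 * r * (jet f 2 r θ).im / (1 - r ^ 2) * wt f r θ) θ := by
  have hz := mem_disc hr θ
  have hne := hd _ hz
  have hρ0 : (1 - r ^ 2 : ℝ) ≠ 0 := by nlinarith [hr.1, hr.2]
  have h2 : HasDerivAt (fun t : ℝ => deriv f (circleMap 0 r t))
      (iteratedDeriv 2 f (circleMap 0 r θ) * (circleMap 0 r θ * Complex.I)) θ := by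
    have := (hasDerivAt_iteratedDeriv hf 1 hz).comp θ (hasDerivAt_circleMap 0 r θ)
    rwa [iteratedDeriv_one] at this
  refine (hasDerivAt_normSq (h2.fun_inv hne)).congr_deriv ?_
  simp only [wt, jet, show (2 : ℕ) - 1 = 1 from rfl, pow_one, Nat.factorial_two]
  have hzc : circleMap 0 r θ = r * Complex.exp (θ * Complex.I) := circleMap_zero r θ
  generalize circleMap 0 r θ = z at hne hzc ⊢
  set w := Complex.exp (θ * Complex.I) with hw
  have e : conj (deriv f z)⁻¹ * (-(iteratedDeriv 2 f z * (z * Complex.I)) / deriv f z ^ 2)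
      = ((-(2 * r * ‖(deriv f z)⁻¹‖ ^ 2 / (1 - r ^ 2)) : ℝ) : ℂ)
        * (((1 - r ^ 2 : ℝ) : ℂ) * w * iteratedDeriv 2 f z / (2 * deriv f z) * Complex.I) := by
    push_cast
    rw [← Complex.conj_mul' (deriv f z)⁻¹, hzc]
    have : (1 - (r : ℂ) ^ 2) ≠ 0 := by exact_mod_cast hρ0
    field_simp
  rw [e, Complex.re_ofReal_mul, Complex.mul_I_re]
  push_cast
  ring

/-- The integral mean of `|f'| ^ t`. -/
def meanDeriv (f : ℂ → ℂ) (t r : ℝ) : ℝ :=
  1 / (2 * π) * ∫ θ in (-π)..π, ‖deriv f (circleMap 0 r θ)‖ ^ t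

lemma meanDeriv_neg_two (f : ℂ → ℂ) (r : ℝ) :
    meanDeriv f (-2) r = 1 / (2 * π) * ∫ θ in (-π)..π, wt f r θ := by
  simp only [meanDeriv, wt]
  congr 2
  funext θ
  rw [Real.rpow_neg (norm_nonneg _), norm_inv, inv_pow,
    show (2 : ℝ) = ((2 : ℕ) : ℝ) by norm_num, Real.rpow_natCast]

lemma continuous_wt (hf : DifferentiableOn ℂ f (ball 0 1)) (hd : ∀ z ∈ ball (0 : ℂ) 1, deriv f z ≠ 0)
    {r : ℝ} (hr : r ∈ Ico (0 : ℝ) 1) : Continuous (wt f r) :=
  continuous_iff_continuousAt.2 fun θ => (wt_angular hf hd hr θ).continuousAt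

/-- The mean of `|f'| ^ (-2)` is at least its central value. -/
lemma meanDeriv_ge (hf : DifferentiableOn ℂ f (ball 0 1)) (hd : ∀ z ∈ ball (0 : ℂ) 1, deriv f z ≠ 0)
    (h1 : deriv f 0 = 1) {r : ℝ} (hr : r ∈ Ico (0 : ℝ) 1) : 1 ≤ meanDeriv f (-2) r := by
  rw [meanDeriv_neg_two]
  have hcl : closure (ball (0 : ℂ) |r|) ⊆ ball 0 1 := by
    rw [abs_of_nonneg hr.1]
    exact closure_ball_subset_closedBall.trans (closedBall_subset_ball hr.2)
  have hH : DiffContOnCl ℂ (fun z => (deriv f z)⁻¹) (ball 0 |r|) :=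
    (((hf.deriv isOpen_ball).fun_inv hd).mono hcl).diffContOnCl
  have hav := hH.circleAverage
  rw [h1, inv_one] at hav
  have hc : Continuous fun θ => (deriv f (circleMap 0 r θ))⁻¹ :=
    ((hf.deriv isOpen_ball).continuousOn.comp_continuous (continuous_circleMap 0 r)
      (mem_disc hr)).inv₀ fun θ => hd _ (mem_disc hr θ)
  have hre : ∫ θ in (-π)..π, ((deriv f (circleMap 0 r θ))⁻¹).re = 2 * π := by
    have hp : Function.Periodic (fun θ => (deriv f (circleMap 0 r θ))⁻¹) (2 * π) := fun θ => by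
      simp only [periodic_circleMap 0 r θ]
    have h := hp.intervalIntegral_add_eq (-π) 0
    rw [show -π + 2 * π = π by ring, zero_add] at h
    rw [Real.circleAverage_def, inv_smul_eq_iff₀ Real.two_pi_pos.ne'] at hav
    rw [show (fun θ => ((deriv f (circleMap 0 r θ))⁻¹).re)
        = fun θ => Complex.reCLM ((deriv f (circleMap 0 r θ))⁻¹) from rfl,
      Complex.reCLM.intervalIntegral_comp_comm (hc.intervalIntegrable _ _), h, hav]
    simp
  have hle : ∫ θ in (-π)..π, (2 * ((deriv f (circleMap 0 r θ))⁻¹).re - 1)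
      ≤ ∫ θ in (-π)..π, wt f r θ := by
    refine intervalIntegral.integral_mono_on (by linarith [Real.pi_pos])
      (((Complex.continuous_re.comp hc).const_smul (2 : ℝ)).sub continuous_const |>.intervalIntegrable _ _)
      ((continuous_wt hf hd hr).intervalIntegrable _ _) fun θ _ => ?_
    simp only [wt]
    generalize (deriv f (circleMap 0 r θ))⁻¹ = u
    rw [Complex.sq_norm, Complex.normSq_apply]
    nlinarith [sq_nonneg (u.re - 1), sq_nonneg u.im]
  have i2 : IntervalIntegrable (fun θ => 2 * ((deriv f (circleMap 0 r θ))⁻¹).re) volume (-π) π :=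
    (continuous_const.mul (Complex.continuous_re.comp hc)).intervalIntegrable _ _
  rw [intervalIntegral.integral_sub i2 intervalIntegrable_const, intervalIntegral.integral_const_mul, hre,
    intervalIntegral.integral_const, smul_eq_mul] at hle
  rw [one_div, le_inv_mul_iff₀ Real.two_pi_pos]
  linarith

/-- The integral-means exponent. -/
def betaExp (f : ℂ → ℂ) (t : ℝ) : ℝ :=
  limsup (fun r => Real.log (meanDeriv f t r) / Real.log (1 / (1 - r))) (𝓝[<] 1)

/-- A differential inequality for a function dominating `|f'| ^ (-2)` bounds the exponent. -/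
theorem betaExp_le_of_ineq (hf : DifferentiableOn ℂ f (ball 0 1))
    (hd : ∀ z ∈ ball (0 : ℂ) 1, deriv f z ≠ 0) (h1 : deriv f 0 = 1) {B δ r₀ : ℝ} (hB : 0 ≤ B)
    (hδ : 0 < δ) (hr₀ : 0 ≤ r₀) (hr₀1 : r₀ < 1) {W Wr U Uθ : ℝ → ℝ → ℝ}
    (hW : ∀ r ∈ Ioo r₀ 1, ∀ θ, HasDerivAt (fun s => W s θ) (Wr r θ) r)
    (hWc : ContinuousOn (fun p : ℝ × ℝ => Wr p.1 p.2) (Ioo r₀ 1 ×ˢ univ))
    (hWθ : ∀ r ∈ Ioo r₀ 1, Continuous (W r))
    (hU : ∀ r ∈ Ioo r₀ 1, ∀ θ, HasDerivAt (U r) (Uθ r θ) θ)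
    (hUc : ∀ r ∈ Ioo r₀ 1, Continuous (Uθ r))
    (hper : ∀ r ∈ Ioo r₀ 1, U r π = U r (-π))
    (hlow : ∀ r ∈ Ioo r₀ 1, ∀ θ, δ * wt f r θ ≤ W r θ)
    (hineq : ∀ r ∈ Ioo r₀ 1, ∀ θ, (1 - r ^ 2) * (Wr r θ + Uθ r θ) ≤ 2 * B * W r θ) :
    betaExp f (-2) ≤ B := by
  set I : ℝ → ℝ := fun r => ∫ θ in (-π)..π, W r θ with hI
  have hπ : -π ≤ π := by linarith [Real.pi_pos]
  have hWrc : ∀ r ∈ Ioo r₀ 1, Continuous (Wr r) := fun r hr =>
    hWc.comp_continuous (f := fun θ => (r, θ)) (by fun_prop) fun θ => ⟨hr, mem_univ θ⟩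
  have hI' : ∀ r ∈ Ioo r₀ 1, HasDerivAt I (∫ θ in (-π)..π, Wr r θ) r := by
    intro r hr
    obtain ⟨a, ha, har⟩ := exists_between hr.1
    obtain ⟨b, hrb, hb⟩ := exists_between hr.2
    have hsub : Icc a b ⊆ Ioo r₀ 1 := fun x hx => ⟨ha.trans_le hx.1, hx.2.trans_lt hb⟩
    obtain ⟨C, hC⟩ := (isCompact_Icc.prod (isCompact_Icc (a := -π) (b := π))).exists_bound_of_continuousOn
      (hWc.mono (prod_mono hsub (subset_univ _)))
    refine (intervalIntegral.hasDerivAt_integral_of_dominated_loc_of_deriv_le (μ := volume) (a := -π) (b := π)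
      (F := W) (F' := Wr)
      (bound := fun _ => C) (Ioo_mem_nhds har hrb) ?_ ((hWθ r hr).intervalIntegrable _ _)
      (hWrc r hr).aestronglyMeasurable ?_
      (intervalIntegrable_const : IntervalIntegrable (fun _ : ℝ => C) volume (-π) π) ?_).2
    · filter_upwards [Ioo_mem_nhds har hrb] with x hx
      exact (hWθ x (hsub (Ioo_subset_Icc_self hx))).aestronglyMeasurable
    · refine ae_of_all _ fun θ hθ x hx => hC (x, θ) ⟨Ioo_subset_Icc_self hx, ?_⟩
      rw [uIoc_of_le hπ] at hθ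
      exact Ioc_subset_Icc_self hθ
    · exact ae_of_all _ fun θ _ x hx => hW x (hsub (Ioo_subset_Icc_self hx)) θ
  have hdiff : ∀ r ∈ Ioo r₀ 1, (1 - r ^ 2) * (∫ θ in (-π)..π, Wr r θ) ≤ 2 * B * I r := by
    intro r hr
    have hz : ∫ θ in (-π)..π, Uθ r θ = 0 := by
      rw [intervalIntegral.integral_eq_sub_of_hasDerivAt (fun θ _ => hU r hr θ)
        ((hUc r hr).intervalIntegrable _ _), hper r hr, sub_self]
    have := intervalIntegral.integral_mono_on (μ := volume) (f := fun θ => (1 - r ^ 2) * (Wr r θ + Uθ r θ))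
      (g := fun θ => 2 * B * W r θ) hπ
      ((continuous_const.mul ((hWrc r hr).add (hUc r hr))).intervalIntegrable _ _)
      ((continuous_const.mul (hWθ r hr)).intervalIntegrable _ _) fun θ _ => hineq r hr θ
    rw [intervalIntegral.integral_const_mul, intervalIntegral.integral_const_mul,
      intervalIntegral.integral_add ((hWrc r hr).intervalIntegrable _ _)
        ((hUc r hr).intervalIntegrable _ _), hz, add_zero] at this
    exact this
  set r₁ := (r₀ + 1) / 2 with hr₁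
  have hr₁m : r₁ ∈ Ioo r₀ 1 := ⟨by linarith, by linarith⟩
  set Φ : ℝ → ℝ := fun r => I r * ((1 - r) / (1 + r)) ^ B with hΦ
  have hq : ∀ r ∈ Ioo r₀ 1, 0 < (1 - r) / (1 + r) := fun r hr =>
    div_pos (by linarith [hr.2]) (by linarith [hr.1])
  have hΦ' : ∀ r ∈ Ioo r₀ 1, HasDerivAt Φ
      (((1 - r) / (1 + r)) ^ B / (1 - r ^ 2) *
        ((1 - r ^ 2) * (∫ θ in (-π)..π, Wr r θ) - 2 * B * I r)) r := by
    intro r hr
    have h0 := hq r hr
    have hp : 0 < 1 + r := by linarith [hr.1]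
    have hm : 0 < 1 - r := by linarith [hr.2]
    refine ((hI' r hr).mul ((((hasDerivAt_id r).const_sub 1).div ((hasDerivAt_id r).const_add 1)
      hp.ne').rpow_const (p := B) (Or.inl h0.ne'))).congr_deriv ?_
    simp only [id, Pi.div_apply]
    rw [Real.rpow_sub_one h0.ne', show 1 - r ^ 2 = (1 - r) * (1 + r) by ring]
    field_simp
    ring
  have hanti : AntitoneOn Φ (Ico r₁ 1) := by
    have hsub : Ico r₁ 1 ⊆ Ioo r₀ 1 := fun x hx => ⟨hr₁m.1.trans_le hx.1, hx.2⟩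
    refine antitoneOn_of_hasDerivWithinAt_nonpos (convex_Ico _ _)
      (fun x hx => (hΦ' x (hsub hx)).continuousAt.continuousWithinAt)
      (fun x hx => (hΦ' x (hsub (interior_subset hx))).hasDerivWithinAt) fun x hx => ?_
    have hx' := hsub (interior_subset hx)
    exact mul_nonpos_of_nonneg_of_nonpos (div_nonneg (Real.rpow_nonneg (hq x hx').le _)
      (by nlinarith [hx'.1, hx'.2])) (by linarith [hdiff x hx'])
  set K : ℝ := max 1 (Φ r₁ * 2 ^ B / (2 * π * δ)) with hK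
  have hK0 : 0 < K := lt_of_lt_of_le one_pos (le_max_left _ _)
  have hM : ∀ r ∈ Ico r₁ 1, meanDeriv f (-2) r ≤ K * (1 / (1 - r)) ^ B := by
    intro r hr
    have hr' : r ∈ Ioo r₀ 1 := ⟨hr₁m.1.trans_le hr.1, hr.2⟩
    have hm : 0 < 1 - r := by linarith [hr.2]
    have hp : 0 < 1 + r := by linarith [hr'.1]
    have hd' : δ * (∫ θ in (-π)..π, wt f r θ) ≤ I r := by
      rw [← intervalIntegral.integral_const_mul]
      exact intervalIntegral.integral_mono_on hπ
        ((continuous_const.mul (continuous_wt hf hd ⟨hr₀.trans hr'.1.le, hr.2⟩)).intervalIntegrable _ _)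
        ((hWθ r hr').intervalIntegrable _ _) fun θ _ => hlow r hr' θ
    have hΦle : Φ r ≤ Φ r₁ := hanti (left_mem_Ico.2 hr₁m.2) hr hr.1
    simp only [hΦ, Real.div_rpow hm.le hp.le] at hΦle
    have hp2 : (1 + r) ^ B ≤ 2 ^ B := Real.rpow_le_rpow hp.le (by linarith [hr.2]) hB
    have hmB := Real.rpow_pos_of_pos hm B
    have hpB := Real.rpow_pos_of_pos hp B
    have hIr : I r ≤ Φ r₁ * 2 ^ B * (1 / (1 - r)) ^ B := by
      have h' : I r * (1 - r) ^ B ≤ Φ r₁ * (1 + r) ^ B := by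
        have := mul_le_mul_of_nonneg_right hΦle hpB.le
        rw [mul_assoc, div_mul_cancel₀ _ hpB.ne'] at this
        exact this
      have hI0 : 0 ≤ Φ r₁ := by
        refine mul_nonneg ?_ (Real.rpow_nonneg (hq r₁ hr₁m).le _)
        exact intervalIntegral.integral_nonneg hπ fun θ _ =>
          (mul_nonneg hδ.le (sq_nonneg _)).trans (hlow r₁ hr₁m θ)
      rw [Real.div_rpow zero_le_one hm.le, Real.one_rpow, mul_one_div, le_div_iff₀ hmB]
      exact h'.trans (mul_le_mul_of_nonneg_left hp2 hI0)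
    rw [meanDeriv_neg_two]
    refine le_trans ?_ (mul_le_mul_of_nonneg_right (le_max_right _ _)
      (Real.rpow_nonneg (by positivity) B))
    rw [div_mul_eq_mul_div (Φ r₁ * 2 ^ B), le_div_iff₀ (by positivity)]
    have e : 1 / (2 * π) * (∫ θ in (-π)..π, wt f r θ) * (2 * π * δ)
        = δ * ∫ θ in (-π)..π, wt f r θ := by field_simp
    rw [e]
    exact hd'.trans hIr
  have hlog : Tendsto (fun r : ℝ => Real.log (1 / (1 - r))) (𝓝[<] 1) atTop := by
    refine Real.tendsto_log_atTop.comp ?_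
    simp_rw [one_div]
    refine tendsto_inv_nhdsGT_zero.comp (tendsto_nhdsWithin_iff.2 ⟨?_, ?_⟩)
    · have := ((by fun_prop : Continuous fun r : ℝ => 1 - r).tendsto 1).mono_left
        (nhdsWithin_le_nhds (s := Iio 1))
      simpa using this
    · filter_upwards [self_mem_nhdsWithin] with r hr
      simpa using hr
  have hlim : Tendsto (fun r : ℝ => Real.log K / Real.log (1 / (1 - r)) + B) (𝓝[<] 1) (𝓝 B) := by
    simpa using (hlog.const_div_atTop (Real.log K)).add_const B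
  have hev : ∀ᶠ r in 𝓝[<] (1 : ℝ), 0 ≤ Real.log (meanDeriv f (-2) r) / Real.log (1 / (1 - r)) ∧
      Real.log (meanDeriv f (-2) r) / Real.log (1 / (1 - r))
        ≤ Real.log K / Real.log (1 / (1 - r)) + B := by
    filter_upwards [Ioo_mem_nhdsLT hr₁m.2, hlog.eventually_gt_atTop 0] with r hr hL
    have hm : 0 < 1 - r := by linarith [hr.2]
    have hge := meanDeriv_ge hf hd h1 (r := r) ⟨by linarith [hr.1], hr.2⟩
    refine ⟨div_nonneg (Real.log_nonneg hge) hL.le, ?_⟩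
    rw [div_le_iff₀ hL, add_mul, div_mul_cancel₀ _ hL.ne', ← Real.log_rpow (by positivity),
      ← Real.log_mul hK0.ne' (Real.rpow_pos_of_pos (by positivity) _).ne']
    exact Real.log_le_log (by linarith) (hM r ⟨hr.1.le, hr.2⟩)
  refine (limsup_le_limsup (hev.mono fun r h => h.2) ?_ hlim.isBoundedUnder_le).trans hlim.limsup_eq.le
  exact isCoboundedUnder_le_of_eventually_le _ (hev.mono fun r h => h.1)

end Vale.Agent.P142.Means
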