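import Mathlib
import Vale.Agent.P142.Grunsky
import Vale.Agent.P142.MeansLayer
import Vale.Agent.P142.Distortion

/-!
The Koebe transform of a univalent map at a point of the disc: its Taylor coefficients in terms of
the normalised jets, and the finite Grunsky inequalities for them as polynomial inequalities.
-/

noncomputable section

open Set Filter Metric Function
open scoped Topology ComplexConjugate

namespace Vale.Agent.P142.Koebe

open Vale.Agent.P142.Grunsky (coef)
open Vale.Agent.P142.Means (jet)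

/-- The Taylor coefficient at `c`. -/
def coefAt (c : ℂ) (H : ℂ → ℂ) (n : ℕ) : ℂ := ((Function.swap dslope c)^[n] H) c

lemma coef_eq_coefAt (H : ℂ → ℂ) (n : ℕ) : coef H n = coefAt 0 H n := rfl

lemma coef_zero (H : ℂ → ℂ) : coef H 0 = H 0 := rfl

lemma coef_succ (H : ℂ → ℂ) (n : ℕ) : coef H (n + 1) = coef (dslope H 0) n := by
  simp [coef, Function.iterate_succ_apply, Function.swap]

lemma coefAt_succ (c : ℂ) (H : ℂ → ℂ) (n : ℕ) : coefAt c H (n + 1) = coefAt c (dslope H c) n := by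
  simp [coefAt, Function.iterate_succ_apply, Function.swap]

lemma coefAt_eq {H : ℂ → ℂ} {c : ℂ} (hH : AnalyticAt ℂ H c) (n : ℕ) :
    coefAt c H n = iteratedDeriv n H c / n.factorial := by
  have hH' := hH
  obtain ⟨p, hp⟩ := hH
  have h1 : coefAt c H n = p.coeff n := by
    rw [coefAt, ← (HasFPowerSeriesAt.has_fpower_series_iterate_dslope_fslope n hp).coeff_zero 1,
      ← FormalMultilinearSeries.coeff, FormalMultilinearSeries.coeff_iterate_fslope, zero_add]
  have h2 : HasFPowerSeriesAt H (FormalMultilinearSeries.ofScalars ℂ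
      fun n => iteratedDeriv n H c / n.factorial) c := by
    have := hH'.hasFPowerSeriesAt
    simpa [div_eq_mul_inv, mul_comm, smul_eq_mul] using this
  rw [h1, hp.eq_formalMultilinearSeries h2, FormalMultilinearSeries.coeff_ofScalars]

lemma hol_dslope {H : ℂ → ℂ} (hH : DifferentiableOn ℂ H (ball (0 : ℂ) 1)) {c : ℂ} (hc : c ∈ (ball (0 : ℂ) 1)) :
    DifferentiableOn ℂ (dslope H c) (ball (0 : ℂ) 1) :=
  (Complex.differentiableOn_dslope (isOpen_ball.mem_nhds hc)).2 hH

lemma diffAt_zero {H : ℂ → ℂ} (hH : DifferentiableOn ℂ H (ball (0 : ℂ) 1)) : DifferentiableAt ℂ H 0 :=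
  hH.differentiableAt (ball_mem_nhds _ one_pos)

lemma hol_dslope0 {H : ℂ → ℂ} (hH : DifferentiableOn ℂ H (ball (0 : ℂ) 1)) :
    DifferentiableOn ℂ (dslope H 0) (ball (0 : ℂ) 1) :=
  hol_dslope hH (mem_ball_self one_pos)

lemma hol_iterate {H : ℂ → ℂ} (hH : DifferentiableOn ℂ H (ball (0 : ℂ) 1)) (n : ℕ) :
    DifferentiableOn ℂ ((Function.swap dslope 0)^[n] H) (ball (0 : ℂ) 1) := by
  induction n with
  | zero => exact hH
  | succ k ih => rw [Function.iterate_succ_apply']; exact hol_dslope0 ih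

lemma coef_congr {H G : ℂ → ℂ} (hH : DifferentiableOn ℂ H (ball (0 : ℂ) 1)) (h : EqOn H G (ball (0 : ℂ) 1)) (n : ℕ) :
    coef H n = coef G n := by
  have hG : DifferentiableOn ℂ G (ball (0 : ℂ) 1) := hH.congr fun x hx => (h hx).symm
  have he : H =ᶠ[𝓝 0] G := eventually_of_mem (ball_mem_nhds _ one_pos) h
  rw [Grunsky.coef_eq hH, Grunsky.coef_eq hG, he.iteratedDeriv_eq n]

lemma dslope_add {H G : ℂ → ℂ} (hH : DifferentiableAt ℂ H 0) (hG : DifferentiableAt ℂ G 0) :
    dslope (fun z => H z + G z) 0 = fun z => dslope H 0 z + dslope G 0 z := by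
  funext z
  rcases eq_or_ne z 0 with rfl | hz
  · simp only [dslope_same]
    exact deriv_fun_add hH hG
  · simp only [dslope_of_ne _ hz, slope_def_field]
    ring

lemma dslope_const_mul (a : ℂ) {H : ℂ → ℂ} (hH : DifferentiableAt ℂ H 0) :
    dslope (fun z => a * H z) 0 = fun z => a * dslope H 0 z := by
  funext z
  rcases eq_or_ne z 0 with rfl | hz
  · simp only [dslope_same]
    exact deriv_const_mul a hH
  · simp only [dslope_of_ne _ hz, slope_def_field]
    ring

lemma dslope_mul {H G : ℂ → ℂ} (hH : DifferentiableAt ℂ H 0) (hG : DifferentiableAt ℂ G 0) :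
    dslope (fun z => H z * G z) 0 = fun z => dslope H 0 z * G z + H 0 * dslope G 0 z := by
  funext z
  rcases eq_or_ne z 0 with rfl | hz
  · simp only [dslope_same]
    exact deriv_fun_mul hH hG
  · simp only [dslope_of_ne _ hz, slope_def_field]
    ring

lemma coef_add {H G : ℂ → ℂ} (hH : DifferentiableOn ℂ H (ball (0 : ℂ) 1)) (hG : DifferentiableOn ℂ G (ball (0 : ℂ) 1)) (n : ℕ) :
    coef (fun z => H z + G z) n = coef H n + coef G n := by
  induction n generalizing H G with
  | zero => rfl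
  | succ k ih =>
    rw [coef_succ, coef_succ, coef_succ, dslope_add (diffAt_zero hH) (diffAt_zero hG),
      ih (hol_dslope0 hH) (hol_dslope0 hG)]

lemma coef_const_mul (a : ℂ) {H : ℂ → ℂ} (hH : DifferentiableOn ℂ H (ball (0 : ℂ) 1)) (n : ℕ) :
    coef (fun z => a * H z) n = a * coef H n := by
  induction n generalizing H with
  | zero => rfl
  | succ k ih => rw [coef_succ, coef_succ, dslope_const_mul a (diffAt_zero hH), ih (hol_dslope0 hH)]

lemma coef_sum {ι : Type*} (s : Finset ι) {H : ι → ℂ → ℂ}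
    (hH : ∀ i ∈ s, DifferentiableOn ℂ (H i) (ball (0 : ℂ) 1)) (n : ℕ) :
    coef (fun z => ∑ i ∈ s, H i z) n = ∑ i ∈ s, coef (H i) n := by
  classical
  induction s using Finset.induction_on with
  | empty =>
    have := coef_const_mul 0 (H := fun _ => (0 : ℂ)) (differentiableOn_const _) n
    simpa using this
  | insert i t hi ih =>
    simp only [Finset.sum_insert hi]
    rw [coef_add (hH i (Finset.mem_insert_self i t))
      (DifferentiableOn.fun_sum fun j hj => hH j (Finset.mem_insert_of_mem hj)),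
      ih fun j hj => hH j (Finset.mem_insert_of_mem hj)]

lemma coef_const (a : ℂ) (n : ℕ) : coef (fun _ => a) n = if n = 0 then a else 0 := by
  rw [Grunsky.coef_eq (differentiableOn_const a), iteratedDeriv_const]
  rcases n with _ | n <;> simp

lemma coef_mul {H G : ℂ → ℂ} (hH : DifferentiableOn ℂ H (ball (0 : ℂ) 1)) (hG : DifferentiableOn ℂ G (ball (0 : ℂ) 1)) (n : ℕ) :
    coef (fun z => H z * G z) n = ∑ i ∈ Finset.range (n + 1), coef H i * coef G (n - i) := by
  induction n generalizing H G with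
  | zero => simp [coef_zero]
  | succ k ih =>
    rw [coef_succ, dslope_mul (diffAt_zero hH) (diffAt_zero hG),
      coef_add ((hol_dslope0 hH).fun_mul hG) ((hol_dslope0 hG).const_mul _),
      ih (hol_dslope0 hH) hG, coef_const_mul _ (hol_dslope0 hG), Finset.sum_range_succ' _ (k + 1)]
    simp only [coef_succ, coef_zero, Nat.reduceSubDiff, Nat.sub_zero]

/-- Coefficients of `u / g u`, from the coefficients `e` of `g`. -/
def winv (e : ℕ → ℂ) : ℕ → ℂ
  | 0 => 1
  | n + 1 => -∑ i : Fin (n + 1), winv e i * e (n + 2 - (i : ℕ))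

/-- Coefficients of `(u / g u) ^ p`. -/
def wpow (e : ℕ → ℂ) : ℕ → ℕ → ℂ
  | 0, i => if i = 0 then 1 else 0
  | p + 1, i => ∑ j ∈ Finset.range (i + 1), wpow e p j * winv e (i - j)

lemma wpow_one (e : ℕ → ℂ) (i : ℕ) : wpow e 1 i = winv e i := by
  simp [wpow]

section

variable {g : ℂ → ℂ}

lemma hol_inv (hg : DifferentiableOn ℂ g (ball (0 : ℂ) 1)) (hinj : InjOn g (ball (0 : ℂ) 1)) (h0 : g 0 = 0) (h1 : deriv g 0 = 1) :
    DifferentiableOn ℂ (fun z => (dslope g 0 z)⁻¹) (ball (0 : ℂ) 1) :=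
  (hol_dslope0 hg).fun_inv fun z hz => dslope_ne_zero hinj h0 (by rw [h1]; exact one_ne_zero) hz

lemma coef_inv (hg : DifferentiableOn ℂ g (ball (0 : ℂ) 1)) (hinj : InjOn g (ball (0 : ℂ) 1)) (h0 : g 0 = 0) (h1 : deriv g 0 = 1)
    (n : ℕ) : coef (fun z => (dslope g 0 z)⁻¹) n = winv (coef g) n := by
  induction n using Nat.strong_induction_on with
  | _ n ih =>
    rcases n with _ | k
    · simp [coef_zero, winv, dslope_same, h1]
    · have hw := hol_inv hg hinj h0 h1
      have h := coef_mul hw (hol_dslope0 hg) (k + 1)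
      rw [coef_congr (G := fun _ => (1 : ℂ)) (hw.fun_mul (hol_dslope0 hg)) (fun z hz =>
        inv_mul_cancel₀ (dslope_ne_zero hinj h0 (by rw [h1]; exact one_ne_zero) hz)), coef_const,
        if_neg (Nat.succ_ne_zero k), Finset.sum_range_succ, Nat.sub_self, coef_zero,
        dslope_same, h1, mul_one] at h
      rw [winv, Fin.sum_univ_eq_sum_range (fun i => winv (coef g) i * coef g (k + 2 - i)),
        eq_comm, neg_eq_iff_add_eq_zero]
      refine Eq.trans ?_ h.symm
      congr 1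
      refine Finset.sum_congr rfl fun i hi => ?_
      rw [Finset.mem_range] at hi
      rw [ih i hi, ← coef_succ, show k + 2 - i = k + 1 - i + 1 by omega]

lemma coef_inv_pow (hg : DifferentiableOn ℂ g (ball (0 : ℂ) 1)) (hinj : InjOn g (ball (0 : ℂ) 1)) (h0 : g 0 = 0)
    (h1 : deriv g 0 = 1) (p i : ℕ) :
    coef (fun z => (dslope g 0 z)⁻¹ ^ p) i = wpow (coef g) p i := by
  induction p generalizing i with
  | zero => simp [coef_const, wpow]
  | succ k ih =>
    simp only [pow_succ]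
    rw [coef_mul ((hol_inv hg hinj h0 h1).fun_pow k) (hol_inv hg hinj h0 h1), wpow]
    simp only [ih, coef_inv hg hinj h0 h1]

lemma taylor_split (H : ℂ → ℂ) (p : ℕ) (z : ℂ) :
    H z = ∑ i ∈ Finset.range p, coef H i * z ^ i + z ^ p * ((Function.swap dslope 0)^[p] H) z := by
  induction p with
  | zero => simp
  | succ k ih =>
    have h := sub_smul_dslope ((Function.swap dslope 0)^[k] H) 0 z
    rw [sub_zero, smul_eq_mul] at h
    rw [Finset.sum_range_succ, Function.iterate_succ_apply', Function.swap, pow_succ,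
      mul_assoc (z ^ k) z, h, coef]
    conv_lhs => rw [ih]
    ring

/-- Finite Grunsky inequalities as polynomial inequalities in the Taylor coefficients. -/
theorem grunsky_coef (hg : DifferentiableOn ℂ g (ball (0 : ℂ) 1)) (hinj : InjOn g (ball (0 : ℂ) 1)) (h0 : g 0 = 0)
    (h1 : deriv g 0 = 1) {m : ℕ} (q : Fin m → ℂ) (N : ℕ) :
    ∑ l ∈ Finset.range N, ((l : ℝ) + 1)
        * ‖∑ p : Fin m, q p * wpow (coef g) (p + 1) (p + 1 + (l + 1))‖ ^ 2
      ≤ ∑ i : Fin m, ((i : ℕ) + 1 : ℝ)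
        * ‖∑ p : Fin m, if (i : ℕ) ≤ p then q p * wpow (coef g) (p + 1) (p - i) else 0‖ ^ 2 := by
  set w : ℕ → ℂ → ℂ := fun p z => (dslope g 0 z)⁻¹ ^ p with hw
  have hwd : ∀ p, DifferentiableOn ℂ (w p) (ball (0 : ℂ) 1) := fun p => (hol_inv hg hinj h0 h1).fun_pow p
  set Rp : ℕ → ℂ → ℂ := fun p => (Function.swap dslope 0)^[p] (w p) with hRp
  set R : ℂ → ℂ := fun z => ∑ p : Fin m, q p * Rp (p + 1) z with hR
  have hRpd : ∀ p, DifferentiableOn ℂ (Rp p) (ball (0 : ℂ) 1) := fun p => hol_iterate (hwd p) p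
  have hRd : DifferentiableOn ℂ R (ball (0 : ℂ) 1) :=
    DifferentiableOn.fun_sum fun p _ => (hRpd _).const_mul _
  set L : Fin m → ℂ := fun i =>
    ∑ p : Fin m, if (i : ℕ) ≤ p then q p * wpow (coef g) (p + 1) (p - i) else 0 with hL
  have ha : deriv g 0 ≠ 0 := by rw [h1]; exact one_ne_zero
  have heq : ∀ z ∈ (ball (0 : ℂ) 1), z ≠ 0 → Grunsky.poly q (g z)⁻¹ = Grunsky.prin L 1 z + R z := by
    intro z hz hz0
    have hgz : g z = z * dslope g 0 z := by
      have := sub_smul_dslope g 0 z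
      rw [sub_zero, smul_eq_mul, h0, sub_zero] at this
      exact this.symm
    have key : ∀ p : Fin m, (g z)⁻¹ ^ ((p : ℕ) + 1)
        = (∑ i : Fin m, if (i : ℕ) ≤ p then wpow (coef g) (p + 1) (p - i) * z⁻¹ ^ ((i : ℕ) + 1) else 0)
          + Rp (p + 1) z := by
      intro p
      have hs := taylor_split (w (p + 1)) (p + 1) z
      have e : (g z)⁻¹ ^ ((p : ℕ) + 1) = z⁻¹ ^ ((p : ℕ) + 1) * w (p + 1) z := by
        rw [hgz, mul_inv, mul_pow]
      rw [e, hs, mul_add, ← mul_assoc, ← mul_pow, inv_mul_cancel₀ hz0, one_pow, one_mul]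
      congr 1
      rw [Fin.sum_univ_eq_sum_range (fun i => if i ≤ (p : ℕ)
          then wpow (coef g) (p + 1) (p - i) * z⁻¹ ^ (i + 1) else 0), ← Finset.sum_filter,
        show (Finset.range m).filter (fun i => i ≤ (p : ℕ)) = Finset.range ((p : ℕ) + 1) from
          Finset.ext fun i => by simp; omega,
        ← Finset.sum_range_reflect (fun i => wpow (coef g) (p + 1) (p - i) * z⁻¹ ^ (i + 1)),
        Finset.mul_sum]
      refine Finset.sum_congr rfl fun i hi => ?_
      rw [Finset.mem_range] at hi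
      rw [coef_inv_pow hg hinj h0 h1,
        show (p : ℕ) - ((p : ℕ) + 1 - 1 - i) = i by omega,
        show (p : ℕ) + 1 - 1 - i + 1 = (p : ℕ) + 1 - i by omega]
      obtain ⟨d, hd⟩ : ∃ d, (p : ℕ) + 1 = d + i := ⟨(p : ℕ) + 1 - i, by omega⟩
      rw [hd, Nat.add_sub_cancel, pow_add]
      have : z⁻¹ ^ i * z ^ i = 1 := by rw [← mul_pow, inv_mul_cancel₀ hz0, one_pow]
      linear_combination (z⁻¹ ^ d * wpow (coef g) (d + i) i) * this
    simp only [Grunsky.poly, Grunsky.prin, hR, hL, key, mul_add, Finset.sum_add_distrib,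
      Finset.mul_sum, Finset.sum_mul]
    rw [Finset.sum_comm]
    congr 1
    refine Finset.sum_congr rfl fun i _ => Finset.sum_congr rfl fun p _ => ?_
    split_ifs <;> ring
  have hle := Grunsky.generalized_area hg hinj h0 ha q L hRd heq N
  refine le_trans (le_of_eq (Finset.sum_congr rfl fun l _ => ?_)) hle
  have hder : coef (deriv R) l = ((l : ℂ) + 1) * coef R (l + 1) := by
    rw [Grunsky.coef_eq (hRd.deriv isOpen_ball), Grunsky.coef_eq hRd, ← iteratedDeriv_succ',
      Nat.factorial_succ]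
    have : (l.factorial : ℂ) ≠ 0 := Nat.cast_ne_zero.2 l.factorial_ne_zero
    have : ((l : ℂ) + 1) ≠ 0 := Nat.cast_add_one_ne_zero l
    push_cast
    field_simp
  have hcoef : coef R (l + 1)
      = ∑ p : Fin m, q p * wpow (coef g) (p + 1) (p + 1 + (l + 1)) := by
    rw [hR, coef_sum _ fun p _ => (hRpd _).const_mul _]
    refine Finset.sum_congr rfl fun p _ => ?_
    rw [coef_const_mul _ (hRpd _), ← coef_inv_pow hg hinj h0 h1]
    simp only [hRp, coef, ← Function.iterate_add_apply, hw]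
    rw [Nat.add_comm (l + 1) ((p : ℕ) + 1)]
  rw [hder, ← hcoef, norm_mul, mul_pow]
  have hn : ‖(l : ℂ) + 1‖ = (l : ℝ) + 1 := by
    rw [show (l : ℂ) + 1 = ((l + 1 : ℕ) : ℂ) by push_cast; rfl, Complex.norm_natCast]; push_cast; rfl
  rw [hn]
  field_simp

lemma norm_coef_two (hg : DifferentiableOn ℂ g (ball (0 : ℂ) 1)) (hinj : InjOn g (ball (0 : ℂ) 1)) (h0 : g 0 = 0)
    (h1 : deriv g 0 = 1) : ‖coef g 2‖ ≤ 2 := by
  have h := norm_deriv2_le hg hinj h0 (by rw [h1]; exact one_ne_zero)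
  rw [Grunsky.coef_eq hg, iteratedDeriv_succ, iteratedDeriv_one, norm_div]
  rw [h1, norm_one, mul_one] at h
  have : ‖((2 : ℕ).factorial : ℂ)‖ = 2 := by simp [Nat.factorial_two]
  rw [this]
  linarith

lemma norm_winv_le (hg : DifferentiableOn ℂ g (ball (0 : ℂ) 1)) (hinj : InjOn g (ball (0 : ℂ) 1)) (h0 : g 0 = 0)
    (h1 : deriv g 0 = 1) (n : ℕ) : ‖winv (coef g) n‖ ≤ 2 := by
  rcases n with _ | _ | n
  · simp [winv]
  · have e : winv (coef g) 1 = -coef g 2 := by simp [winv]
    rw [e, norm_neg]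
    exact norm_coef_two hg hinj h0 h1
  · have h := grunsky_coef hg hinj h0 h1 (m := 1) (fun _ => 1) (n + 1)
    simp only [Fin.sum_univ_one, Fin.val_zero, one_mul, le_refl, if_true, Nat.sub_self, zero_add,
      wpow_one, Nat.cast_zero] at h
    rw [show winv (coef g) 0 = 1 by simp [winv], norm_one, one_pow] at h
    have h2 := Finset.single_le_sum (f := fun l : ℕ => ((l : ℝ) + 1) * ‖winv (coef g) (1 + (l + 1))‖ ^ 2)
      (fun l _ => by positivity) (Finset.self_mem_range_succ n)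
    simp only [show 1 + (n + 1) = n + 1 + 1 by omega] at h2
    nlinarith [norm_nonneg (winv (coef g) (n + 1 + 1)), (Nat.cast_nonneg n : (0 : ℝ) ≤ n)]

lemma geom_bound (n : ℕ) : ∑ i ∈ Finset.range n, 2 * (3 : ℝ) ^ (n + 1 - i) = 3 ^ (n + 2) - 9 := by
  induction n with
  | zero => norm_num
  | succ k ih =>
    rw [Finset.sum_range_succ']
    simp only [Nat.reduceSubDiff, Nat.sub_zero]
    rw [ih]
    ring

/-- The Taylor coefficients of a normalised univalent map grow at most exponentially. -/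
theorem norm_coef_le (hg : DifferentiableOn ℂ g (ball (0 : ℂ) 1)) (hinj : InjOn g (ball (0 : ℂ) 1)) (h0 : g 0 = 0)
    (h1 : deriv g 0 = 1) (n : ℕ) : ‖coef g n‖ ≤ 3 ^ n := by
  induction n using Nat.strong_induction_on with
  | _ n ih =>
    rcases n with _ | _ | k
    · simp [coef_zero, h0]
    · rw [coef_succ, coef_zero, dslope_same, h1]; norm_num
    · have hw : winv (coef g) (k + 1) = -∑ i ∈ Finset.range (k + 1), winv (coef g) i * coef g (k + 2 - i) := by
        rw [winv, Fin.sum_univ_eq_sum_range (fun i => winv (coef g) i * coef g (k + 2 - i))]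
      rw [Finset.sum_range_succ', show winv (coef g) 0 = 1 by simp [winv], one_mul,
        Nat.sub_zero] at hw
      have he : coef g (k + 2) = -winv (coef g) (k + 1)
          - ∑ i ∈ Finset.range k, winv (coef g) (i + 1) * coef g (k + 1 - i) := by
        simp only [show ∀ i, k + 2 - (i + 1) = k + 1 - i by omega] at hw
        rw [hw]; ring
      rw [show k + 1 + 1 = k + 2 from rfl, he]
      refine (norm_sub_le _ _).trans ?_
      have hs : ‖∑ i ∈ Finset.range k, winv (coef g) (i + 1) * coef g (k + 1 - i)‖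
          ≤ ∑ i ∈ Finset.range k, 2 * (3 : ℝ) ^ (k + 1 - i) := by
        refine (norm_sum_le _ _).trans (Finset.sum_le_sum fun i _ => ?_)
        rw [norm_mul]
        exact mul_le_mul (norm_winv_le hg hinj h0 h1 _) (ih _ (by omega)) (norm_nonneg _) (by norm_num)
      rw [geom_bound] at hs
      have := norm_winv_le hg hinj h0 h1 (k + 1)
      rw [norm_neg]
      linarith

end

section

variable (r θ : ℝ)

/-- The disc automorphism carrying `0` to `r * exp (θ * I)`. -/
def mob (u : ℂ) : ℂ := Complex.exp (θ * Complex.I) * (r + u) / (1 + r * u)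

/-- The scale `(1 - r ^ 2) * exp (θ * I)`. -/
def scale : ℂ := ((1 - r ^ 2 : ℝ) : ℂ) * Complex.exp (θ * Complex.I)

/-- The Koebe transform at `r * exp (θ * I)`. -/
def transform (f : ℂ → ℂ) (u : ℂ) : ℂ :=
  (f (mob r θ u) - f (circleMap 0 r θ)) / (scale r θ * deriv f (circleMap 0 r θ))

/-- Taylor coefficients of the Koebe transform in terms of the jets. -/
def kcoef (f : ℂ → ℂ) (n : ℕ) : ℂ :=
  ∑ j ∈ Finset.range n, ((n - 1).choose j : ℂ) * (-(r : ℂ)) ^ (n - 1 - j) * jet f (j + 1) r θ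

variable {r θ}

lemma den_ne (hr : r ∈ Ico (0 : ℝ) 1) {u : ℂ} (hu : u ∈ (ball (0 : ℂ) 1)) : 1 + (r : ℂ) * u ≠ 0 := by
  intro h
  have hun : ‖u‖ < 1 := by simpa using hu
  have h1 : ‖(r : ℂ) * u‖ = 1 := by
    rw [show (r : ℂ) * u = -1 by linear_combination h]; simp
  rw [norm_mul, Complex.norm_real, Real.norm_eq_abs, abs_of_nonneg hr.1] at h1
  nlinarith [norm_nonneg u, hr.1, hr.2]

lemma mob_mem (hr : r ∈ Ico (0 : ℝ) 1) {u : ℂ} (hu : u ∈ (ball (0 : ℂ) 1)) : mob r θ u ∈ (ball (0 : ℂ) 1) := by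
  have hun : ‖u‖ < 1 := by simpa using hu
  have hp : 0 < ‖1 + (r : ℂ) * u‖ := norm_pos_iff.2 (den_ne hr hu)
  simp only [mob, mem_ball, dist_zero_right, norm_div, norm_mul, Complex.norm_exp_ofReal_mul_I,
    one_mul]
  rw [div_lt_one hp]
  refine lt_of_pow_lt_pow_left₀ 2 hp.le ?_
  have e : ‖1 + (r : ℂ) * u‖ ^ 2 - ‖(r : ℂ) + u‖ ^ 2 = (1 - r ^ 2) * (1 - ‖u‖ ^ 2) := by
    simp only [Complex.sq_norm, Complex.normSq_apply, Complex.add_re, Complex.add_im,
      Complex.one_re, Complex.one_im, Complex.mul_re, Complex.mul_im, Complex.ofReal_re,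
      Complex.ofReal_im]
    ring
  nlinarith [mul_pos (by nlinarith [hr.1, hr.2] : 0 < 1 - r ^ 2)
    (by nlinarith [norm_nonneg u] : 0 < 1 - ‖u‖ ^ 2)]

lemma hol_mob (hr : r ∈ Ico (0 : ℝ) 1) : DifferentiableOn ℂ (mob r θ) (ball (0 : ℂ) 1) :=
  DifferentiableOn.fun_div ((differentiableOn_const (r : ℂ)).fun_add differentiableOn_id |>.const_mul _)
    ((differentiableOn_const (1 : ℂ)).fun_add (differentiableOn_id.const_mul _)) fun _ hu => den_ne hr hu

lemma hol_comp {H : ℂ → ℂ} (hr : r ∈ Ico (0 : ℝ) 1) (hH : DifferentiableOn ℂ H (ball (0 : ℂ) 1)) :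
    DifferentiableOn ℂ (fun u => H (mob r θ u)) (ball (0 : ℂ) 1) :=
  hH.comp (hol_mob hr) fun _ hu => mob_mem hr hu

lemma mob_zero : mob r θ 0 = circleMap 0 r θ := by
  simp [mob, circleMap_zero, mul_comm]

lemma mob_inj (hr : r ∈ Ico (0 : ℝ) 1) : InjOn (mob r θ) (ball (0 : ℂ) 1) := by
  intro a ha b hb hab
  rw [mob, mob, div_eq_div_iff (den_ne hr ha) (den_ne hr hb), mul_assoc, mul_assoc,
    mul_right_inj' (Complex.exp_ne_zero _)] at hab
  have h2 : (1 - (r : ℂ) ^ 2) * (a - b) = 0 := by linear_combination hab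
  have h3 : (1 - (r : ℂ) ^ 2) ≠ 0 := by
    exact_mod_cast (by nlinarith [hr.1, hr.2] : (1 : ℝ) - r ^ 2 ≠ 0)
  exact sub_eq_zero.1 ((mul_eq_zero.1 h2).resolve_left h3)

lemma circle_mem (hr : r ∈ Ico (0 : ℝ) 1) : circleMap 0 r θ ∈ (ball (0 : ℂ) 1) := Means.mem_disc hr θ

lemma hol_kernel (hr : r ∈ Ico (0 : ℝ) 1) : DifferentiableOn ℂ (fun u => (1 + (r : ℂ) * u)⁻¹) (ball (0 : ℂ) 1) :=
  ((differentiableOn_const (1 : ℂ)).fun_add (differentiableOn_id.const_mul _)).fun_inv
    fun _ hu => den_ne hr hu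

lemma dslope_kernel (hr : r ∈ Ico (0 : ℝ) 1) :
    EqOn (dslope (fun u => (1 + (r : ℂ) * u)⁻¹) 0) (fun u => -(r : ℂ) * (1 + (r : ℂ) * u)⁻¹) (ball (0 : ℂ) 1) := by
  intro u hu
  rcases eq_or_ne u 0 with rfl | hu0
  · rw [dslope_same]
    have h := (((hasDerivAt_id (0 : ℂ)).const_mul (r : ℂ)).const_add 1).fun_inv (by simp)
    simp only [id] at h
    rw [h.deriv]; simp
  · rw [dslope_of_ne _ hu0, slope_def_field]
    have := den_ne hr hu
    field_simp
    ring

lemma coef_kernel_mul (hr : r ∈ Ico (0 : ℝ) 1) {G : ℂ → ℂ} (hG : DifferentiableOn ℂ G (ball (0 : ℂ) 1)) (n : ℕ) :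
    coef (fun u => (1 + (r : ℂ) * u)⁻¹ * G u) (n + 1)
      = -(r : ℂ) * coef (fun u => (1 + (r : ℂ) * u)⁻¹ * G u) n + coef G (n + 1) := by
  rw [coef_succ, dslope_mul (diffAt_zero (hol_kernel hr)) (diffAt_zero hG),
    coef_add ((hol_dslope0 (hol_kernel hr)).fun_mul hG) ((hol_dslope0 hG).const_mul _),
    coef_const_mul _ (hol_dslope0 hG), ← coef_succ]
  rw [coef_congr (G := fun u => -(r : ℂ) * ((1 + (r : ℂ) * u)⁻¹ * G u))
    ((hol_dslope0 (hol_kernel hr)).fun_mul hG) (fun u hu => by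
      simp only [dslope_kernel hr hu]; ring), coef_const_mul _ ((hol_kernel hr).fun_mul hG)]
  simp

lemma coef_comp_succ (hr : r ∈ Ico (0 : ℝ) 1) {H : ℂ → ℂ} (hH : DifferentiableOn ℂ H (ball (0 : ℂ) 1)) (n : ℕ) :
    coef (fun u => H (mob r θ u)) (n + 1) = scale r θ *
      coef (fun u => (1 + (r : ℂ) * u)⁻¹ * dslope H (circleMap 0 r θ) (mob r θ u)) n := by
  set G : ℂ → ℂ := fun u => (1 + (r : ℂ) * u)⁻¹ * dslope H (circleMap 0 r θ) (mob r θ u)
  have hG : DifferentiableOn ℂ G (ball (0 : ℂ) 1) :=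
    (hol_kernel hr).fun_mul (hol_comp hr (hol_dslope hH (circle_mem hr)))
  have e : EqOn (fun u => H (mob r θ u))
      (fun u => H (circleMap 0 r θ) + u * (scale r θ * G u)) (ball (0 : ℂ) 1) := by
    intro u hu
    have h := sub_smul_dslope H (circleMap 0 r θ) (mob r θ u)
    rw [smul_eq_mul] at h
    have hm : mob r θ u - circleMap 0 r θ = scale r θ * u * (1 + (r : ℂ) * u)⁻¹ := by
      have := den_ne hr hu
      simp only [mob, scale, circleMap_zero]
      push_cast
      field_simp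
      ring
    simp only [G]
    rw [hm] at h
    linear_combination -h
  rw [coef_congr (hol_comp hr hH) e, coef_succ]
  have hd : dslope (fun u => H (circleMap 0 r θ) + u * (scale r θ * G u)) 0
      = fun u => scale r θ * G u := by
    rw [dslope_add (differentiableAt_const _) (differentiableAt_fun_id.fun_mul ((diffAt_zero hG).const_mul _)),
      dslope_mul differentiableAt_fun_id ((diffAt_zero hG).const_mul _)]
    funext u
    rcases eq_or_ne u 0 with rfl | hu
    · simp [dslope_same]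
    · simp [dslope_of_ne _ hu, slope_def_field, hu]
  rw [hd, coef_const_mul _ hG]

lemma coef_comp (hr : r ∈ Ico (0 : ℝ) 1) {H : ℂ → ℂ} (hH : DifferentiableOn ℂ H (ball (0 : ℂ) 1)) (n : ℕ) :
    coef (fun u => H (mob r θ u)) (n + 1) = ∑ j ∈ Finset.range (n + 1),
      (n.choose j : ℂ) * (-(r : ℂ)) ^ (n - j) * scale r θ ^ (j + 1)
        * coefAt (circleMap 0 r θ) H (j + 1) := by
  induction n generalizing H with
  | zero =>
    rw [coef_comp_succ hr hH]
    simp [coef_zero, mob_zero, coefAt, Function.swap]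
  | succ k ih =>
    have hH1 := hol_dslope hH (circle_mem (θ := θ) hr)
    rw [coef_comp_succ hr hH, coef_kernel_mul hr (hol_comp hr hH1), ih hH1, mul_add,
      mul_left_comm, ← coef_comp_succ hr hH, ih hH, Finset.sum_range_succ' _ (k + 1)]
    set a := scale r θ
    set d : ℕ → ℂ := fun j => coefAt (circleMap 0 r θ) H j
    simp only [← coefAt_succ]
    rw [Finset.mul_sum, Finset.mul_sum, Finset.sum_range_succ' _ k]
    have e2 : ∑ j ∈ Finset.range (k + 1), a * ((k.choose j : ℂ) * (-(r : ℂ)) ^ (k - j) * a ^ (j + 1) * d (j + 1 + 1))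
        = ∑ j ∈ Finset.range (k + 1), (k.choose j : ℂ) * (-(r : ℂ)) ^ (k - j) * a ^ (j + 1 + 1) * d (j + 1 + 1) :=
      Finset.sum_congr rfl fun j _ => by ring
    have e3 : ∑ j ∈ Finset.range k, -(r : ℂ) * ((k.choose (j + 1) : ℂ) * (-(r : ℂ)) ^ (k - (j + 1)) * a ^ (j + 1 + 1) * d (j + 1 + 1))
        = ∑ j ∈ Finset.range (k + 1), (k.choose (j + 1) : ℂ) * (-(r : ℂ)) ^ (k - j) * a ^ (j + 1 + 1) * d (j + 1 + 1) := by
      rw [Finset.sum_range_succ _ k, Nat.choose_succ_self, Nat.cast_zero, zero_mul, zero_mul, zero_mul, add_zero]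
      refine Finset.sum_congr rfl fun j hj => ?_
      rw [Finset.mem_range] at hj
      rw [show k - j = k - (j + 1) + 1 by omega, pow_succ]
      ring
    rw [e2, e3]
    simp only [d, Nat.choose_succ_succ, Nat.cast_add, Nat.succ_eq_add_one, Nat.reduceSubDiff,
      Nat.sub_zero, Nat.choose_zero_right, Nat.cast_one, add_mul, Finset.sum_add_distrib]
    ring

variable {f : ℂ → ℂ}

lemma scale_ne (hr : r ∈ Ico (0 : ℝ) 1) : scale r θ ≠ 0 :=
  mul_ne_zero (Complex.ofReal_ne_zero.2 (by nlinarith [hr.1, hr.2])) (Complex.exp_ne_zero _)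

lemma hol_transform (hf : DifferentiableOn ℂ f (ball (0 : ℂ) 1)) (hr : r ∈ Ico (0 : ℝ) 1) :
    DifferentiableOn ℂ (transform r θ f) (ball (0 : ℂ) 1) :=
  ((hol_comp hr hf).fun_sub (differentiableOn_const _)).div_const _

lemma transform_zero : transform r θ f 0 = 0 := by simp [transform, mob_zero]

lemma transform_inj (hd : ∀ z ∈ (ball (0 : ℂ) 1), deriv f z ≠ 0) (hinj : InjOn f (ball (0 : ℂ) 1)) (hr : r ∈ Ico (0 : ℝ) 1) :
    InjOn (transform r θ f) (ball (0 : ℂ) 1) := by
  intro a ha b hb hab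
  simp only [transform] at hab
  rw [div_left_inj' (mul_ne_zero (scale_ne hr) (hd _ (circle_mem hr))), sub_left_inj] at hab
  exact mob_inj hr ha hb (hinj (mob_mem hr ha) (mob_mem hr hb) hab)

lemma coef_transform (hf : DifferentiableOn ℂ f (ball (0 : ℂ) 1)) (hd : ∀ z ∈ (ball (0 : ℂ) 1), deriv f z ≠ 0)
    (hr : r ∈ Ico (0 : ℝ) 1) (n : ℕ) : coef (transform r θ f) n = kcoef r θ f n := by
  rcases n with _ | n
  · simp [coef_zero, transform_zero, kcoef]
  · set c := (scale r θ * deriv f (circleMap 0 r θ))⁻¹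
    have e : EqOn (transform r θ f) (fun u => c * f (mob r θ u) + (-c * f (circleMap 0 r θ))) (ball (0 : ℂ) 1) := by
      intro u _
      simp only [transform, c]; ring
    rw [coef_congr (hol_transform hf hr) e, coef_add ((hol_comp hr hf).const_mul _) (differentiableOn_const _),
      coef_const_mul _ (hol_comp hr hf), coef_const, if_neg (Nat.succ_ne_zero n), add_zero,
      coef_comp hr hf, Finset.mul_sum, kcoef]
    refine Finset.sum_congr rfl fun j _ => ?_
    rw [coefAt_eq (hf.analyticAt (isOpen_ball.mem_nhds (circle_mem hr))), Nat.add_sub_cancel]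
    have h1 := hd _ (circle_mem (θ := θ) hr)
    have h2 := scale_ne (θ := θ) hr
    have h3 : ((j + 1).factorial : ℂ) ≠ 0 := Nat.cast_ne_zero.2 (Nat.factorial_ne_zero _)
    simp only [jet, c, Nat.add_sub_cancel]
    rw [← mul_pow, ← scale]
    field_simp
    ring

lemma deriv_transform (hf : DifferentiableOn ℂ f (ball (0 : ℂ) 1)) (hd : ∀ z ∈ (ball (0 : ℂ) 1), deriv f z ≠ 0)
    (hr : r ∈ Ico (0 : ℝ) 1) : deriv (transform r θ f) 0 = 1 := by
  have h := coef_transform (θ := θ) hf hd hr 1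
  rw [coef_succ, coef_zero, dslope_same] at h
  rw [h]
  simp [kcoef, Means.jet_one hd hr]

/-- Grunsky inequalities for the coefficients of every Koebe transform. -/
theorem grunsky_kcoef (hf : DifferentiableOn ℂ f (ball (0 : ℂ) 1)) (hinj : InjOn f (ball (0 : ℂ) 1)) (hr : r ∈ Ico (0 : ℝ) 1)
    {m : ℕ} (q : Fin m → ℂ) (N : ℕ) :
    ∑ l ∈ Finset.range N, ((l : ℝ) + 1)
        * ‖∑ p : Fin m, q p * wpow (kcoef r θ f) (p + 1) (p + 1 + (l + 1))‖ ^ 2
      ≤ ∑ i : Fin m, ((i : ℕ) + 1 : ℝ)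
        * ‖∑ p : Fin m, if (i : ℕ) ≤ p then q p * wpow (kcoef r θ f) (p + 1) (p - i) else 0‖ ^ 2 := by
  have hd : ∀ z ∈ (ball (0 : ℂ) 1), deriv f z ≠ 0 := fun z hz => deriv_ne_zero_of_injOn isOpen_ball hf hinj hz
  have he : coef (transform r θ f) = kcoef r θ f := funext fun n => coef_transform hf hd hr n
  rw [← he]
  exact grunsky_coef (hol_transform hf hr) (transform_inj hd hinj hr) transform_zero
    (deriv_transform hf hd hr) q N

/-- Uniform bounds for the coefficients of the Koebe transforms. -/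
theorem norm_kcoef_le (hf : DifferentiableOn ℂ f (ball (0 : ℂ) 1)) (hinj : InjOn f (ball (0 : ℂ) 1)) (hr : r ∈ Ico (0 : ℝ) 1)
    (n : ℕ) : ‖kcoef r θ f n‖ ≤ 3 ^ n := by
  have hd : ∀ z ∈ (ball (0 : ℂ) 1), deriv f z ≠ 0 := fun z hz => deriv_ne_zero_of_injOn isOpen_ball hf hinj hz
  rw [← coef_transform hf hd hr]
  exact norm_coef_le (hol_transform hf hr) (transform_inj hd hinj hr) transform_zero
    (deriv_transform hf hd hr) n

end

end Vale.Agent.P142.Koebe
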