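import Mathlib
import Vale.Agent.P142.Koebe

/-!
The evolution of the Koebe coefficients along circles and the passage from a certificate (a quadratic
form in monomials of the coefficients) to a bound on the integral-means exponent at `-2`.
-/

noncomputable section

open Set Filter Metric Function
open scoped Topology ComplexConjugate

namespace Vale.Agent.P142.Dynamics

open Vale.Agent.P142.Koebe (kcoef winv wpow)
open Vale.Agent.P142.Means (jet wt betaExp)

/-- The finite Grunsky inequalities for a coefficient sequence. -/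
def GrunskyIneq (e : ℕ → ℂ) : Prop :=
  ∀ (m : ℕ) (q : Fin m → ℂ) (N : ℕ),
    ∑ l ∈ Finset.range N, ((l : ℝ) + 1)
        * ‖∑ p : Fin m, q p * wpow e (p + 1) (p + 1 + (l + 1))‖ ^ 2
      ≤ ∑ i : Fin m, ((i : ℕ) + 1 : ℝ)
        * ‖∑ p : Fin m, if (i : ℕ) ≤ p then q p * wpow e (p + 1) (p - i) else 0‖ ^ 2

/-- The monomial with the given indices. -/
def mono (e : ℕ → ℂ) : List ℕ → ℂ
  | [] => 1
  | a :: l => e a * mono e l

/-- The derivation sending `e a` to `d a`, on a monomial. -/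
def dmono (d e : ℕ → ℂ) : List ℕ → ℂ
  | [] => 0
  | a :: l => d a * mono e l + e a * dmono d e l

/-- The weight of a monomial. -/
def weight (l : List ℕ) : ℂ := (l.map fun a : ℕ => (a : ℂ) - 1).sum

/-- The derivation `D`. -/
def dD (e : ℕ → ℂ) (a : ℕ) : ℂ := ((a : ℂ) + 1) * e (a + 1) - 2 * e 2 * e a

/-- The derivation `S`. -/
def dS (e : ℕ → ℂ) (a : ℕ) : ℂ := ((a : ℂ) - 1) * e (a - 1)

/-- The angular derivation at radius `r`. -/
def dT (r : ℝ) (e : ℕ → ℂ) (a : ℕ) : ℂ :=
  r * (dD e a + dS e a) + (1 + (r : ℂ) ^ 2) * ((a : ℂ) - 1) * e a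

variable {K : ℕ}

/-- The sesquilinear expression of the certificate. -/
def sesq (M : Fin K → List ℕ) (c : Fin K → Fin K → ℝ) (e : ℕ → ℂ) : ℂ :=
  ∑ a, ∑ b, (c a b : ℂ) * (conj (mono e (M a)) * mono e (M b))

/-- Its derivative along a derivation. -/
def dsesq (M : Fin K → List ℕ) (c : Fin K → Fin K → ℝ) (d e : ℕ → ℂ) : ℂ :=
  ∑ a, ∑ b, (c a b : ℂ) *
    (conj (dmono d e (M a)) * mono e (M b) + conj (mono e (M a)) * dmono d e (M b))

/-- The quadratic form of the certificate. -/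
def form (M : Fin K → List ℕ) (c : Fin K → Fin K → ℝ) (e : ℕ → ℂ) : ℝ := (sesq M c e).re

/-- `(1 - r ^ 2) (W_r + U_θ) - 2 B W`, divided by the weight. -/
def drift (B : ℝ) (M : Fin K → List ℕ) (c : Fin K → Fin K → ℝ) (r : ℝ) (e : ℕ → ℂ) : ℝ :=
  -4 * ((e 2).re + r) * (sesq M c e).re + (dsesq M c (fun a => dD e a - dS e a) e).re
    + 4 * r * (e 2).im * (sesq M c e).im + (dsesq M c (fun a => Complex.I * dT r e a) e).im
    - 2 * B * (sesq M c e).re

lemma dmono_smul (t : ℂ) (d e : ℕ → ℂ) (l : List ℕ) :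
    dmono (fun a => t * d a) e l = t * dmono d e l := by
  induction l with
  | nil => simp [dmono]
  | cons a l ih => simp only [dmono, ih]; ring

lemma dmono_add (d₁ d₂ e : ℕ → ℂ) (l : List ℕ) :
    dmono (fun a => d₁ a + d₂ a) e l = dmono d₁ e l + dmono d₂ e l := by
  induction l with
  | nil => simp [dmono]
  | cons a l ih => simp only [dmono, ih]; ring

lemma dmono_sub (d₁ d₂ e : ℕ → ℂ) (l : List ℕ) :
    dmono (fun a => d₁ a - d₂ a) e l = dmono d₁ e l - dmono d₂ e l := by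
  induction l with
  | nil => simp [dmono]
  | cons a l ih => simp only [dmono, ih]; ring

lemma dmono_weight (e : ℕ → ℂ) (l : List ℕ) :
    dmono (fun a => ((a : ℂ) - 1) * e a) e l = weight l * mono e l := by
  induction l with
  | nil => simp [dmono, weight]
  | cons a l ih =>
    simp only [dmono, ih, weight, mono, List.map_cons, List.sum_cons]
    ring

lemma conj_weight (l : List ℕ) : conj (weight l) = weight l := by
  induction l with
  | nil => simp [weight]
  | cons a l ih =>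
    simp only [weight, List.map_cons, List.sum_cons, map_add, map_sub, map_natCast, map_one] at ih ⊢
    rw [ih]

/-- The drift at `r = 1` in the explicit form used by the certificates. -/
theorem drift_one (B : ℝ) (M : Fin K → List ℕ) (c : Fin K → Fin K → ℝ) (e : ℕ → ℂ) :
    drift B M c 1 e = ∑ a, ∑ b, c a b *
      (conj (mono e (M a)) * (2 * dmono (dD e) e (M b) + (2 * weight (M b) - 4) * mono e (M b)
          - 4 * e 2 * mono e (M b))
        - conj (2 * dmono (dS e) e (M a) + 2 * weight (M a) * mono e (M a)) * mono e (M b)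
        - 2 * (B : ℂ) * (conj (mono e (M a)) * mono e (M b))).re := by
  have hT : ∀ l, dmono (fun a => Complex.I * dT 1 e a) e l = Complex.I
      * (dmono (dD e) e l + dmono (dS e) e l + 2 * (weight l * mono e l)) := by
    intro l
    rw [← dmono_weight e l, dmono_smul, ← dmono_smul 2, ← dmono_add, ← dmono_add]
    congr 2
    funext a
    simp only [dT]
    push_cast
    ring
  simp only [drift, sesq, dsesq, dmono_sub, hT, Complex.re_sum, Complex.im_sum, Finset.mul_sum,
    ← Finset.sum_add_distrib, ← Finset.sum_sub_distrib]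
  refine Finset.sum_congr rfl fun a _ => Finset.sum_congr rfl fun b _ => ?_
  simp only [map_add, map_sub, map_mul, map_ofNat, Complex.conj_I, conj_weight,
    Complex.re_ofReal_mul, Complex.im_ofReal_mul, Complex.add_re, Complex.add_im, Complex.sub_re,
    Complex.sub_im, Complex.mul_re, Complex.mul_im, Complex.I_re, Complex.I_im, Complex.neg_re,
    Complex.neg_im, Complex.re_ofNat, Complex.im_ofNat, Complex.ofReal_re, Complex.ofReal_im]
  have hw : ∀ l : List ℕ, (weight l).im = 0 := fun l => Complex.conj_eq_iff_im.1 (conj_weight l)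
  simp only [hw]
  ring

section

variable {f : ℂ → ℂ}

lemma kcoef_one (hd : ∀ z ∈ ball (0 : ℂ) 1, deriv f z ≠ 0) {r : ℝ} (hr : r ∈ Ico (0 : ℝ) 1) (θ : ℝ) :
    kcoef r θ f 1 = 1 := by
  simp [kcoef, Means.jet_one hd hr]

lemma jet_two (hd : ∀ z ∈ ball (0 : ℂ) 1, deriv f z ≠ 0) {r : ℝ} (hr : r ∈ Ico (0 : ℝ) 1) (θ : ℝ) :
    jet f 2 r θ = kcoef r θ f 2 + r := by
  simp [kcoef, Finset.sum_range_succ, Means.jet_one hd hr]

/-- Radial rule for the Koebe coefficients. -/
lemma kcoef_radial (hf : DifferentiableOn ℂ f (ball 0 1))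
    (hd : ∀ z ∈ ball (0 : ℂ) 1, deriv f z ≠ 0) {n : ℕ} (hn0 : 1 ≤ n) (hn : n ≤ 10) {r : ℝ}
    (hr : r ∈ Ico (0 : ℝ) 1) (θ : ℝ) :
    HasDerivAt (fun s => kcoef s θ f n)
      (((1 - r ^ 2 : ℝ) : ℂ)⁻¹ * (dD (kcoef r θ f) n - dS (kcoef r θ f) n)) r := by
  have hρ : ((1 - r ^ 2 : ℝ) : ℂ) ≠ 0 := Complex.ofReal_ne_zero.2 (by nlinarith [hr.1, hr.2])
  have h := HasDerivAt.fun_sum (u := Finset.range n)
    (A := fun j (s : ℝ) => ((n - 1).choose j : ℂ) * (-(s : ℂ)) ^ (n - 1 - j) * jet f (j + 1) s θ)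
    fun j _ => (((((hasDerivAt_id r).ofReal_comp).fun_neg).fun_pow (n - 1 - j)).const_mul
      ((n - 1).choose j : ℂ)).mul (Means.jet_radial hf hd (Nat.le_add_left 1 j) hr θ)
  refine h.congr_deriv ?_
  simp only [id]
  have h1 := Means.jet_one hd hr θ
  interval_cases n <;>
    simp [kcoef, dD, dS, Finset.sum_range_succ, Nat.choose, h1] <;>
    push_cast at hρ ⊢ <;> field_simp <;> ring

/-- Angular rule for the Koebe coefficients. -/
lemma kcoef_angular (hf : DifferentiableOn ℂ f (ball 0 1))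
    (hd : ∀ z ∈ ball (0 : ℂ) 1, deriv f z ≠ 0) {n : ℕ} (hn0 : 1 ≤ n) (hn : n ≤ 10) {r : ℝ}
    (hr : r ∈ Ico (0 : ℝ) 1) (θ : ℝ) :
    HasDerivAt (fun t => kcoef r t f n)
      (((1 - r ^ 2 : ℝ) : ℂ)⁻¹ * (Complex.I * dT r (kcoef r θ f) n)) θ := by
  have hρ : ((1 - r ^ 2 : ℝ) : ℂ) ≠ 0 := Complex.ofReal_ne_zero.2 (by nlinarith [hr.1, hr.2])
  have h := HasDerivAt.fun_sum (u := Finset.range n)
    (A := fun j t => ((n - 1).choose j : ℂ) * (-(r : ℂ)) ^ (n - 1 - j) * jet f (j + 1) r t)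
    fun j _ => (Means.jet_angular hf hd (Nat.le_add_left 1 j) hr θ).const_mul
      (((n - 1).choose j : ℂ) * (-(r : ℂ)) ^ (n - 1 - j))
  refine h.congr_deriv ?_
  have h1 := Means.jet_one hd hr θ
  interval_cases n <;>
    simp [kcoef, dT, dD, dS, Finset.sum_range_succ, Nat.choose, h1] <;>
    push_cast at hρ ⊢ <;> field_simp <;> ring

lemma hasDerivAt_mono {e : ℝ → ℕ → ℂ} {d : ℕ → ℂ} {x : ℝ} (l : List ℕ)
    (h : ∀ a ∈ l, HasDerivAt (fun s => e s a) (d a) x) :
    HasDerivAt (fun s => mono (e s) l) (dmono d (e x) l) x := by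
  induction l with
  | nil => simpa [mono, dmono] using hasDerivAt_const x (1 : ℂ)
  | cons a l ih =>
    exact (h a (List.mem_cons_self ..)).mul (ih fun b hb => h b (List.mem_cons_of_mem _ hb))

lemma hasDerivAt_sesq {e : ℝ → ℕ → ℂ} {d : ℕ → ℂ} {x : ℝ} (M : Fin K → List ℕ)
    (c : Fin K → Fin K → ℝ) (h : ∀ i, ∀ a ∈ M i, HasDerivAt (fun s => e s a) (d a) x) :
    HasDerivAt (fun s => sesq M c (e s)) (dsesq M c d (e x)) x := by
  refine HasDerivAt.fun_sum fun a _ => HasDerivAt.fun_sum fun b _ => ?_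
  exact (((hasDerivAt_mono (M a) (h a)).star).mul (hasDerivAt_mono (M b) (h b))).const_mul _

lemma hasDerivAt_re {g : ℝ → ℂ} {g' : ℂ} {x : ℝ} (h : HasDerivAt g g' x) :
    HasDerivAt (fun s => (g s).re) g'.re x :=
  Complex.reCLM.hasFDerivAt.comp_hasDerivAt x h

lemma hasDerivAt_im {g : ℝ → ℂ} {g' : ℂ} {x : ℝ} (h : HasDerivAt g g' x) :
    HasDerivAt (fun s => (g s).im) g'.im x :=
  Complex.imCLM.hasFDerivAt.comp_hasDerivAt x h

lemma dsesq_smul (M : Fin K → List ℕ) (c : Fin K → Fin K → ℝ) (t : ℝ) (d e : ℕ → ℂ) :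
    dsesq M c (fun a => (t : ℂ) * d a) e = t * dsesq M c d e := by
  simp only [dsesq, dmono_smul, map_mul, Complex.conj_ofReal, Finset.mul_sum]
  exact Finset.sum_congr rfl fun a _ => Finset.sum_congr rfl fun b _ => by ring

lemma continuous_mono (l : List ℕ) : Continuous fun p : ℝ × (ℕ → ℂ) => mono p.2 l := by
  induction l with
  | nil => exact continuous_const
  | cons a l ih => exact ((continuous_apply a).comp continuous_snd).mul ih

lemma continuous_dmono {d : ℝ × (ℕ → ℂ) → ℕ → ℂ} (hd : ∀ a, Continuous fun p => d p a) (l : List ℕ) :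
    Continuous fun p : ℝ × (ℕ → ℂ) => dmono (d p) p.2 l := by
  induction l with
  | nil => exact continuous_const
  | cons a l ih =>
    exact ((hd a).mul (continuous_mono l)).add (((continuous_apply a).comp continuous_snd).mul ih)

lemma continuous_sesq (M : Fin K → List ℕ) (c : Fin K → Fin K → ℝ) :
    Continuous fun p : ℝ × (ℕ → ℂ) => sesq M c p.2 :=
  continuous_finsetSum _ fun a _ => continuous_finsetSum _ fun b _ =>
    continuous_const.mul ((Complex.continuous_conj.comp (continuous_mono _)).mul (continuous_mono _))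

lemma continuous_dsesq (M : Fin K → List ℕ) (c : Fin K → Fin K → ℝ) {d : ℝ × (ℕ → ℂ) → ℕ → ℂ}
    (hd : ∀ a, Continuous fun p => d p a) :
    Continuous fun p : ℝ × (ℕ → ℂ) => dsesq M c (d p) p.2 :=
  continuous_finsetSum _ fun a _ => continuous_finsetSum _ fun b _ =>
    continuous_const.mul (((Complex.continuous_conj.comp (continuous_dmono hd _)).mul
      (continuous_mono _)).add ((Complex.continuous_conj.comp (continuous_mono _)).mul
      (continuous_dmono hd _)))

lemma continuous_drift (B : ℝ) (M : Fin K → List ℕ) (c : Fin K → Fin K → ℝ) :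
    Continuous fun p : ℝ × (ℕ → ℂ) => drift B M c p.1 p.2 := by
  have hs := continuous_sesq M c
  have h1 := continuous_dsesq M c (d := fun p a => dD p.2 a - dS p.2 a)
    (fun a => by unfold dD dS; fun_prop)
  have h2 := continuous_dsesq M c (d := fun p a => Complex.I * dT p.1 p.2 a)
    (fun a => by unfold dT dD dS; fun_prop)
  have he : Continuous fun p : ℝ × (ℕ → ℂ) => p.2 2 := (continuous_apply 2).comp continuous_snd
  unfold drift
  fun_prop

lemma continuousOn_jet (hf : DifferentiableOn ℂ f (ball 0 1))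
    (hd : ∀ z ∈ ball (0 : ℂ) 1, deriv f z ≠ 0) (j : ℕ) :
    ContinuousOn (fun p : ℝ × ℝ => jet f j p.1 p.2) (Ico (0 : ℝ) 1 ×ˢ univ) := by
  have hm : MapsTo (fun p : ℝ × ℝ => circleMap 0 p.1 p.2) (Ico (0 : ℝ) 1 ×ˢ univ) (ball 0 1) :=
    fun p hp => Means.mem_disc hp.1 p.2
  have hc : Continuous fun p : ℝ × ℝ => circleMap 0 p.1 p.2 := by simp only [circleMap]; fun_prop
  have hi : ContinuousOn (iteratedDeriv j f) (ball 0 1) := fun z hz =>
    (Means.hasDerivAt_iteratedDeriv hf j hz).continuousAt.continuousWithinAt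
  have hdc : ContinuousOn (deriv f) (ball 0 1) := (hf.deriv isOpen_ball).continuousOn
  unfold jet
  exact ((by fun_prop : Continuous fun p : ℝ × ℝ => ((1 - p.1 ^ 2 : ℝ) : ℂ) ^ (j - 1)
      * Complex.exp (p.2 * Complex.I) ^ (j - 1)).continuousOn.mul (hi.comp hc.continuousOn hm)).div
    (continuousOn_const.mul (hdc.comp hc.continuousOn hm))
    fun p hp => mul_ne_zero (Nat.cast_ne_zero.2 j.factorial_ne_zero) (hd _ (hm hp))

lemma continuousOn_kcoef (hf : DifferentiableOn ℂ f (ball 0 1))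
    (hd : ∀ z ∈ ball (0 : ℂ) 1, deriv f z ≠ 0) (n : ℕ) :
    ContinuousOn (fun p : ℝ × ℝ => kcoef p.1 p.2 f n) (Ico (0 : ℝ) 1 ×ˢ univ) :=
  continuousOn_finsetSum _ fun j _ =>
    ((by fun_prop : Continuous fun p : ℝ × ℝ => ((n - 1).choose j : ℂ) * (-(p.1 : ℂ)) ^ (n - 1 - j))
      ).continuousOn.mul (continuousOn_jet hf hd (j + 1))

lemma continuousOn_wt (hf : DifferentiableOn ℂ f (ball 0 1))
    (hd : ∀ z ∈ ball (0 : ℂ) 1, deriv f z ≠ 0) :
    ContinuousOn (fun p : ℝ × ℝ => wt f p.1 p.2) (Ico (0 : ℝ) 1 ×ˢ univ) := by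
  have hm : MapsTo (fun p : ℝ × ℝ => circleMap 0 p.1 p.2) (Ico (0 : ℝ) 1 ×ˢ univ) (ball 0 1) :=
    fun p hp => Means.mem_disc hp.1 p.2
  have hc : Continuous fun p : ℝ × ℝ => circleMap 0 p.1 p.2 := by simp only [circleMap]; fun_prop
  exact ((((hf.deriv isOpen_ball).continuousOn.comp hc.continuousOn hm).inv₀
    fun p hp => hd _ (hm hp)).norm).pow 2

/-- A certificate bounds the integral-means exponent at `-2`. -/
theorem betaExp_le_of_cert (hf : DifferentiableOn ℂ f (ball 0 1)) (hinj : InjOn f (ball 0 1))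
    (h1 : deriv f 0 = 1) {B : ℝ} (hB : 0 ≤ B) (M : Fin K → List ℕ)
    (hM : ∀ i, ∀ a ∈ M i, 1 ≤ a ∧ a ≤ 10) (c : Fin K → Fin K → ℝ) {δ ε : ℝ} (hδ : 0 < δ) (hε : 0 < ε)
    (cert : ∀ e : ℕ → ℂ, e 0 = 0 → e 1 = 1 → GrunskyIneq e →
      δ ≤ form M c e ∧ drift B M c 1 e ≤ -ε) :
    betaExp f (-2) ≤ B := by
  have hd : ∀ z ∈ ball (0 : ℂ) 1, deriv f z ≠ 0 := fun z hz =>
    deriv_ne_zero_of_injOn isOpen_ball hf hinj hz
  set e : ℝ → ℝ → ℕ → ℂ := fun r θ => kcoef r θ f with he
  have hcert : ∀ r ∈ Ico (0 : ℝ) 1, ∀ θ, δ ≤ form M c (e r θ) ∧ drift B M c 1 (e r θ) ≤ -ε :=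
    fun r hr θ => cert _ (by simp [he, kcoef]) (kcoef_one hd hr θ)
      fun m q N => Koebe.grunsky_kcoef hf hinj hr q N
  -- the drift is uniformly continuous in the radius on the compact set of bounded sequences
  set S : Set (ℕ → ℂ) := univ.pi fun n => closedBall (0 : ℂ) (3 ^ n)
  have hS : IsCompact S := isCompact_univ_pi fun n => isCompact_closedBall _ _
  have hev : ∀ᶠ s in 𝓝 (1 : ℝ), ∀ v ∈ S, drift B M c s v - drift B M c 1 v < ε := by
    refine hS.eventually_forall_of_forall_eventually fun v _ => ?_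
    have hc : Continuous fun p : ℝ × (ℕ → ℂ) => drift B M c p.1 p.2 - drift B M c 1 p.2 :=
      (continuous_drift B M c).sub
        ((continuous_drift B M c).comp (continuous_const.prodMk continuous_snd))
    exact (hc.tendsto (1, v)).eventually (Iio_mem_nhds (by simpa using hε))
  obtain ⟨η, hη, hball⟩ := Metric.eventually_nhds_iff.1 hev
  set r₀ : ℝ := max (1 - η) 0
  have hr0 : ∀ r ∈ Ioo r₀ 1, r ∈ Ico (0 : ℝ) 1 := fun r hr =>
    ⟨(le_max_right _ _).trans hr.1.le, hr.2⟩
  have hneg : ∀ r ∈ Ioo r₀ 1, ∀ θ, drift B M c r (e r θ) ≤ 0 := by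
    intro r hr θ
    have hd1 : dist r 1 < η := by
      rw [Real.dist_eq, abs_of_neg (by linarith [hr.2])]
      linarith [le_max_left (1 - η) 0, hr.1]
    have hv : e r θ ∈ S := fun n _ => by
      simpa using Koebe.norm_kcoef_le hf hinj (hr0 r hr) n
    linarith [hball hd1 _ hv, (hcert r (hr0 r hr) θ).2]
  set U : ℝ → ℝ → ℝ := fun r θ => wt f r θ * (sesq M c (e r θ)).im
  set Wr : ℝ → ℝ → ℝ := fun r θ => wt f r θ / (1 - r ^ 2) *
    (-4 * ((e r θ 2).re + r) * (sesq M c (e r θ)).re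
      + (dsesq M c (fun a => dD (e r θ) a - dS (e r θ) a) (e r θ)).re)
  set Uθ : ℝ → ℝ → ℝ := fun r θ => wt f r θ / (1 - r ^ 2) *
    (4 * r * (e r θ 2).im * (sesq M c (e r θ)).im
      + (dsesq M c (fun a => Complex.I * dT r (e r θ) a) (e r θ)).im)
  have hsub : Ioo r₀ 1 ×ˢ (univ : Set ℝ) ⊆ Ico (0 : ℝ) 1 ×ˢ univ := prod_mono hr0 subset_rfl
  have hec : ContinuousOn (fun p : ℝ × ℝ => (p.1, e p.1 p.2)) (Ioo r₀ 1 ×ˢ univ) :=
    continuousOn_fst.prodMk (continuousOn_pi.2 fun n => (continuousOn_kcoef hf hd n).mono hsub)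
  have hwc := ((continuousOn_wt hf hd).mono hsub)
  have hρc : ContinuousOn (fun p : ℝ × ℝ => wt f p.1 p.2 / (1 - p.1 ^ 2)) (Ioo r₀ 1 ×ˢ univ) :=
    hwc.div (by fun_prop) fun p hp => by nlinarith [(hr0 _ hp.1).1, hp.1.2]
  have hFr : Continuous fun q : ℝ × (ℕ → ℂ) => -4 * ((q.2 2).re + q.1) * (sesq M c q.2).re
      + (dsesq M c (fun a => dD q.2 a - dS q.2 a) q.2).re := by
    have := continuous_sesq M c
    have := continuous_dsesq M c (d := fun p a => dD p.2 a - dS p.2 a)
      (fun a => by unfold dD dS; fun_prop)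
    fun_prop
  have hFθ : Continuous fun q : ℝ × (ℕ → ℂ) => 4 * q.1 * (q.2 2).im * (sesq M c q.2).im
      + (dsesq M c (fun a => Complex.I * dT q.1 q.2 a) q.2).im := by
    have := continuous_sesq M c
    have := continuous_dsesq M c (d := fun p a => Complex.I * dT p.1 p.2 a)
      (fun a => by unfold dT dD dS; fun_prop)
    fun_prop
  have hline : ∀ r ∈ Ioo r₀ 1, ∀ {g : ℝ × ℝ → ℝ}, ContinuousOn g (Ioo r₀ 1 ×ˢ univ) →
      Continuous fun θ => g (r, θ) := fun r hr g hg =>
    hg.comp_continuous (f := fun θ => (r, θ)) (by fun_prop) fun θ => ⟨hr, mem_univ θ⟩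
  refine Means.betaExp_le_of_ineq hf hd h1 hB hδ (le_max_right (1 - η) 0)
    (max_lt (by linarith) one_pos) (W := fun r θ => wt f r θ * form M c (e r θ)) (Wr := Wr) (U := U)
    (Uθ := Uθ) ?_ ?_ ?_ ?_ ?_ ?_ ?_ ?_
  · intro r hr θ
    have hr' := hr0 r hr
    have hs := hasDerivAt_re (hasDerivAt_sesq (e := fun s => e s θ) M c fun i a ha =>
      kcoef_radial hf hd (hM i a ha).1 (hM i a ha).2 hr' θ)
    refine ((Means.wt_radial hf hd hr' θ).mul hs).congr_deriv ?_
    rw [← Complex.ofReal_inv, dsesq_smul, Complex.re_ofReal_mul, jet_two hd hr']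
    simp only [Wr, he, Complex.add_re, Complex.ofReal_re]
    ring
  · exact hρc.mul (hFr.comp_continuousOn hec)
  · intro r hr
    exact hline r hr (hwc.mul ((Complex.continuous_re.comp (continuous_sesq M c)).comp_continuousOn hec))
  · intro r hr θ
    have hr' := hr0 r hr
    have hs := hasDerivAt_im (hasDerivAt_sesq (e := fun t => e r t) M c fun i a ha =>
      kcoef_angular hf hd (hM i a ha).1 (hM i a ha).2 hr' θ)
    refine ((Means.wt_angular hf hd hr' θ).mul hs).congr_deriv ?_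
    rw [← Complex.ofReal_inv, dsesq_smul, Complex.im_ofReal_mul, jet_two hd hr']
    simp only [Uθ, he, Complex.add_im, Complex.ofReal_im, add_zero]
    ring
  · intro r hr
    exact hline r hr (hρc.mul (hFθ.comp_continuousOn hec))
  · intro r _
    have hp : circleMap 0 r Real.pi = circleMap 0 r (-Real.pi) := by
      simp [circleMap, Complex.exp_neg, Complex.exp_pi_mul_I]
    have hx : Complex.exp ((Real.pi : ℂ) * Complex.I) = Complex.exp (((-Real.pi : ℝ) : ℂ) * Complex.I) := by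
      simp [Complex.exp_neg, Complex.exp_pi_mul_I]
    simp only [U, he, funext fun n => show kcoef r Real.pi f n = kcoef r (-Real.pi) f n by simp only [kcoef, jet, hp, hx], wt, hp]
  · intro r hr θ
    rw [mul_comm]
    exact mul_le_mul_of_nonneg_left (hcert r (hr0 r hr) θ).1 (sq_nonneg _)
  · intro r hr θ
    have hρ : (1 - r ^ 2 : ℝ) ≠ 0 := by nlinarith [(hr0 r hr).1, hr.2]
    have key : (1 - r ^ 2) * (Wr r θ + Uθ r θ) - 2 * B * (wt f r θ * form M c (e r θ))
        = wt f r θ * drift B M c r (e r θ) := by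
      simp only [Wr, Uθ, drift, form]
      field_simp
      ring
    have := mul_nonpos_of_nonneg_of_nonpos (sq_nonneg ‖(deriv f (circleMap 0 r θ))⁻¹‖) (hneg r hr θ)
    rw [← wt, ← key] at this
    linarith

end

end Vale.Agent.P142.Dynamics
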