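import Vale.Agent.P142.JetsDefs
import Vale.Agent.P142.AreaPoly
import Vale.Agent.P142.Distortion

/-!
The disc automorphism transform, its expansion in the scaled jets, and the Grunsky inequalities
that follow from the area theorem.
-/

noncomputable section

open Set Filter Metric Function
open scoped Topology ComplexConjugate

namespace Vale.Agent.P142

/-- A truncation of `(1 + ρ t) ^ (-n)`. -/
def upoly (n : ℕ) (ρ t : ℂ) : ℂ :=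
  match n with
  | 1 => ((1 : ℂ) + (-1 : ℂ) * ρ ^ 1 * t ^ 1 + (1 : ℂ) * ρ ^ 2 * t ^ 2 + (-1 : ℂ) * ρ ^ 3 * t ^ 3 + (1 : ℂ) * ρ ^ 4 * t ^ 4 + (-1 : ℂ) * ρ ^ 5 * t ^ 5 + (1 : ℂ) * ρ ^ 6 * t ^ 6)
  | 2 => ((1 : ℂ) + (-2 : ℂ) * ρ ^ 1 * t ^ 1 + (3 : ℂ) * ρ ^ 2 * t ^ 2 + (-4 : ℂ) * ρ ^ 3 * t ^ 3 + (5 : ℂ) * ρ ^ 4 * t ^ 4 + (-6 : ℂ) * ρ ^ 5 * t ^ 5)
  | 3 => ((1 : ℂ) + (-3 : ℂ) * ρ ^ 1 * t ^ 1 + (6 : ℂ) * ρ ^ 2 * t ^ 2 + (-10 : ℂ) * ρ ^ 3 * t ^ 3 + (15 : ℂ) * ρ ^ 4 * t ^ 4)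
  | 4 => ((1 : ℂ) + (-4 : ℂ) * ρ ^ 1 * t ^ 1 + (10 : ℂ) * ρ ^ 2 * t ^ 2 + (-20 : ℂ) * ρ ^ 3 * t ^ 3)
  | 5 => ((1 : ℂ) + (-5 : ℂ) * ρ ^ 1 * t ^ 1 + (15 : ℂ) * ρ ^ 2 * t ^ 2)
  | 6 => ((1 : ℂ) + (-6 : ℂ) * ρ ^ 1 * t ^ 1)
  | 7 => ((1 : ℂ))
  | _ => 0

/-- The remainders belonging to `upoly`. -/
def qpoly (n : ℕ) (ρ t : ℂ) : ℂ :=
  match n with
  | 1 => ((1 : ℂ) * ρ ^ 7)
  | 2 => ((-7 : ℂ) * ρ ^ 6 + (-6 : ℂ) * ρ ^ 7 * t ^ 1)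
  | 3 => ((21 : ℂ) * ρ ^ 5 + (35 : ℂ) * ρ ^ 6 * t ^ 1 + (15 : ℂ) * ρ ^ 7 * t ^ 2)
  | 4 => ((-35 : ℂ) * ρ ^ 4 + (-84 : ℂ) * ρ ^ 5 * t ^ 1 + (-70 : ℂ) * ρ ^ 6 * t ^ 2 + (-20 : ℂ) * ρ ^ 7 * t ^ 3)
  | 5 => ((35 : ℂ) * ρ ^ 3 + (105 : ℂ) * ρ ^ 4 * t ^ 1 + (126 : ℂ) * ρ ^ 5 * t ^ 2 + (70 : ℂ) * ρ ^ 6 * t ^ 3 + (15 : ℂ) * ρ ^ 7 * t ^ 4)
  | 6 => ((-21 : ℂ) * ρ ^ 2 + (-70 : ℂ) * ρ ^ 3 * t ^ 1 + (-105 : ℂ) * ρ ^ 4 * t ^ 2 + (-84 : ℂ) * ρ ^ 5 * t ^ 3 + (-35 : ℂ) * ρ ^ 6 * t ^ 4 + (-6 : ℂ) * ρ ^ 7 * t ^ 5)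
  | 7 => ((7 : ℂ) * ρ ^ 1 + (21 : ℂ) * ρ ^ 2 * t ^ 1 + (35 : ℂ) * ρ ^ 3 * t ^ 2 + (35 : ℂ) * ρ ^ 4 * t ^ 3 + (21 : ℂ) * ρ ^ 5 * t ^ 4 + (7 : ℂ) * ρ ^ 6 * t ^ 5 + (1 : ℂ) * ρ ^ 7 * t ^ 6)
  | _ => 0

/-- Truncated expansion with coefficients `aC`. -/
def aPoly (ρ : ℂ) (A : ℕ → ℂ) (t : ℂ) : ℂ := 1 + aC1 ρ A * t ^ 1 + aC2 ρ A * t ^ 2 + aC3 ρ A * t ^ 3 + aC4 ρ A * t ^ 4 + aC5 ρ A * t ^ 5 + aC6 ρ A * t ^ 6

/-- Truncated expansion of the reciprocal. -/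
def iPoly (ρ : ℂ) (A : ℕ → ℂ) (t : ℂ) : ℂ := 1 + iC1 ρ A * t ^ 1 + iC2 ρ A * t ^ 2 + iC3 ρ A * t ^ 3 + iC4 ρ A * t ^ 4 + iC5 ρ A * t ^ 5 + iC6 ρ A * t ^ 6

/-- Truncated expansion of the squared reciprocal. -/
def jPoly (ρ : ℂ) (A : ℕ → ℂ) (t : ℂ) : ℂ := 1 + jC1 ρ A * t ^ 1 + jC2 ρ A * t ^ 2 + jC3 ρ A * t ^ 3 + jC4 ρ A * t ^ 4 + jC5 ρ A * t ^ 5 + jC6 ρ A * t ^ 6

/-- Truncated expansion of the cubed reciprocal. -/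
def kPoly (ρ : ℂ) (A : ℕ → ℂ) (t : ℂ) : ℂ := 1 + kC1 ρ A * t ^ 1 + kC2 ρ A * t ^ 2 + kC3 ρ A * t ^ 3 + kC4 ρ A * t ^ 4 + kC5 ρ A * t ^ 5 + kC6 ρ A * t ^ 6

/-- The scaled jets of `f` at `z`. -/
def sjet (f : ℂ → ℂ) (z : ℂ) (k : ℕ) : ℂ :=
  (((1 - ‖z‖ ^ 2 : ℝ) : ℂ) * z) ^ k *
    (iteratedDeriv (k + 1) f z / ((k + 1).factorial * deriv f z))

lemma upoly_spec (ρ t : ℂ) (n : Fin 7) :
    (1 + ρ * t) ^ ((n : ℕ) + 1) * upoly (n + 1) ρ t =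
      1 + t ^ (7 - (n : ℕ)) * qpoly (n + 1) ρ t := by
  fin_cases n <;> simp only [upoly, qpoly] <;> ring

lemma ipoly_spec (ρ : ℂ) (A : ℕ → ℂ) (t : ℂ) :
    aPoly ρ A t * iPoly ρ A t = 1 + t ^ 7 * ((aC1 ρ A * iC6 ρ A + aC2 ρ A * iC5 ρ A + aC3 ρ A * iC4 ρ A + aC4 ρ A * iC3 ρ A + aC5 ρ A * iC2 ρ A + aC6 ρ A * iC1 ρ A) * t ^ 0 + (aC2 ρ A * iC6 ρ A + aC3 ρ A * iC5 ρ A + aC4 ρ A * iC4 ρ A + aC5 ρ A * iC3 ρ A + aC6 ρ A * iC2 ρ A) * t ^ 1 + (aC3 ρ A * iC6 ρ A + aC4 ρ A * iC5 ρ A + aC5 ρ A * iC4 ρ A + aC6 ρ A * iC3 ρ A) * t ^ 2 + (aC4 ρ A * iC6 ρ A + aC5 ρ A * iC5 ρ A + aC6 ρ A * iC4 ρ A) * t ^ 3 + (aC5 ρ A * iC6 ρ A + aC6 ρ A * iC5 ρ A) * t ^ 4 + (aC6 ρ A * iC6 ρ A) * t ^ 5) := by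
  have r1 : iC1 ρ A + (aC1 ρ A) = 0 := by rw [iC1]; ring
  have r2 : iC2 ρ A + (aC1 ρ A * iC1 ρ A + aC2 ρ A) = 0 := by rw [iC2]; ring
  have r3 : iC3 ρ A + (aC1 ρ A * iC2 ρ A + aC2 ρ A * iC1 ρ A + aC3 ρ A) = 0 := by rw [iC3]; ring
  have r4 : iC4 ρ A + (aC1 ρ A * iC3 ρ A + aC2 ρ A * iC2 ρ A + aC3 ρ A * iC1 ρ A + aC4 ρ A) = 0 := by rw [iC4]; ring
  have r5 : iC5 ρ A + (aC1 ρ A * iC4 ρ A + aC2 ρ A * iC3 ρ A + aC3 ρ A * iC2 ρ A + aC4 ρ A * iC1 ρ A + aC5 ρ A) = 0 := by rw [iC5]; ring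
  have r6 : iC6 ρ A + (aC1 ρ A * iC5 ρ A + aC2 ρ A * iC4 ρ A + aC3 ρ A * iC3 ρ A + aC4 ρ A * iC2 ρ A + aC5 ρ A * iC1 ρ A + aC6 ρ A) = 0 := by rw [iC6]; ring
  unfold aPoly iPoly
  linear_combination t * r1 + t ^ 2 * r2 + t ^ 3 * r3 + t ^ 4 * r4 + t ^ 5 * r5 + t ^ 6 * r6

lemma jpoly_spec (ρ : ℂ) (A : ℕ → ℂ) (t : ℂ) :
    iPoly ρ A t * iPoly ρ A t = jPoly ρ A t + t ^ 7 * ((iC1 ρ A * iC6 ρ A + iC2 ρ A * iC5 ρ A + iC3 ρ A * iC4 ρ A + iC4 ρ A * iC3 ρ A + iC5 ρ A * iC2 ρ A + iC6 ρ A * iC1 ρ A) * t ^ 0 + (iC2 ρ A * iC6 ρ A + iC3 ρ A * iC5 ρ A + iC4 ρ A * iC4 ρ A + iC5 ρ A * iC3 ρ A + iC6 ρ A * iC2 ρ A) * t ^ 1 + (iC3 ρ A * iC6 ρ A + iC4 ρ A * iC5 ρ A + iC5 ρ A * iC4 ρ A + iC6 ρ A * iC3 ρ A) * t ^ 2 + (iC4 ρ A * iC6 ρ A + iC5 ρ A * iC5 ρ A + iC6 ρ A * iC4 ρ A) * t ^ 3 + (iC5 ρ A * iC6 ρ A + iC6 ρ A * iC5 ρ A)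 * t ^ 4 + (iC6 ρ A * iC6 ρ A) * t ^ 5) := by
  unfold iPoly jPoly
  simp only [jC6, jC5, jC4, jC3, jC2, jC1]
  ring

lemma kpoly_spec (ρ : ℂ) (A : ℕ → ℂ) (t : ℂ) :
    iPoly ρ A t * jPoly ρ A t = kPoly ρ A t + t ^ 7 * ((iC1 ρ A * jC6 ρ A + iC2 ρ A * jC5 ρ A + iC3 ρ A * jC4 ρ A + iC4 ρ A * jC3 ρ A + iC5 ρ A * jC2 ρ A + iC6 ρ A * jC1 ρ A) * t ^ 0 + (iC2 ρ A * jC6 ρ A + iC3 ρ A * jC5 ρ A + iC4 ρ A * jC4 ρ A + iC5 ρ A * jC3 ρ A + iC6 ρ A * jC2 ρ A) * t ^ 1 + (iC3 ρ A * jC6 ρ A + iC4 ρ A * jC5 ρ A + iC5 ρ A * jC4 ρ A + iC6 ρ A * jC3 ρ A) * t ^ 2 + (iC4 ρ A * jC6 ρ A + iC5 ρ A * jC5 ρ A + iC6 ρ A * jC4 ρ A) * t ^ 3 + (iC5 ρ A * jC6 ρ A + iC6 ρ A * jC5 ρ A) * t ^ 4 + (iC6 ρ A * jC6 ρ A) * t ^ 5) := by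
  unfold iPoly jPoly kPoly
  simp only [kC6, kC5, kC4, kC3, kC2, kC1]
  ring

/-- Taylor's formula with an analytic remainder. -/
theorem taylor_remainder {f : ℂ → ℂ} (hf : DifferentiableOn ℂ f (ball 0 1)) {z : ℂ}
    (hz : z ∈ ball (0 : ℂ) 1) : ∀ N : ℕ, ∃ R : ℂ → ℂ, DifferentiableOn ℂ R (ball 0 1) ∧
      R = (swap dslope z)^[N] f ∧
      ∀ w ∈ ball (0 : ℂ) 1, f w =
        (∑ n ∈ Finset.range N, iteratedDeriv n f z / n.factorial * (w - z) ^ n) +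
          (w - z) ^ N * R w
  | 0 => ⟨f, hf, rfl, fun w _ => by simp⟩
  | N + 1 => by
    obtain ⟨R, hR, hRdef, hexp⟩ := taylor_remainder hf hz N
    refine ⟨dslope R z, (Complex.differentiableOn_dslope (isOpen_ball.mem_nhds hz)).2 hR, ?_,
      fun w hw => ?_⟩
    · rw [Function.iterate_succ_apply', ← hRdef]
    · have hp := (hf.analyticAt (isOpen_ball.mem_nhds hz)).hasFPowerSeriesAt
      have hc := (HasFPowerSeriesAt.has_fpower_series_iterate_dslope_fslope N hp).coeff_zero 1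
      rw [← FormalMultilinearSeries.coeff, FormalMultilinearSeries.coeff_iterate_fslope,
        zero_add, FormalMultilinearSeries.coeff_ofScalars, ← hRdef] at hc
      have hs := sub_smul_dslope R z w
      rw [smul_eq_mul] at hs
      rw [hexp w hw, Finset.sum_range_succ, hc, pow_succ]
      linear_combination -(w - z) ^ N * hs

/-- The transformed map with its expansion. -/
theorem transform_exists {f : ℂ → ℂ} (hf : DifferentiableOn ℂ f (ball 0 1))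
    (hinj : InjOn f (ball 0 1)) {z : ℂ} (hz : z ∈ ball (0 : ℂ) 1) (hz0 : z ≠ 0) :
    ∃ G RE : ℂ → ℂ, DifferentiableOn ℂ G (ball 0 1) ∧ InjOn G (ball 0 1) ∧ G 0 = 0 ∧
      DifferentiableOn ℂ RE (ball 0 1) ∧ ∀ t ∈ ball (0 : ℂ) 1,
        G t = t * (aPoly ((‖z‖ ^ 2 : ℝ) : ℂ) (sjet f z) t + t ^ 7 * RE t) := by
  have hzn : ‖z‖ < 1 := by simpa using hz
  have hd : deriv f z ≠ 0 := deriv_ne_zero_of_injOn isOpen_ball hf hinj hz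
  set ρ : ℂ := ((‖z‖ ^ 2 : ℝ) : ℂ) with hρ
  set s : ℂ := ((1 - ‖z‖ ^ 2 : ℝ) : ℂ) with hs
  have hs0 : s ≠ 0 := Complex.ofReal_ne_zero.2 (by nlinarith [norm_nonneg z])
  have hzc : z * conj z = ρ := by rw [Complex.mul_conj, Complex.normSq_eq_norm_sq]
  have hden : ∀ t ∈ ball (0 : ℂ) 1, 1 + ρ * t ≠ 0 := by
    intro t ht h
    have htn : ‖t‖ < 1 := by simpa using ht
    have h1 : ‖ρ * t‖ = 1 := by rw [show ρ * t = -1 by linear_combination h]; simp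
    rw [norm_mul, hρ, Complex.norm_real, Real.norm_eq_abs, abs_of_nonneg (sq_nonneg _)] at h1
    have : ‖z‖ ^ 2 ≤ 1 := by nlinarith [norm_nonneg z]
    nlinarith [norm_nonneg t]
  set M : ℂ → ℂ := fun t => z + s * z * t / (1 + ρ * t) with hM
  have hMmem : ∀ t ∈ ball (0 : ℂ) 1, M t ∈ ball (0 : ℂ) 1 := by
    intro t ht
    have htn : ‖t‖ < 1 := by simpa using ht
    have e : M t = (z * t + z) / (1 + ρ * t) := by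
      simp only [M]
      rw [eq_div_iff (hden t ht), add_mul, div_mul_cancel₀ _ (hden t ht), hs, hρ]
      push_cast
      ring
    rw [e, mem_ball, dist_zero_right, norm_div, div_lt_one (norm_pos_iff.2 (hden t ht))]
    refine lt_of_pow_lt_pow_left₀ 2 (norm_nonneg _) ?_
    have e2 : ‖1 + ρ * t‖ ^ 2 - ‖z * t + z‖ ^ 2 =
        (1 - ‖z‖ ^ 2) * (1 - ‖z‖ ^ 2 * ‖t‖ ^ 2) := by
      simp only [hρ, Complex.sq_norm, Complex.normSq_apply, Complex.add_re, Complex.add_im,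
        Complex.one_re, Complex.one_im, Complex.mul_re, Complex.mul_im, Complex.ofReal_re,
        Complex.ofReal_im]
      ring
    have h1 : ‖z‖ ^ 2 < 1 := by nlinarith [norm_nonneg z]
    have h2 : ‖t‖ ^ 2 ≤ 1 := by nlinarith [norm_nonneg t]
    have h3 : ‖z‖ ^ 2 * ‖t‖ ^ 2 < 1 :=
      lt_of_le_of_lt (mul_le_of_le_one_right (sq_nonneg _) h2) h1
    nlinarith [mul_pos (sub_pos.2 h1) (sub_pos.2 h3)]
  have hMd : DifferentiableOn ℂ M (ball 0 1) :=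
    (differentiableOn_const z).add (((differentiableOn_const (s * z)).mul differentiableOn_id).div
      ((differentiableOn_const (1 : ℂ)).add ((differentiableOn_const ρ).mul differentiableOn_id))
      hden)
  have hMinj : InjOn M (ball 0 1) := by
    intro a ha b hb hab
    simp only [M, add_right_inj, div_eq_div_iff (hden a ha) (hden b hb)] at hab
    have : s * z * (a - b) = 0 := by linear_combination hab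
    exact sub_eq_zero.1 ((mul_eq_zero.1 this).resolve_left (mul_ne_zero hs0 hz0))
  obtain ⟨R, hR, -, hexp⟩ := taylor_remainder hf hz 8
  set A := sjet f z with hA
  set RE : ℂ → ℂ := fun t =>
    -(∑ n : Fin 7, A n * qpoly (n + 1) ρ t / (1 + ρ * t) ^ ((n : ℕ) + 1)) +
      (s * z) ^ 7 * R (M t) / ((1 + ρ * t) ^ 8 * deriv f z) with hRE
  refine ⟨fun t => (f (M t) - f z) / (s * z * deriv f z), RE, ?_, ?_, ?_, ?_, ?_⟩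
  · exact ((hf.comp hMd hMmem).sub_const _).div_const _
  · intro a ha b hb hab
    refine hMinj ha hb (hinj (hMmem a ha) (hMmem b hb) ?_)
    simpa [div_left_inj' (mul_ne_zero (mul_ne_zero hs0 hz0) hd), sub_left_inj] using hab
  · simp [M]
  · have hlin : DifferentiableOn ℂ (fun t => 1 + ρ * t) (ball 0 1) :=
      (differentiableOn_const (1 : ℂ)).add ((differentiableOn_const ρ).mul differentiableOn_id)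
    have hq : ∀ n : Fin 7, DifferentiableOn ℂ (fun t => qpoly (n + 1) ρ t) (ball 0 1) := by
      intro n
      refine Differentiable.differentiableOn ?_
      fin_cases n <;> simp only [qpoly] <;> fun_prop
    refine DifferentiableOn.add (DifferentiableOn.neg (DifferentiableOn.fun_sum fun n _ => ?_)) ?_
    · exact ((hq n).const_mul _).div (hlin.pow _) fun t ht => pow_ne_zero _ (hden t ht)
    · exact ((hR.comp hMd hMmem).const_mul _).div ((hlin.pow 8).mul_const _)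
        fun t ht => mul_ne_zero (pow_ne_zero _ (hden t ht)) hd
  intro t ht
  have hD := hden t ht
  have hsub : f (M t) - f z = s * z * deriv f z * (∑ n : Fin 7,
      A n * (t / (1 + ρ * t)) ^ ((n : ℕ) + 1)) + (s * z * t / (1 + ρ * t)) ^ 8 * R (M t) := by
    have hMz : M t - z = s * z * t / (1 + ρ * t) := by simp [M]
    rw [hexp _ (hMmem t ht), hMz, Finset.sum_range_succ' _ 7, Finset.mul_sum,
      Finset.sum_range (fun k => iteratedDeriv (k + 1) f z / (k + 1).factorial *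
        (s * z * t / (1 + ρ * t)) ^ (k + 1))]
    simp only [pow_zero, Nat.factorial_zero, Nat.cast_one, div_one, mul_one, iteratedDeriv_zero]
    rw [show ∀ a b c : ℂ, a + f z + c - f z = a + c from fun a b c => by ring]
    · congr 1
      refine Finset.sum_congr rfl fun n _ => ?_
      simp only [hA, sjet, ← hs]
      have hfac : (((n : ℕ) + 1).factorial : ℂ) ≠ 0 := Nat.cast_ne_zero.2 (Nat.factorial_ne_zero _)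
      field_simp
      ring
    · exact 0
  have hterm : ∀ n : Fin 7, (t / (1 + ρ * t)) ^ ((n : ℕ) + 1) =
      t * (t ^ (n : ℕ) * upoly (n + 1) ρ t -
        t ^ 7 * (qpoly (n + 1) ρ t / (1 + ρ * t) ^ ((n : ℕ) + 1))) := by
    intro n
    have hu := upoly_spec ρ t n
    have h7 : t ^ (n : ℕ) * t ^ (7 - (n : ℕ)) = t ^ 7 := by rw [← pow_add]; congr 1; omega
    rw [div_pow, div_eq_iff (pow_ne_zero _ hD), mul_assoc, sub_mul, mul_assoc (t ^ 7),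
      div_mul_cancel₀ _ (pow_ne_zero _ hD)]
    linear_combination t * (-(t ^ (n : ℕ)) * hu - qpoly (n + 1) ρ t * h7)
  have hpoly : ∑ n : Fin 7, A n * (t ^ (n : ℕ) * upoly (n + 1) ρ t) = aPoly ρ A t := by
    have hA0 : A 0 = 1 := by simp [hA, sjet, iteratedDeriv_one, hd]
    rw [Fin.sum_univ_seven]
    simp only [upoly, aPoly, aC6, aC5, aC4, aC3, aC2, aC1]
    simp [hA0]
    ring
  show (f (M t) - f z) / (s * z * deriv f z) = t * (aPoly ρ A t + t ^ 7 * RE t)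
  have hS : ∑ n : Fin 7, A n * (t / (1 + ρ * t)) ^ ((n : ℕ) + 1) = t * aPoly ρ A t -
      t * (t ^ 7 * ∑ n : Fin 7, A n * qpoly (n + 1) ρ t / (1 + ρ * t) ^ ((n : ℕ) + 1)) := by
    rw [← hpoly, Finset.mul_sum, Finset.mul_sum, Finset.mul_sum, ← Finset.sum_sub_distrib]
    refine Finset.sum_congr rfl fun n _ => ?_
    rw [hterm n]
    ring
  have e : (s * z * t / (1 + ρ * t)) ^ 8 * R (M t) =
      t * (t ^ 7 * ((s * z) ^ 7 * R (M t) / ((1 + ρ * t) ^ 8 * deriv f z))) *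
        (s * z * deriv f z) := by
    rw [div_pow]
    field_simp
  rw [div_eq_iff (mul_ne_zero (mul_ne_zero hs0 hz0) hd), hsub, hS, e]
  simp only [RE]
  ring

/-- Expansions of the powers of the reciprocal of the transform. -/
theorem recip_exists {f : ℂ → ℂ} (hf : DifferentiableOn ℂ f (ball 0 1))
    (hinj : InjOn f (ball 0 1)) {z : ℂ} (hz : z ∈ ball (0 : ℂ) 1) (hz0 : z ≠ 0) :
    ∃ G R1 R2 R3 : ℂ → ℂ, DifferentiableOn ℂ G (ball 0 1) ∧ InjOn G (ball 0 1) ∧ G 0 = 0 ∧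
      (∀ w ∈ ball (0 : ℂ) 1, deriv G w ≠ 0) ∧ DifferentiableOn ℂ R1 (ball 0 1) ∧
      DifferentiableOn ℂ R2 (ball 0 1) ∧ DifferentiableOn ℂ R3 (ball 0 1) ∧
      ∀ t ∈ ball (0 : ℂ) 1 \ {0},
        (G t)⁻¹ = t⁻¹ * (iPoly ((‖z‖ ^ 2 : ℝ) : ℂ) (sjet f z) t + t ^ 7 * R1 t) ∧
        (G t)⁻¹ ^ 2 = t⁻¹ ^ 2 * (jPoly ((‖z‖ ^ 2 : ℝ) : ℂ) (sjet f z) t + t ^ 7 * R2 t) ∧
        (G t)⁻¹ ^ 3 = t⁻¹ ^ 3 * (kPoly ((‖z‖ ^ 2 : ℝ) : ℂ) (sjet f z) t + t ^ 7 * R3 t) := by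
  obtain ⟨G, RE, hG, hGi, hG0, hRE, hexp⟩ := transform_exists hf hinj hz hz0
  set ρ : ℂ := ((‖z‖ ^ 2 : ℝ) : ℂ)
  set A := sjet f z
  set E : ℂ → ℂ := fun t => aPoly ρ A t + t ^ 7 * RE t with hEdef
  have hm0 : (0 : ℂ) ∈ ball (0 : ℂ) 1 := by simp
  have hE0 : ∀ t ∈ ball (0 : ℂ) 1, E t ≠ 0 := by
    intro t ht h
    rcases eq_or_ne t 0 with rfl | h0
    · simp [E, aPoly] at h
    · exact h0 (hGi ht hm0 (by rw [hexp t ht, show aPoly ρ A t + t ^ 7 * RE t = 0 from h, hG0]; simp))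
  set Q1 : ℂ → ℂ := fun t => (aC1 ρ A * iC6 ρ A + aC2 ρ A * iC5 ρ A + aC3 ρ A * iC4 ρ A + aC4 ρ A * iC3 ρ A + aC5 ρ A * iC2 ρ A + aC6 ρ A * iC1 ρ A) * t ^ 0 + (aC2 ρ A * iC6 ρ A + aC3 ρ A * iC5 ρ A + aC4 ρ A * iC4 ρ A + aC5 ρ A * iC3 ρ A + aC6 ρ A * iC2 ρ A) * t ^ 1 + (aC3 ρ A * iC6 ρ A + aC4 ρ A * iC5 ρ A + aC5 ρ A * iC4 ρ A + aC6 ρ A * iC3 ρ A) * t ^ 2 + (aC4 ρ A * iC6 ρ A + aC5 ρ A * iC5 ρ A + aC6 ρ A * iC4 ρ A) * t ^ 3 + (aC5 ρ A * iC6 ρ A + aC6 ρ A * iC5 ρ A) * t ^ 4 + (aC6 ρ A * iC6 ρ A) * t ^ 5 with hQ1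
  set Q2 : ℂ → ℂ := fun t => (iC1 ρ A * iC6 ρ A + iC2 ρ A * iC5 ρ A + iC3 ρ A * iC4 ρ A + iC4 ρ A * iC3 ρ A + iC5 ρ A * iC2 ρ A + iC6 ρ A * iC1 ρ A) * t ^ 0 + (iC2 ρ A * iC6 ρ A + iC3 ρ A * iC5 ρ A + iC4 ρ A * iC4 ρ A + iC5 ρ A * iC3 ρ A + iC6 ρ A * iC2 ρ A) * t ^ 1 + (iC3 ρ A * iC6 ρ A + iC4 ρ A * iC5 ρ A + iC5 ρ A * iC4 ρ A + iC6 ρ A * iC3 ρ A) * t ^ 2 + (iC4 ρ A * iC6 ρ A + iC5 ρ A * iC5 ρ A + iC6 ρ A * iC4 ρ A) * t ^ 3 + (iC5 ρ A * iC6 ρ A + iC6 ρ A * iC5 ρ A) * t ^ 4 + (iC6 ρ A * iC6 ρ A) * t ^ 5 with hQ2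
  set Q3 : ℂ → ℂ := fun t => (iC1 ρ A * jC6 ρ A + iC2 ρ A * jC5 ρ A + iC3 ρ A * jC4 ρ A + iC4 ρ A * jC3 ρ A + iC5 ρ A * jC2 ρ A + iC6 ρ A * jC1 ρ A) * t ^ 0 + (iC2 ρ A * jC6 ρ A + iC3 ρ A * jC5 ρ A + iC4 ρ A * jC4 ρ A + iC5 ρ A * jC3 ρ A + iC6 ρ A * jC2 ρ A) * t ^ 1 + (iC3 ρ A * jC6 ρ A + iC4 ρ A * jC5 ρ A + iC5 ρ A * jC4 ρ A + iC6 ρ A * jC3 ρ A) * t ^ 2 + (iC4 ρ A * jC6 ρ A + iC5 ρ A * jC5 ρ A + iC6 ρ A * jC4 ρ A) * t ^ 3 + (iC5 ρ A * jC6 ρ A + iC6 ρ A * jC5 ρ A) * t ^ 4 + (iC6 ρ A * jC6 ρ A) * t ^ 5 with hQ3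
  set R1 : ℂ → ℂ := fun t => -(Q1 t + RE t * iPoly ρ A t) / E t with hR1
  set R2 : ℂ → ℂ := fun t => Q2 t + 2 * iPoly ρ A t * R1 t + t ^ 7 * R1 t ^ 2 with hR2
  set R3 : ℂ → ℂ := fun t =>
    Q3 t + jPoly ρ A t * R1 t + iPoly ρ A t * R2 t + t ^ 7 * R1 t * R2 t with hR3
  have hi : DifferentiableOn ℂ (iPoly ρ A) (ball 0 1) :=
    Differentiable.differentiableOn (by unfold iPoly; fun_prop)
  have hj : DifferentiableOn ℂ (jPoly ρ A) (ball 0 1) :=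
    Differentiable.differentiableOn (by unfold jPoly; fun_prop)
  have hE : DifferentiableOn ℂ E (ball 0 1) :=
    (Differentiable.differentiableOn (f := aPoly ρ A) (by unfold aPoly; fun_prop)).add
      ((differentiableOn_id.pow 7).mul hRE)
  have hq1 : DifferentiableOn ℂ Q1 (ball 0 1) := Differentiable.differentiableOn (by fun_prop)
  have hq2 : DifferentiableOn ℂ Q2 (ball 0 1) := Differentiable.differentiableOn (by fun_prop)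
  have hq3 : DifferentiableOn ℂ Q3 (ball 0 1) := Differentiable.differentiableOn (by fun_prop)
  have h1 : DifferentiableOn ℂ R1 (ball 0 1) := ((hq1.add (hRE.mul hi)).neg).div hE hE0
  have h2 : DifferentiableOn ℂ R2 (ball 0 1) :=
    (hq2.add ((hi.const_mul 2).mul h1)).add ((differentiableOn_id.pow 7).mul (h1.pow 2))
  have h3 : DifferentiableOn ℂ R3 (ball 0 1) :=
    ((hq3.add (hj.mul h1)).add (hi.mul h2)).add (((differentiableOn_id.pow 7).mul h1).mul h2)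
  refine ⟨G, R1, R2, R3, hG, hGi, hG0, fun w hw => deriv_ne_zero_of_injOn isOpen_ball hG hGi hw,
    h1, h2, h3, fun t ht => ?_⟩
  have he : (E t)⁻¹ = iPoly ρ A t + t ^ 7 * R1 t := by
    have hne := hE0 t ht.1
    have hr : R1 t * E t = -(Q1 t + RE t * iPoly ρ A t) := div_mul_cancel₀ _ hne
    refine inv_eq_of_mul_eq_one_left ?_
    have h := ipoly_spec ρ A t
    linear_combination (exp := 1) h + t ^ 7 * hr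
  have e1 : (G t)⁻¹ = t⁻¹ * (iPoly ρ A t + t ^ 7 * R1 t) := by
    rw [hexp t ht.1, mul_inv]
    rw [show aPoly ρ A t + t ^ 7 * RE t = E t from rfl, he]
  have e2 : (iPoly ρ A t + t ^ 7 * R1 t) ^ 2 = jPoly ρ A t + t ^ 7 * R2 t := by
    simp only [R2, Q2]
    linear_combination jpoly_spec ρ A t
  refine ⟨e1, by rw [e1, mul_pow, e2], ?_⟩
  rw [e1, mul_pow, pow_succ' (iPoly ρ A t + t ^ 7 * R1 t) 2, e2]
  congr 1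
  simp only [R3, Q3]
  linear_combination kpoly_spec ρ A t

/-- Area inequality with three parameters. -/
theorem grunsky3 {f : ℂ → ℂ} (hf : DifferentiableOn ℂ f (ball 0 1))
    (hinj : InjOn f (ball 0 1)) {z : ℂ} (hz : z ∈ ball (0 : ℂ) 1) (hz0 : z ≠ 0) (x1 x2 x3 : ℂ) :
    1 * ‖bC1 ((‖z‖ ^ 2 : ℝ) : ℂ) (sjet f z) x1 x2 x3‖ ^ 2 +
      2 * ‖bC2 ((‖z‖ ^ 2 : ℝ) : ℂ) (sjet f z) x1 x2 x3‖ ^ 2 +
      3 * ‖bC3 ((‖z‖ ^ 2 : ℝ) : ℂ) (sjet f z) x1 x2 x3‖ ^ 2 ≤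
        ‖x1‖ ^ 2 + ‖x2‖ ^ 2 / 2 + ‖x3‖ ^ 2 / 3 := by
  obtain ⟨G, R1, R2, R3, hG, hGi, hG0, hGd, h1, h2, h3, hexp⟩ := recip_exists hf hinj hz hz0
  set ρ : ℂ := ((‖z‖ ^ 2 : ℝ) : ℂ)
  set A := sjet f z
  set p1 := pC1 ρ A x1 x2 x3 with hp1
  set p2 := pC2 ρ A x2 x3 with hp2
  have h := area_poly hG hGi hG0 hGd (P := fun w => p1 * w + p2 * w ^ 2 + x3 / 3 * w ^ 3)
    (by fun_prop) (m := 3) (N := 4) ![x1, x2 / 2, x3 / 3]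
    ![p1 * iC1 ρ A + p2 * jC2 ρ A + x3 / 3 * kC3 ρ A, bC1 ρ A x1 x2 x3, bC2 ρ A x1 x2 x3,
      bC3 ρ A x1 x2 x3]
    (Rr := fun t => p1 * (iC5 ρ A + iC6 ρ A * t + t ^ 2 * R1 t) + p2 * (jC6 ρ A + t * R2 t) +
      x3 / 3 * R3 t) ?_ ?_
  · simp [Fin.sum_univ_succ, norm_div, div_pow] at h
    linarith
  · exact (((DifferentiableOn.add (Differentiable.differentiableOn (by fun_prop))
      ((differentiableOn_id.pow 2).mul h1)).const_mul p1).add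
      (((differentiableOn_id.mul h2).const_add _).const_mul p2)).add (h3.const_mul _)
  · intro t ht
    obtain ⟨e1, e2, e3⟩ := hexp t ht
    have ht0 : t ≠ 0 := ht.2
    show p1 * (G t)⁻¹ + p2 * (G t)⁻¹ ^ 2 + x3 / 3 * (G t)⁻¹ ^ 3 = _
    rw [e3, e2, e1]
    simp [Fin.sum_univ_succ, zpow_neg, zpow_ofNat, iPoly, jPoly, kPoly, bC1, bC2, bC3, ← hp1, ← hp2]
    field_simp
    simp only [hp1, hp2, pC1, pC2]
    ring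

/-- Area inequality with two parameters. -/
theorem grunsky4 {f : ℂ → ℂ} (hf : DifferentiableOn ℂ f (ball 0 1))
    (hinj : InjOn f (ball 0 1)) {z : ℂ} (hz : z ∈ ball (0 : ℂ) 1) (hz0 : z ≠ 0) (x1 x2 : ℂ) :
    1 * ‖bC1 ((‖z‖ ^ 2 : ℝ) : ℂ) (sjet f z) x1 x2 0‖ ^ 2 +
      2 * ‖bC2 ((‖z‖ ^ 2 : ℝ) : ℂ) (sjet f z) x1 x2 0‖ ^ 2 +
      3 * ‖bC3 ((‖z‖ ^ 2 : ℝ) : ℂ) (sjet f z) x1 x2 0‖ ^ 2 +
      4 * ‖bC4 ((‖z‖ ^ 2 : ℝ) : ℂ) (sjet f z) x1 x2 0‖ ^ 2 ≤ ‖x1‖ ^ 2 + ‖x2‖ ^ 2 / 2 := by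
  obtain ⟨G, R1, R2, R3, hG, hGi, hG0, hGd, h1, h2, h3, hexp⟩ := recip_exists hf hinj hz hz0
  set ρ : ℂ := ((‖z‖ ^ 2 : ℝ) : ℂ)
  set A := sjet f z
  set p1 := pC1 ρ A x1 x2 0 with hp1
  set p2 := pC2 ρ A x2 0 with hp2
  have h := area_poly hG hGi hG0 hGd (P := fun w => p1 * w + p2 * w ^ 2)
    (by fun_prop) (m := 2) (N := 5) ![x1, x2 / 2]
    ![p1 * iC1 ρ A + p2 * jC2 ρ A, bC1 ρ A x1 x2 0, bC2 ρ A x1 x2 0,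
      bC3 ρ A x1 x2 0, bC4 ρ A x1 x2 0]
    (Rr := fun t => p1 * (iC6 ρ A + t * R1 t) + p2 * R2 t) ?_ ?_
  · simp [Fin.sum_univ_succ, norm_div, div_pow] at h
    linarith
  · exact ((((differentiableOn_id.mul h1).const_add _).const_mul p1)).add (h2.const_mul p2)
  · intro t ht
    obtain ⟨e1, e2, -⟩ := hexp t ht
    have ht0 : t ≠ 0 := ht.2
    show p1 * (G t)⁻¹ + p2 * (G t)⁻¹ ^ 2 = _
    rw [e2, e1]
    simp [Fin.sum_univ_succ, zpow_neg, zpow_ofNat, iPoly, jPoly, bC1, bC2, bC3, bC4, ← hp1, ← hp2]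
    field_simp
    simp only [hp1, hp2, pC1, pC2]
    ring

/-- The coefficients of the reciprocal are bounded. -/
theorem iC_bound {f : ℂ → ℂ} (hf : DifferentiableOn ℂ f (ball 0 1))
    (hinj : InjOn f (ball 0 1)) {z : ℂ} (hz : z ∈ ball (0 : ℂ) 1) (hz0 : z ≠ 0) :
    1 * ‖iC2 ((‖z‖ ^ 2 : ℝ) : ℂ) (sjet f z)‖ ^ 2 + 2 * ‖iC3 ((‖z‖ ^ 2 : ℝ) : ℂ) (sjet f z)‖ ^ 2 +
      3 * ‖iC4 ((‖z‖ ^ 2 : ℝ) : ℂ) (sjet f z)‖ ^ 2 + 4 * ‖iC5 ((‖z‖ ^ 2 : ℝ) : ℂ) (sjet f z)‖ ^ 2 +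
      5 * ‖iC6 ((‖z‖ ^ 2 : ℝ) : ℂ) (sjet f z)‖ ^ 2 ≤ 1 := by
  obtain ⟨G, R1, R2, R3, hG, hGi, hG0, hGd, h1, h2, h3, hexp⟩ := recip_exists hf hinj hz hz0
  set ρ : ℂ := ((‖z‖ ^ 2 : ℝ) : ℂ)
  set A := sjet f z
  have h := area_poly hG hGi hG0 hGd (P := fun w => w)
    differentiable_id (m := 1) (N := 6) ![1]
    ![iC1 ρ A, iC2 ρ A, iC3 ρ A, iC4 ρ A, iC5 ρ A, iC6 ρ A] (Rr := R1) h1 ?_
  · simp [Fin.sum_univ_succ] at h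
    linarith
  · intro t ht
    obtain ⟨e1, -, -⟩ := hexp t ht
    have ht0 : t ≠ 0 := ht.2
    simp only [e1]
    simp [Fin.sum_univ_succ, iPoly]
    field_simp
    ring

end Vale.Agent.P142
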