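import Vale.Agent.P142.Pointwise
import Vale.Agent.P142.MeansLayer

/-!
Derivatives along radii and circles of the weighted monomials in the scaled jets.
-/

noncomputable section

open Set Metric
open scoped ComplexConjugate

namespace Vale.Agent.P142

/-- The reciprocal of the derivative. -/
def qd (f : ℂ → ℂ) (z : ℂ) : ℂ := (deriv f z)⁻¹

/-- The weight `|f'| ^ (-2)`. -/
def W2 (f : ℂ → ℂ) (z : ℂ) : ℝ := ‖qd f z‖ ^ 2

/-- The jet indices of the monomials of weight at most five. -/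
def mIdx : List (List ℕ) :=
  [[], [1], [2], [1, 1], [3], [2, 1], [1, 1, 1], [4], [3, 1], [2, 2], [2, 1, 1], [1, 1, 1, 1], [5],
    [4, 1], [3, 2], [3, 1, 1], [2, 2, 1], [2, 1, 1, 1], [1, 1, 1, 1, 1]]

/-- Product of jets. -/
def mprod (A : ℕ → ℂ) : List ℕ → ℂ
  | [] => 1
  | k :: l => A k * mprod A l

/-- The derivation `A k ↦ (k + 2) A (k + 1) - 2 A 1 A k` applied to a product of jets. -/
def dprod (A : ℕ → ℂ) : List ℕ → ℂ
  | [] => 0
  | k :: l => (((k : ℂ) + 2) * A (k + 1) - 2 * A 1 * A k) * mprod A l + A k * dprod A l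

lemma eTable_eq (i : ℕ) (hi : i < 19) : eTable.getD i [] = List.replicate i 0 ++ [1] := by
  simp [eTable, List.getD_eq_getElem?_getD, hi]

lemma mono_spec (A : ℕ → ℂ) (i : ℕ) (hi : i < 19) :
    ev (eTable.getD i []) (monList A) = mprod A (mIdx.getD i []) ∧
      ev (dTable.getD i []) (monList A) =
        -2 * A 1 * mprod A (mIdx.getD i []) + dprod A (mIdx.getD i []) ∧
      (mIdx.getD i []).sum = wTable.getD i 0 := by
  rw [eTable_eq i hi]
  interval_cases i <;>
    simp [ev, dTable, monList, mprod, dprod, mIdx, wTable, List.replicate] <;>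
    ring_nf <;>
    trivial

lemma mIdx_pos (i : ℕ) : ∀ k ∈ mIdx.getD i [], 1 ≤ k := by
  rcases lt_or_ge i 19 with hi | hi
  · interval_cases i <;> simp [mIdx]
  · rw [List.getD_eq_getElem?_getD, List.getElem?_eq_none (show mIdx.length ≤ i from hi)]
    simp

lemma hasDerivAt_mprod {X : ℝ → ℕ → ℂ} {x : ℝ} {c κ : ℂ}
    (h : ∀ k, 1 ≤ k → HasDerivAt (fun y => X y k)
      (κ * (((k : ℂ) + 2) * X x (k + 1) - 2 * X x 1 * X x k + c * k * X x k)) x) :
    ∀ l : List ℕ, (∀ k ∈ l, 1 ≤ k) → HasDerivAt (fun y => mprod (X y) l)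
      (κ * (dprod (X x) l + c * (l.sum : ℕ) * mprod (X x) l)) x
  | [], _ => by simpa [mprod, dprod] using hasDerivAt_const x (1 : ℂ)
  | k :: l, hl => by
    have ih := hasDerivAt_mprod h l fun j hj => hl j (List.mem_cons_of_mem _ hj)
    refine ((h k (hl k (List.mem_cons_self ..))).mul ih).congr_deriv ?_
    simp only [mprod, dprod, List.sum_cons, Nat.cast_add]
    ring

/-- The weighted monomial. -/
def Um (f : ℂ → ℂ) (z : ℂ) (i : ℕ) : ℂ := qd f z * mprod (sjet f z) (mIdx.getD i [])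

/-- Integer combinations of vectors. -/
def combR : List ℤ → List (List ℤ) → List ℤ
  | x :: xs, a :: rest => addL (scaleL x a) (combR xs rest)
  | _, _ => []

lemma ev_combR (m : List ℂ) : ∀ (c : List ℤ) (T : List (List ℤ)),
    ev (combR c T) m = ev c (T.map fun a => ev a m)
  | [], _ => by simp [combR, ev]
  | _ :: _, [] => by simp [combR, ev]
  | x :: xs, a :: rest => by simp [combR, ev, ev_addL, ev_scaleL, ev_combR m xs rest]

lemma ev_map_smul {ι : Type*} (g : ι → ℂ) (k : ℂ) : ∀ (c : List ℤ) (L : List ι),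
    ev c (L.map fun i => k * g i) = k * ev c (L.map g)
  | [], _ => by simp [ev]
  | _ :: _, [] => by simp [ev]
  | x :: xs, a :: rest => by simp [ev, ev_map_smul g k xs rest]; ring

lemma ev_map_add {ι : Type*} (g h : ι → ℂ) : ∀ (c : List ℤ) (L : List ι),
    ev c (L.map fun i => g i + h i) = ev c (L.map g) + ev c (L.map h)
  | [], _ => by simp [ev]
  | _ :: _, [] => by simp [ev]
  | x :: xs, a :: rest => by simp [ev, ev_map_add g h xs rest]; ring

lemma hasDerivAt_ev {ι : Type*} {F : ℝ → ι → ℂ} {F' : ι → ℂ} {x : ℝ} :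
    ∀ (c : List ℤ) (L : List ι), (∀ i ∈ L, HasDerivAt (fun y => F y i) (F' i) x) →
      HasDerivAt (fun y => ev c (L.map (F y))) (ev c (L.map F')) x
  | [], _, _ => by simpa [ev] using hasDerivAt_const x (0 : ℂ)
  | _ :: _, [], _ => by simpa [ev] using hasDerivAt_const x (0 : ℂ)
  | a :: as, i :: L, h => by
    simpa [ev] using ((h i (List.mem_cons_self ..)).const_mul (a : ℂ)).fun_add
      (hasDerivAt_ev as L fun j hj => h j (List.mem_cons_of_mem _ hj))

/-- The weighted standard vectors. -/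
def wE : List (List ℤ) :=
  (List.range 19).map fun i => scaleL (wTable.getD i 0 : ℤ) (eTable.getD i [])

/-- The coefficients of a tuple of the Lyapunov form. -/
def coefs (a : List (List ℤ)) : List ℤ := (a.getD 0 []).take 19

/-- The tuple `a` is a combination of the weighted monomials and their derivatives. -/
def okTuple (a : List (List ℤ)) : Bool :=
  decide (pad 30 (a.getD 0 []) = pad 30 (combR (coefs a) eTable)) &&
    decide (pad 30 (a.getD 1 []) = pad 30 (combR (coefs a) dTable)) &&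
      decide (pad 30 (a.getD 2 []) = pad 30 (combR (coefs a) wE))

theorem vXZ_ok : (vXZ.all okTuple) = true := by decide +kernel

theorem nuList_ok : (nuList.all fun t => decide (t.2.1 < 19) && decide (t.2.2 < 19)) = true := by
  decide +kernel

theorem dTable_eq : dTable = (List.range 19).map fun i => dTable.getD i [] := by decide +kernel

theorem eTable_eq' : eTable = (List.range 19).map fun i => eTable.getD i [] := by decide +kernel

lemma tuple_spec (A : ℕ → ℂ) (a : List (List ℤ)) (ha : a ∈ vXZ) :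
    cp A a 0 = ev (coefs a) ((List.range 19).map fun i => ev (eTable.getD i []) (monList A)) ∧
    cp A a 1 = ev (coefs a) ((List.range 19).map fun i => ev (dTable.getD i []) (monList A)) ∧
    cp A a 2 = ev (coefs a) ((List.range 19).map fun i =>
      (wTable.getD i 0 : ℂ) * ev (eTable.getD i []) (monList A)) := by
  have h := List.all_eq_true.1 vXZ_ok a ha
  simp only [okTuple, Bool.and_eq_true, decide_eq_true_eq] at h
  obtain ⟨⟨h0, h1⟩, h2⟩ := h
  have key : ∀ (x : List ℤ) (T : List (List ℤ)), pad 30 x = pad 30 (combR (coefs a) T) →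
      ev x (monList A) = ev (coefs a) (T.map fun b => ev b (monList A)) := fun x T hx => by
    rw [← ev_pad 30 x _ (monList_length A), hx, ev_pad 30 _ _ (monList_length A), ev_combR]
  refine ⟨?_, ?_, ?_⟩
  · rw [cp, key _ _ h0]
    conv_lhs => rw [eTable_eq', List.map_map]
    rfl
  · rw [cp, key _ _ h1]
    conv_lhs => rw [dTable_eq, List.map_map]
    rfl
  · rw [cp, key _ _ h2, wE, List.map_map]
    simp only [Function.comp_def, ev_scaleL, Int.cast_natCast]

/-- The weighted value of the first component of a tuple. -/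
def Vz (f : ℂ → ℂ) (z : ℂ) (a : List (List ℤ)) : ℂ := qd f z * cp (sjet f z) a 0

lemma Vz_eq (f : ℂ → ℂ) (z : ℂ) (a : List (List ℤ)) (ha : a ∈ vXZ) :
    Vz f z a = ev (coefs a) ((List.range 19).map (Um f z)) := by
  rw [Vz, (tuple_spec _ a ha).1, ← ev_map_smul]
  refine congrArg _ (List.map_congr_left fun i hi => ?_)
  rw [Um, (mono_spec _ i (List.mem_range.1 hi)).1]

section
variable {f : ℂ → ℂ} (hf : DifferentiableOn ℂ f (ball 0 1))
  (hd : ∀ z ∈ ball (0 : ℂ) 1, deriv f z ≠ 0) {r : ℝ} (hr : r ∈ Ioo (0 : ℝ) 1) (θ : ℝ)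

lemma norm_sq_circle (x θ : ℝ) : ‖circleMap 0 x θ‖ ^ 2 = x ^ 2 := by simp [sq_abs]

lemma sjet_eq (f : ℂ → ℂ) (x θ : ℝ) (k : ℕ) :
    sjet f (circleMap 0 x θ) k = (x : ℂ) ^ k * Means.jet f (k + 1) x θ := by
  simp only [sjet, Means.jet, norm_sq_circle, Nat.add_sub_cancel]
  generalize iteratedDeriv (k + 1) f (circleMap 0 x θ) = a
  generalize deriv f (circleMap 0 x θ) = b
  rw [circleMap_zero, mul_pow, mul_pow]
  ring

include hf hd hr

lemma sjet_radial (k : ℕ) (hk : 1 ≤ k) :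
    HasDerivAt (fun y => sjet f (circleMap 0 y θ) k)
      (((r * (1 - r ^ 2) : ℝ) : ℂ)⁻¹ * (((k : ℂ) + 2) * sjet f (circleMap 0 r θ) (k + 1) -
        2 * sjet f (circleMap 0 r θ) 1 * sjet f (circleMap 0 r θ) k +
        ((1 - 3 * r ^ 2 : ℝ) : ℂ) * k * sjet f (circleMap 0 r θ) k)) r := by
  obtain ⟨k, rfl⟩ : ∃ j, k = j + 1 := ⟨k - 1, by omega⟩
  simp only [sjet_eq]
  have h1 : HasDerivAt (fun y : ℝ => (y : ℂ) ^ (k + 1))
      (((k + 1 : ℕ) : ℂ) * (r : ℂ) ^ k * 1) r := by
    have h : HasDerivAt (fun y : ℝ => (y : ℂ)) 1 r := by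
      simpa using (hasDerivAt_id r).ofReal_comp
    simpa using h.fun_pow (k + 1)
  refine (h1.mul (Means.jet_radial hf hd (j := k + 1 + 1) (by omega) (Ioo_subset_Ico_self hr) θ)).congr_deriv ?_
  have h0 : (r : ℂ) ≠ 0 := Complex.ofReal_ne_zero.2 hr.1.ne'
  have hs : (1 : ℂ) - (r : ℂ) ^ 2 ≠ 0 := by
    exact_mod_cast (show (1 - r ^ 2 : ℝ) ≠ 0 by nlinarith [hr.1, hr.2])
  push_cast
  field_simp
  ring

lemma sjet_angular (k : ℕ) (hk : 1 ≤ k) :
    HasDerivAt (fun y => sjet f (circleMap 0 r y) k)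
      (Complex.I / ((1 - r ^ 2 : ℝ) : ℂ) * (((k : ℂ) + 2) * sjet f (circleMap 0 r θ) (k + 1) -
        2 * sjet f (circleMap 0 r θ) 1 * sjet f (circleMap 0 r θ) k +
        ((1 - r ^ 2 : ℝ) : ℂ) * k * sjet f (circleMap 0 r θ) k)) θ := by
  simp only [sjet_eq]
  refine ((Means.jet_angular hf hd (j := k + 1) (by omega) (Ioo_subset_Ico_self hr) θ).const_mul
    ((r : ℂ) ^ k)).congr_deriv ?_
  have hs : (1 : ℂ) - (r : ℂ) ^ 2 ≠ 0 := by
    exact_mod_cast (show (1 - r ^ 2 : ℝ) ≠ 0 by nlinarith [hr.1, hr.2])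
  push_cast
  field_simp
  ring

lemma qd_radial :
    HasDerivAt (fun y => qd f (circleMap 0 y θ))
      (((r * (1 - r ^ 2) : ℝ) : ℂ)⁻¹ *
        (-2 * sjet f (circleMap 0 r θ) 1 * qd f (circleMap 0 r θ))) r := by
  have hr' : r ∈ Ico (0 : ℝ) 1 := Ioo_subset_Ico_self hr
  have hz := Means.mem_disc hr' θ
  have h2 := ((Means.hasDerivAt_iteratedDeriv hf 1 hz).comp r (Means.hasDerivAt_ray r θ))
  rw [iteratedDeriv_one] at h2
  refine (h2.fun_inv (hd _ hz)).congr_deriv ?_
  have h0 : (r : ℂ) ≠ 0 := Complex.ofReal_ne_zero.2 hr.1.ne'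
  have hs : (1 : ℂ) - (r : ℂ) ^ 2 ≠ 0 := by
    exact_mod_cast (show (1 - r ^ 2 : ℝ) ≠ 0 by nlinarith [hr.1, hr.2])
  have hne := hd _ hz
  simp only [sjet_eq, Means.jet, qd, Function.comp_apply, Nat.add_sub_cancel, Nat.factorial_two,
    pow_one]
  push_cast
  field_simp
  ring

lemma qd_angular :
    HasDerivAt (fun y => qd f (circleMap 0 r y))
      (Complex.I / ((1 - r ^ 2 : ℝ) : ℂ) *
        (-2 * sjet f (circleMap 0 r θ) 1 * qd f (circleMap 0 r θ))) θ := by
  have hr' : r ∈ Ico (0 : ℝ) 1 := Ioo_subset_Ico_self hr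
  have hz := Means.mem_disc hr' θ
  have h2 := ((Means.hasDerivAt_iteratedDeriv hf 1 hz).comp θ (hasDerivAt_circleMap 0 r θ))
  rw [iteratedDeriv_one] at h2
  refine (h2.fun_inv (hd _ hz)).congr_deriv ?_
  have hs : (1 : ℂ) - (r : ℂ) ^ 2 ≠ 0 := by
    exact_mod_cast (show (1 - r ^ 2 : ℝ) ≠ 0 by nlinarith [hr.1, hr.2])
  have hne := hd _ hz
  simp only [sjet_eq, Means.jet, qd, Function.comp_apply, Nat.add_sub_cancel, Nat.factorial_two,
    pow_one]
  generalize iteratedDeriv (1 + 1) f (circleMap 0 r θ) = a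
  generalize deriv f (circleMap 0 r θ) = b at hne ⊢
  rw [circleMap_zero]
  push_cast
  field_simp
  ring

lemma Um_radial (i : ℕ) (hi : i < 19) :
    HasDerivAt (fun y => Um f (circleMap 0 y θ) i)
      (((r * (1 - r ^ 2) : ℝ) : ℂ)⁻¹ * qd f (circleMap 0 r θ) *
        (ev (dTable.getD i []) (monList (sjet f (circleMap 0 r θ))) + ((1 - 3 * r ^ 2 : ℝ) : ℂ) *
          ((wTable.getD i 0 : ℂ) * ev (eTable.getD i []) (monList (sjet f (circleMap 0 r θ)))))) r := by
  obtain ⟨h1, h2, h3⟩ := mono_spec (sjet f (circleMap 0 r θ)) i hi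
  have hm := hasDerivAt_mprod (X := fun y => sjet f (circleMap 0 y θ))
    (fun k hk => sjet_radial hf hd hr θ k hk) _ (mIdx_pos i)
  refine ((qd_radial hf hd hr θ).mul hm).congr_deriv ?_
  rw [h1, h2, h3]
  ring

lemma Um_angular (i : ℕ) (hi : i < 19) :
    HasDerivAt (fun y => Um f (circleMap 0 r y) i)
      (Complex.I / ((1 - r ^ 2 : ℝ) : ℂ) * qd f (circleMap 0 r θ) *
        (ev (dTable.getD i []) (monList (sjet f (circleMap 0 r θ))) + ((1 - r ^ 2 : ℝ) : ℂ) *
          ((wTable.getD i 0 : ℂ) * ev (eTable.getD i []) (monList (sjet f (circleMap 0 r θ)))))) θ := by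
  obtain ⟨h1, h2, h3⟩ := mono_spec (sjet f (circleMap 0 r θ)) i hi
  have hm := hasDerivAt_mprod (X := fun y => sjet f (circleMap 0 r y))
    (fun k hk => sjet_angular hf hd hr θ k hk) _ (mIdx_pos i)
  refine ((qd_angular hf hd hr θ).mul hm).congr_deriv ?_
  rw [h1, h2, h3]
  ring

lemma Vz_radial (a : List (List ℤ)) (ha : a ∈ vXZ) :
    HasDerivAt (fun y => Vz f (circleMap 0 y θ) a)
      (((r * (1 - r ^ 2) : ℝ) : ℂ)⁻¹ * qd f (circleMap 0 r θ) *
        (cp (sjet f (circleMap 0 r θ)) a 1 +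
          ((1 - 3 * r ^ 2 : ℝ) : ℂ) * cp (sjet f (circleMap 0 r θ)) a 2)) r := by
  simp only [Vz_eq f _ a ha]
  refine (hasDerivAt_ev (coefs a) (List.range 19)
    fun i hi => Um_radial hf hd hr θ i (List.mem_range.1 hi)).congr_deriv ?_
  rw [ev_map_smul, ev_map_add, ev_map_smul, (tuple_spec _ a ha).2.1, (tuple_spec _ a ha).2.2]

/-- The rotation derivative of a pair of weighted monomials. -/
lemma rot_deriv (i k : ℕ) (hi : i < 19) (hk : k < 19) :
    HasDerivAt (fun y => (Um f (circleMap 0 r y) i * conj (Um f (circleMap 0 r y) k)).im)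
      ((1 - r ^ 2)⁻¹ * (W2 f (circleMap 0 r θ) *
        rotTerm (r ^ 2) (sjet f (circleMap 0 r θ)) i k)) θ := by
  have h := Complex.imCLM.hasFDerivAt.comp_hasDerivAt θ
    ((Um_angular hf hd hr θ i hi).mul
      (Complex.conjCLE.toContinuousLinearMap.hasFDerivAt.comp_hasDerivAt θ
        (Um_angular hf hd hr θ k hk)))
  refine h.congr_deriv ?_
  obtain ⟨e1, -, -⟩ := mono_spec (sjet f (circleMap 0 r θ)) i hi
  obtain ⟨f1, -, -⟩ := mono_spec (sjet f (circleMap 0 r θ)) k hk
  simp only [Complex.imCLM_apply, ContinuousLinearEquiv.coe_coe, Complex.conjCLE_apply,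
    Function.comp_apply, Um, ← e1, ← f1, W2, rotTerm, rK, map_mul, map_div₀, map_add,
    Complex.conj_I, Complex.conj_ofReal, map_natCast, Complex.sq_norm, Complex.normSq_apply]
  simp only [div_eq_mul_inv, ← Complex.ofReal_inv, Complex.add_im, Complex.add_re, Complex.mul_im,
    Complex.mul_re, Complex.conj_re, Complex.conj_im, Complex.neg_re, Complex.neg_im, Complex.I_re,
    Complex.I_im, Complex.ofReal_re, Complex.ofReal_im, Complex.natCast_re, Complex.natCast_im]
  have hs : (1 - r ^ 2 : ℝ) ≠ 0 := by nlinarith [hr.1, hr.2]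
  field_simp
  ring

end

end Vale.Agent.P142
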