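import Vale.Agent.P142.Main

/-!
From the growth bound on circles to integrability over the disc.
-/

noncomputable section

open Set Metric MeasureTheory
open scoped Real ENNReal

namespace Vale.Agent.P142

/-- A nonnegative continuous function on the disc with integrable circle integrals is integrable. -/
lemma integrableOn_disc {g : ℂ → ℝ} (hg : ContinuousOn g (ball 0 1))
    (h0 : ∀ z ∈ ball (0 : ℂ) 1, 0 ≤ g z) {h : ℝ → ℝ} (hh : IntegrableOn h (Ioo 0 1))
    (hle : ∀ r ∈ Ioo (0 : ℝ) 1, circInt g r ≤ h r) :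
    IntegrableOn g (ball 0 1) := by
  refine ⟨hg.aestronglyMeasurable measurableSet_ball, ?_⟩
  rw [hasFiniteIntegral_iff_norm]
  have e1 : ∫⁻ z in ball (0 : ℂ) 1, ENNReal.ofReal ‖g z‖ =
      ∫⁻ p in Ioo (0 : ℝ) 1 ×ˢ Ioo (-π) π, ENNReal.ofReal (p.1 * g (circleMap 0 p.1 p.2)) := by
    rw [← lintegral_indicator measurableSet_ball, ← Complex.lintegral_comp_polarCoord_symm]
    rw [← lintegral_indicator (measurableSet_Ioo.prod measurableSet_Ioo)]
    have ht : MeasurableSet (polarCoord.target : Set (ℝ × ℝ)) :=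
      polarCoord.open_target.measurableSet
    rw [← lintegral_indicator ht]
    refine lintegral_congr fun p => ?_
    have hsymm : Complex.polarCoord.symm p = circleMap 0 p.1 p.2 := by
      rw [Complex.polarCoord_symm_apply, circleMap_zero, Complex.exp_mul_I]
      simp
    by_cases hp : p ∈ (polarCoord.target : Set (ℝ × ℝ))
    · have hp1 : 0 < p.1 := hp.1
      rw [Set.indicator_of_mem hp]
      by_cases h1 : p.1 < 1
      · have hm : circleMap 0 p.1 p.2 ∈ ball (0 : ℂ) 1 :=
          Means.mem_disc ⟨hp1.le, h1⟩ p.2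
        rw [Set.indicator_of_mem (show p ∈ Ioo (0 : ℝ) 1 ×ˢ Ioo (-π) π from ⟨⟨hp1, h1⟩, hp.2⟩),
          hsymm, Set.indicator_of_mem hm, Real.norm_of_nonneg (h0 _ hm), smul_eq_mul,
          ← ENNReal.ofReal_mul hp1.le]
      · rw [Set.indicator_of_notMem (show p ∉ Ioo (0 : ℝ) 1 ×ˢ Ioo (-π) π from fun h => h1 h.1.2),
          hsymm, Set.indicator_of_notMem (by
            rw [mem_ball, dist_zero_right, norm_circle hp1.le]; exact h1), smul_zero]
    · rw [Set.indicator_of_notMem hp, Set.indicator_of_notMem]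
      exact fun h => hp ⟨h.1.1, h.2⟩
  rw [e1]
  have hc : ContinuousOn (fun p : ℝ × ℝ => p.1 * g (circleMap 0 p.1 p.2))
      (Ioo (0 : ℝ) 1 ×ˢ Ioo (-π) π) := by
    refine continuous_fst.continuousOn.mul (hg.comp ?_ fun p hp =>
      Means.mem_disc (Ioo_subset_Ico_self hp.1) p.2)
    simp only [circleMap_zero]
    fun_prop
  have hm : AEMeasurable (fun p : ℝ × ℝ => ENNReal.ofReal (p.1 * g (circleMap 0 p.1 p.2)))
      ((volume.restrict (Ioo (0 : ℝ) 1)).prod (volume.restrict (Ioo (-π) π))) := by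
    rw [Measure.prod_restrict, ← Measure.volume_eq_prod]
    exact ENNReal.measurable_ofReal.comp_aemeasurable
      (hc.aemeasurable (measurableSet_Ioo.prod measurableSet_Ioo))
  rw [Measure.volume_eq_prod, ← Measure.prod_restrict, lintegral_prod _ hm]
  have hfin : ∫⁻ r in Ioo (0 : ℝ) 1, ENNReal.ofReal (h r) < ∞ :=
    hh.lintegral_lt_top
  refine lt_of_le_of_lt (setLIntegral_mono_ae' measurableSet_Ioo (ae_of_all _ fun r hr => ?_)) hfin
  have hr' := Ioo_subset_Ico_self hr
  have hci : IntegrableOn (fun θ => r * g (circleMap 0 r θ)) (Ioo (-π) π) :=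
    ((continuous_const.mul (cont_circle hg hr')).continuousOn.integrableOn_Icc).mono_set
      Ioo_subset_Icc_self
  rw [← ofReal_integral_eq_lintegral_ofReal hci (ae_of_all _ fun θ =>
    mul_nonneg hr.1.le (h0 _ (Means.mem_disc hr' θ)))]
  refine ENNReal.ofReal_le_ofReal (le_trans ?_ (hle r hr))
  rw [← integral_Ioc_eq_integral_Ioo, integral_const_mul,
    ← intervalIntegral.integral_of_le (by linarith [Real.pi_pos])]
  exact mul_le_of_le_one_left (intervalIntegral.integral_nonneg (by linarith [Real.pi_pos])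
    fun θ _ => h0 _ (Means.mem_disc hr' θ)) hr.2.le

/-- Negative powers of the derivative down to `-5/3` are integrable over the disc. -/
theorem integrableOn_deriv_rpow {f : ℂ → ℂ} (hf : DifferentiableOn ℂ f (ball 0 1))
    (hinj : InjOn f (ball 0 1)) {t : ℝ} (ht : -(5 / 3) < t) (ht0 : t ≤ 0) :
    IntegrableOn (fun z => ‖deriv f z‖ ^ t) (ball 0 1) := by
  have hd : ∀ z ∈ ball (0 : ℂ) 1, deriv f z ≠ 0 := fun z hz =>
    deriv_ne_zero_of_injOn isOpen_ball hf hinj hz
  obtain ⟨C, hC⟩ := circInt_bound hf hinj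
  obtain ⟨u, rfl⟩ : ∃ u, t = -2 * u := ⟨-t / 2, by ring⟩
  have hu0 : 0 ≤ u := by linarith
  have hu1 : u < 5 / 6 := by linarith
  set p : ℝ := 1 / 5 + (1 - 6 / 5 * u) / 2 with hp
  set e : ℝ := p * u / (1 - u) with he
  have hu' : 0 < 1 - u := by linarith
  have he1 : e < 1 := by rw [he, div_lt_one hu', hp]; nlinarith
  have hp1 : -1 < p - 6 / 5 := by rw [hp]; linarith
  set h : ℝ → ℝ := fun r => C * (1 - r) ^ (p - 6 / 5) + 2 * π * (1 - r) ^ (-e) with hh
  have hint : ∀ a : ℝ, -1 < a → IntegrableOn (fun r : ℝ => (1 - r) ^ a) (Ioo 0 1) := fun a ha => by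
    have := ((intervalIntegral.intervalIntegrable_rpow' (a := 0) (b := 1) ha).comp_sub_left 1).symm
    rw [sub_zero, sub_self] at this
    exact (intervalIntegrable_iff_integrableOn_Ioo_of_le zero_le_one).1 this
  refine integrableOn_disc (h := h)
    ((hf.deriv isOpen_ball).continuousOn.norm.rpow_const fun z hz =>
      Or.inl (norm_ne_zero_iff.2 (hd z hz)))
    (fun z _ => Real.rpow_nonneg (norm_nonneg _) _)
    (((hint _ hp1).const_mul C).add ((hint _ (by linarith)).const_mul (2 * π))) fun r hr => ?_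
  have hr' := Ioo_subset_Ico_self hr
  have hm : 0 < 1 - r := by linarith [hr.2]
  have hπ : -π ≤ π := by linarith [Real.pi_pos]
  have hcont := cont_circle (contOn_W2 hf hd) hr'
  have hpt : ∀ θ, ‖deriv f (circleMap 0 r θ)‖ ^ (-2 * u) ≤
      (1 - r) ^ p * W2 f (circleMap 0 r θ) + (1 - r) ^ (-e) := fun θ => by
    have hne := hd _ (Means.mem_disc hr' θ)
    have hpos : 0 < ‖deriv f (circleMap 0 r θ)‖ := norm_pos_iff.2 hne
    have hW : W2 f (circleMap 0 r θ) = ‖deriv f (circleMap 0 r θ)‖ ^ (-2 : ℝ) := by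
      rw [W2, qd, norm_inv, inv_pow, Real.rpow_neg hpos.le]
      norm_num
    rw [Real.rpow_mul hpos.le, ← hW]
    obtain ⟨w, hwdef⟩ : ∃ w, w = W2 f (circleMap 0 r θ) := ⟨_, rfl⟩
    rw [← hwdef]
    have hw : 0 < w := by
      rw [hwdef, hW]; exact Real.rpow_pos_of_pos hpos _
    rcases le_or_gt (w ^ u) ((1 - r) ^ p * w) with h1 | h1
    · linarith [Real.rpow_nonneg hm.le (-e)]
    · refine le_trans ?_ (le_add_of_nonneg_left (mul_nonneg (Real.rpow_nonneg hm.le _) hw.le))
      have h2 : w ^ (1 - u) ≤ (1 - r) ^ (-p) := by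
        rw [Real.rpow_sub hw, Real.rpow_one, Real.rpow_neg hm.le,
          div_le_iff₀ (Real.rpow_pos_of_pos hw _), ← div_eq_inv_mul,
          le_div_iff₀ (Real.rpow_pos_of_pos hm _)]
        linarith
      calc w ^ u = (w ^ (1 - u)) ^ (u / (1 - u)) := by
            rw [← Real.rpow_mul hw.le, mul_div_cancel₀ _ hu'.ne']
        _ ≤ ((1 - r) ^ (-p)) ^ (u / (1 - u)) :=
            Real.rpow_le_rpow (Real.rpow_nonneg hw.le _) h2 (div_nonneg hu0 hu'.le)
        _ = (1 - r) ^ (-e) := by
            rw [← Real.rpow_mul hm.le, he]; ring_nf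
  have hl : Continuous fun θ => ‖deriv f (circleMap 0 r θ)‖ ^ (-2 * u) :=
    cont_circle ((hf.deriv isOpen_ball).continuousOn.norm.rpow_const fun z hz =>
      Or.inl (norm_ne_zero_iff.2 (hd z hz))) hr'
  have h1 : circInt (fun z => ‖deriv f z‖ ^ (-2 * u)) r ≤
      (1 - r) ^ p * circInt (W2 f) r + 2 * π * (1 - r) ^ (-e) := by
    refine (intervalIntegral.integral_mono_on hπ (hl.intervalIntegrable _ _)
      (((continuous_const.mul hcont).add continuous_const).intervalIntegrable _ _)
      fun θ _ => hpt θ).trans_eq ?_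
    simp only [Pi.add_apply, Pi.mul_apply]
    rw [intervalIntegral.integral_add (f := fun θ => (1 - r) ^ p * W2 f (circleMap 0 r θ))
      (g := fun _ => (1 - r) ^ (-e)) ((continuous_const.mul hcont).intervalIntegrable _ _)
      intervalIntegrable_const, intervalIntegral.integral_const_mul, intervalIntegral.integral_const,
      smul_eq_mul, circInt]
    ring
  refine h1.trans (add_le_add ?_ le_rfl)
  calc (1 - r) ^ p * circInt (W2 f) r
      ≤ (1 - r) ^ p * (C * (1 - r) ^ (-(6 / 5) : ℝ)) :=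
        mul_le_mul_of_nonneg_left (hC r hr') (Real.rpow_nonneg hm.le _)
    _ = C * (1 - r) ^ (p - 6 / 5) := by
        rw [sub_eq_add_neg p, Real.rpow_add hm p (-(6 / 5))]; ring

end Vale.Agent.P142
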