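import Vale.Agent.P142.CertData
import Vale.Agent.P142.Forms

/-!
Taylor coefficients of the disc-automorphism transform in terms of the scaled jets, the Laurent
coefficients of polynomials in its reciprocal, and their values on the vectors of the certificate.
-/

noncomputable section

namespace Vale.Agent.P142

/-- The monomials of weight at most six in the jets. -/
def monList (A : ℕ → ℂ) : List ℂ :=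
  [1,
    A 1,
    A 2,
    A 1 * A 1,
    A 3,
    A 2 * A 1,
    A 1 * A 1 * A 1,
    A 4,
    A 3 * A 1,
    A 2 * A 2,
    A 2 * A 1 * A 1,
    A 1 * A 1 * A 1 * A 1,
    A 5,
    A 4 * A 1,
    A 3 * A 2,
    A 3 * A 1 * A 1,
    A 2 * A 2 * A 1,
    A 2 * A 1 * A 1 * A 1,
    A 1 * A 1 * A 1 * A 1 * A 1,
    A 6,
    A 5 * A 1,
    A 4 * A 2,
    A 4 * A 1 * A 1,
    A 3 * A 3,
    A 3 * A 2 * A 1,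
    A 3 * A 1 * A 1 * A 1,
    A 2 * A 2 * A 2,
    A 2 * A 2 * A 1 * A 1,
    A 2 * A 1 * A 1 * A 1 * A 1,
    A 1 * A 1 * A 1 * A 1 * A 1 * A 1]

lemma monList_length (A : ℕ → ℂ) : (monList A).length = 30 := rfl

/-- Taylor coefficient 1 of the transform. -/
def aC1 (ρ : ℂ) (A : ℕ → ℂ) : ℂ :=
  (-ρ) + A 1

/-- Taylor coefficient 2 of the transform. -/
def aC2 (ρ : ℂ) (A : ℕ → ℂ) : ℂ :=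
  (-ρ) ^ 2 + 2 * A 1 * (-ρ) + A 2

/-- Taylor coefficient 3 of the transform. -/
def aC3 (ρ : ℂ) (A : ℕ → ℂ) : ℂ :=
  (-ρ) ^ 3 + 3 * A 1 * (-ρ) ^ 2 + 3 * A 2 * (-ρ) + A 3

/-- Taylor coefficient 4 of the transform. -/
def aC4 (ρ : ℂ) (A : ℕ → ℂ) : ℂ :=
  (-ρ) ^ 4 + 4 * A 1 * (-ρ) ^ 3 + 6 * A 2 * (-ρ) ^ 2 + 4 * A 3 * (-ρ) + A 4

/-- Taylor coefficient 5 of the transform. -/
def aC5 (ρ : ℂ) (A : ℕ → ℂ) : ℂ :=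
  (-ρ) ^ 5 + 5 * A 1 * (-ρ) ^ 4 + 10 * A 2 * (-ρ) ^ 3 + 10 * A 3 * (-ρ) ^ 2 + 5 * A 4 * (-ρ) + A 5

/-- Taylor coefficient 6 of the transform. -/
def aC6 (ρ : ℂ) (A : ℕ → ℂ) : ℂ :=
  (-ρ) ^ 6 + 6 * A 1 * (-ρ) ^ 5 + 15 * A 2 * (-ρ) ^ 4 + 20 * A 3 * (-ρ) ^ 3 + 15 * A 4 * (-ρ) ^ 2 + 6 * A 5 * (-ρ) + A 6

/-- Taylor coefficient 1 of the reciprocal. -/
def iC1 (ρ : ℂ) (A : ℕ → ℂ) : ℂ :=
  -(aC1 ρ A)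

/-- Taylor coefficient 2 of the reciprocal. -/
def iC2 (ρ : ℂ) (A : ℕ → ℂ) : ℂ :=
  -(aC1 ρ A * iC1 ρ A + aC2 ρ A)

/-- Taylor coefficient 3 of the reciprocal. -/
def iC3 (ρ : ℂ) (A : ℕ → ℂ) : ℂ :=
  -(aC1 ρ A * iC2 ρ A + aC2 ρ A * iC1 ρ A + aC3 ρ A)

/-- Taylor coefficient 4 of the reciprocal. -/
def iC4 (ρ : ℂ) (A : ℕ → ℂ) : ℂ :=
  -(aC1 ρ A * iC3 ρ A + aC2 ρ A * iC2 ρ A + aC3 ρ A * iC1 ρ A + aC4 ρ A)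

/-- Taylor coefficient 5 of the reciprocal. -/
def iC5 (ρ : ℂ) (A : ℕ → ℂ) : ℂ :=
  -(aC1 ρ A * iC4 ρ A + aC2 ρ A * iC3 ρ A + aC3 ρ A * iC2 ρ A + aC4 ρ A * iC1 ρ A + aC5 ρ A)

/-- Taylor coefficient 6 of the reciprocal. -/
def iC6 (ρ : ℂ) (A : ℕ → ℂ) : ℂ :=
  -(aC1 ρ A * iC5 ρ A + aC2 ρ A * iC4 ρ A + aC3 ρ A * iC3 ρ A + aC4 ρ A * iC2 ρ A + aC5 ρ A * iC1 ρ A + aC6 ρ A)

/-- Taylor coefficient 1 of the squared reciprocal. -/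
def jC1 (ρ : ℂ) (A : ℕ → ℂ) : ℂ :=
  iC1 ρ A + iC1 ρ A

/-- Taylor coefficient 2 of the squared reciprocal. -/
def jC2 (ρ : ℂ) (A : ℕ → ℂ) : ℂ :=
  iC2 ρ A + iC1 ρ A * iC1 ρ A + iC2 ρ A

/-- Taylor coefficient 3 of the squared reciprocal. -/
def jC3 (ρ : ℂ) (A : ℕ → ℂ) : ℂ :=
  iC3 ρ A + iC1 ρ A * iC2 ρ A + iC2 ρ A * iC1 ρ A + iC3 ρ A

/-- Taylor coefficient 4 of the squared reciprocal. -/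
def jC4 (ρ : ℂ) (A : ℕ → ℂ) : ℂ :=
  iC4 ρ A + iC1 ρ A * iC3 ρ A + iC2 ρ A * iC2 ρ A + iC3 ρ A * iC1 ρ A + iC4 ρ A

/-- Taylor coefficient 5 of the squared reciprocal. -/
def jC5 (ρ : ℂ) (A : ℕ → ℂ) : ℂ :=
  iC5 ρ A + iC1 ρ A * iC4 ρ A + iC2 ρ A * iC3 ρ A + iC3 ρ A * iC2 ρ A + iC4 ρ A * iC1 ρ A + iC5 ρ A

/-- Taylor coefficient 6 of the squared reciprocal. -/
def jC6 (ρ : ℂ) (A : ℕ → ℂ) : ℂ :=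
  iC6 ρ A + iC1 ρ A * iC5 ρ A + iC2 ρ A * iC4 ρ A + iC3 ρ A * iC3 ρ A + iC4 ρ A * iC2 ρ A + iC5 ρ A * iC1 ρ A + iC6 ρ A

/-- Taylor coefficient 1 of the cubed reciprocal. -/
def kC1 (ρ : ℂ) (A : ℕ → ℂ) : ℂ :=
  jC1 ρ A + iC1 ρ A

/-- Taylor coefficient 2 of the cubed reciprocal. -/
def kC2 (ρ : ℂ) (A : ℕ → ℂ) : ℂ :=
  jC2 ρ A + iC1 ρ A * jC1 ρ A + iC2 ρ A

/-- Taylor coefficient 3 of the cubed reciprocal. -/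
def kC3 (ρ : ℂ) (A : ℕ → ℂ) : ℂ :=
  jC3 ρ A + iC1 ρ A * jC2 ρ A + iC2 ρ A * jC1 ρ A + iC3 ρ A

/-- Taylor coefficient 4 of the cubed reciprocal. -/
def kC4 (ρ : ℂ) (A : ℕ → ℂ) : ℂ :=
  jC4 ρ A + iC1 ρ A * jC3 ρ A + iC2 ρ A * jC2 ρ A + iC3 ρ A * jC1 ρ A + iC4 ρ A

/-- Taylor coefficient 5 of the cubed reciprocal. -/
def kC5 (ρ : ℂ) (A : ℕ → ℂ) : ℂ :=
  jC5 ρ A + iC1 ρ A * jC4 ρ A + iC2 ρ A * jC3 ρ A + iC3 ρ A * jC2 ρ A + iC4 ρ A * jC1 ρ A + iC5 ρ A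

/-- Taylor coefficient 6 of the cubed reciprocal. -/
def kC6 (ρ : ℂ) (A : ℕ → ℂ) : ℂ :=
  jC6 ρ A + iC1 ρ A * jC5 ρ A + iC2 ρ A * jC4 ρ A + iC3 ρ A * jC3 ρ A + iC4 ρ A * jC2 ρ A + iC5 ρ A * jC1 ρ A + iC6 ρ A

/-- The leading coefficient of the polynomial with the given principal part. -/
def pC1 (ρ : ℂ) (A : ℕ → ℂ) (x1 x2 x3 : ℂ) : ℂ :=
  x1 - (x2 / 2 - x3 / 3 * kC1 ρ A) * jC1 ρ A - x3 / 3 * kC2 ρ A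

/-- The second coefficient of the polynomial with the given principal part. -/
def pC2 (ρ : ℂ) (A : ℕ → ℂ) (x2 x3 : ℂ) : ℂ :=
  x2 / 2 - x3 / 3 * kC1 ρ A

/-- Laurent coefficient 1. -/
def bC1 (ρ : ℂ) (A : ℕ → ℂ) (x1 x2 x3 : ℂ) : ℂ :=
  pC1 ρ A x1 x2 x3 * iC2 ρ A + pC2 ρ A x2 x3 * jC3 ρ A + x3 / 3 * kC4 ρ A

/-- Laurent coefficient 2. -/
def bC2 (ρ : ℂ) (A : ℕ → ℂ) (x1 x2 x3 : ℂ) : ℂ :=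
  pC1 ρ A x1 x2 x3 * iC3 ρ A + pC2 ρ A x2 x3 * jC4 ρ A + x3 / 3 * kC5 ρ A

/-- Laurent coefficient 3. -/
def bC3 (ρ : ℂ) (A : ℕ → ℂ) (x1 x2 x3 : ℂ) : ℂ :=
  pC1 ρ A x1 x2 x3 * iC4 ρ A + pC2 ρ A x2 x3 * jC5 ρ A + x3 / 3 * kC6 ρ A

/-- Laurent coefficient 4. -/
def bC4 (ρ : ℂ) (A : ℕ → ℂ) (x1 x2 x3 : ℂ) : ℂ :=
  pC1 ρ A x1 x2 x3 * iC5 ρ A + pC2 ρ A x2 x3 * jC6 ρ A

end Vale.Agent.P142
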