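import Vale.Agent.P142.Flow

/-!
The differential inequality for the circle integrals and the growth bound it implies.
-/

noncomputable section

open Set Metric MeasureTheory Filter
open scoped ComplexConjugate Real Topology

namespace Vale.Agent.P142

/-- Integral over a circle with respect to the angle. -/
def circInt (g : ℂ → ℝ) (r : ℝ) : ℝ := ∫ θ in (-π)..π, g (circleMap 0 r θ)

/-- The Lyapunov density. -/
def pX (f : ℂ → ℂ) (z : ℂ) : ℝ := qfn (fun a b => rK (Vz f z a) (Vz f z b)) wXZ vXZ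

/-- The radial derivative density. -/
def gX (f : ℂ → ℂ) (z : ℂ) : ℝ := W2 f z * qfn (gz (‖z‖ ^ 2) (sjet f z)) wXZ vXZ

/-- The density of the rotation identities. -/
def rotX (f : ℂ → ℂ) (z : ℂ) (l : List (ℤ × ℕ × ℕ)) : ℝ :=
  W2 f z * (l.map fun p => (p.1 : ℝ) * rotTerm (‖z‖ ^ 2) (sjet f z) p.2.1 p.2.2).sum

/-- The radial derivative of the weight, times `r (1 - r ^ 2)`. -/
def sX (f : ℂ → ℂ) (z : ℂ) : ℝ := -4 * (sjet f z 1).re * W2 f z

lemma rK_mul (q x y : ℂ) : rK (q * x) (q * y) = ‖q‖ ^ 2 * rK x y := by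
  simp only [rK, map_mul, Complex.mul_re, Complex.mul_im, Complex.conj_re, Complex.conj_im,
    Complex.sq_norm, Complex.normSq_apply]
  ring

lemma pX_eq (f : ℂ → ℂ) (z : ℂ) :
    pX f z = W2 f z * qfn (fun a b => rK (cp (sjet f z) a 0) (cp (sjet f z) b 0)) wXZ vXZ := by
  simp only [pX, Vz, rK_mul, qfn_mul]; rfl

lemma pX_nonneg (f : ℂ → ℂ) (z : ℂ) : 0 ≤ pX f z := by
  rw [pX_eq]; exact mul_nonneg (sq_nonneg _) (lyap_nonneg _)

lemma hasDerivAt_rK {F G : ℝ → ℂ} {F' G' : ℂ} {x : ℝ} (hF : HasDerivAt F F' x)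
    (hG : HasDerivAt G G' x) :
    HasDerivAt (fun y => rK (F y) (G y)) (rK F' (G x) + rK (F x) G') x := by
  have h := Complex.reCLM.hasFDerivAt.comp_hasDerivAt x
    (hF.mul (Complex.conjCLE.toContinuousLinearMap.hasFDerivAt.comp_hasDerivAt x hG))
  refine h.congr_deriv ?_
  simp [rK, Complex.add_re]

lemma hasDerivAt_pairSum {α : Type*} {F : ℝ → α → ℝ} {F' : α → ℝ} {x : ℝ} :
    ∀ (c : List ℤ) (us : List α), (∀ a ∈ us, HasDerivAt (fun y => F y a) (F' a) x) →
      HasDerivAt (fun y => pairSum c us (F y)) (pairSum c us F') x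
  | [], _, _ => by simpa [pairSum] using hasDerivAt_const x (0 : ℝ)
  | _ :: _, [], _ => by simpa [pairSum] using hasDerivAt_const x (0 : ℝ)
  | b :: bs, a :: us, h => by
    simpa [pairSum] using ((h a (List.mem_cons_self ..)).const_mul (b : ℝ)).fun_add
      (hasDerivAt_pairSum bs us fun j hj => h j (List.mem_cons_of_mem _ hj))

lemma hasDerivAt_qfn {α : Type*} {F : ℝ → α → α → ℝ} {F' : α → α → ℝ} {x : ℝ} :
    ∀ (rows : List (List ℤ)) (us : List α),
      (∀ a ∈ us, ∀ b ∈ us, HasDerivAt (fun y => F y a b) (F' a b) x) →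
      HasDerivAt (fun y => qfn (F y) rows us) (qfn F' rows us) x
  | [], _, _ => by simpa [qfn] using hasDerivAt_const x (0 : ℝ)
  | [] :: _, _, _ => by simpa [qfn] using hasDerivAt_const x (0 : ℝ)
  | (_ :: _) :: _, [], _ => by simpa [qfn] using hasDerivAt_const x (0 : ℝ)
  | (d :: e) :: rows, u :: us, h => by
    simp only [qfn]
    exact ((((h u (List.mem_cons_self ..) u (List.mem_cons_self ..)).const_mul (d : ℝ)).fun_add
      ((hasDerivAt_pairSum e us fun a ha =>
        h u (List.mem_cons_self ..) a (List.mem_cons_of_mem _ ha)).const_mul (2 : ℝ))).fun_add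
      (hasDerivAt_qfn rows us fun a ha b hb =>
        h a (List.mem_cons_of_mem _ ha) b (List.mem_cons_of_mem _ hb)))

lemma norm_circle {r : ℝ} (hr : 0 ≤ r) (θ : ℝ) : ‖circleMap 0 r θ‖ = r := by
  simp [abs_of_nonneg hr]

section
variable {f : ℂ → ℂ} (hf : DifferentiableOn ℂ f (ball 0 1))
  (hd : ∀ z ∈ ball (0 : ℂ) 1, deriv f z ≠ 0)
include hf hd

lemma cont_sjet (k : ℕ) : Continuous fun z : ball (0 : ℂ) 1 => sjet f (z : ℂ) k := by
  have h : ContinuousOn (fun z => sjet f z k) (ball 0 1) := by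
    unfold sjet
    have h1 : ContinuousOn (iteratedDeriv (k + 1) f) (ball 0 1) := fun z hz =>
      (Means.hasDerivAt_iteratedDeriv hf (k + 1) hz).continuousAt.continuousWithinAt
    exact (((by fun_prop : Continuous fun z : ℂ => ((1 - ‖z‖ ^ 2 : ℝ) : ℂ) * z).continuousOn).pow k).mul
      (h1.div (continuousOn_const.mul (hf.deriv isOpen_ball).continuousOn)
        fun z hz => mul_ne_zero (Nat.cast_ne_zero.2 (Nat.factorial_ne_zero _)) (hd z hz))
  exact continuousOn_iff_continuous_domRestrict.1 h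

lemma cont_ev (c : List ℤ) :
    Continuous fun z : ball (0 : ℂ) 1 => ev c (monList (sjet f (z : ℂ))) := by
  let E : ℕ → ball (0 : ℂ) 1 → ℂ := fun k z => sjet f (z : ℂ) k
  have hE : ∀ k, Continuous (E k) := fun k => cont_sjet hf hd k
  have e : ∀ z : ball (0 : ℂ) 1,
      monList (sjet f (z : ℂ)) = (monList' E).map fun g => g z := fun z => by
    simp [monList, monList', E]
  simp only [e]
  exact continuous_ev c _ (by
    simp only [monList', List.mem_cons, List.not_mem_nil, or_false, forall_eq_or_imp, forall_eq]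
    refine ⟨?_, ?_, ?_, ?_, ?_, ?_, ?_, ?_, ?_, ?_, ?_, ?_, ?_, ?_, ?_, ?_, ?_, ?_, ?_, ?_, ?_, ?_,
      ?_, ?_, ?_, ?_, ?_, ?_, ?_, ?_⟩
    all_goals first
      | exact continuous_const
      | repeat' (first | exact hE _ | apply Continuous.mul))

lemma cont_qd : Continuous fun z : ball (0 : ℂ) 1 => qd f (z : ℂ) :=
  continuousOn_iff_continuous_domRestrict.1 ((hf.deriv isOpen_ball).continuousOn.inv₀ hd)

lemma contOn_W2 : ContinuousOn (W2 f) (ball 0 1) :=
  continuousOn_iff_continuous_domRestrict.2 ((cont_qd hf hd).norm.pow 2)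

lemma contOn_sX : ContinuousOn (sX f) (ball 0 1) :=
  continuousOn_iff_continuous_domRestrict.2 (by
    show Continuous fun z : ball (0 : ℂ) 1 => sX f (z : ℂ)
    exact (continuous_const.mul (Complex.continuous_re.comp (cont_sjet hf hd 1))).mul
      ((cont_qd hf hd).norm.pow 2))

lemma contOn_pX : ContinuousOn (pX f) (ball 0 1) :=
  continuousOn_iff_continuous_domRestrict.2 (by
    refine continuous_qfn _ _ fun a b => ?_
    exact Complex.continuous_re.comp (((cont_qd hf hd).mul (cont_ev hf hd (a.getD 0 []))).mul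
      (Complex.continuous_conj.comp ((cont_qd hf hd).mul (cont_ev hf hd (b.getD 0 []))))))

lemma contOn_gX : ContinuousOn (gX f) (ball 0 1) :=
  continuousOn_iff_continuous_domRestrict.2 (by
    refine ((cont_qd hf hd).norm.pow 2).mul (continuous_qfn _ _ fun a b => ?_)
    have := cont_ev hf hd
    simp only [gz, rK, cp]
    fun_prop)

lemma contOn_rotX (l : List (ℤ × ℕ × ℕ)) : ContinuousOn (fun z => rotX f z l) (ball 0 1) :=
  continuousOn_iff_continuous_domRestrict.2 (by
    refine ((cont_qd hf hd).norm.pow 2).mul (continuous_list_sum _ fun p _ => ?_)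
    have := cont_ev hf hd
    simp only [rotTerm, rK]
    fun_prop)

omit hf hd in
lemma cont_circle {g : ℂ → ℝ} (hg : ContinuousOn g (ball 0 1)) {r : ℝ} (hr : r ∈ Ico (0 : ℝ) 1) :
    Continuous fun θ => g (circleMap 0 r θ) :=
  hg.comp_continuous (continuous_circleMap 0 r) fun θ => Means.mem_disc hr θ

omit hf hd in
lemma intble {g : ℂ → ℝ} (hg : ContinuousOn g (ball 0 1)) {r : ℝ} (hr : r ∈ Ico (0 : ℝ) 1) :
    IntervalIntegrable (fun θ => g (circleMap 0 r θ)) volume (-π) π :=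
  (cont_circle hg hr).intervalIntegrable _ _

omit hf hd in
/-- Differentiation of a circle integral in the radius. -/
lemma circInt_deriv {g g' : ℂ → ℝ} (hg : ContinuousOn g (ball 0 1))
    (hg' : ContinuousOn g' (ball 0 1)) {k : ℝ → ℝ} (hk : ContinuousOn k (Ioo 0 1))
    (h : ∀ x ∈ Ioo (0 : ℝ) 1, ∀ θ,
      HasDerivAt (fun y => g (circleMap 0 y θ)) (k x * g' (circleMap 0 x θ)) x)
    {r : ℝ} (hr : r ∈ Ioo (0 : ℝ) 1) : HasDerivAt (circInt g) (k r * circInt g' r) r := by
  obtain ⟨a, ha, har⟩ := exists_between hr.1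
  obtain ⟨b, hrb, hb⟩ := exists_between hr.2
  have hπ : -π ≤ π := by linarith [Real.pi_pos]
  have hsub : Icc a b ⊆ Ioo (0 : ℝ) 1 := fun x hx => ⟨ha.trans_le hx.1, hx.2.trans_lt hb⟩
  have hc : ContinuousOn (fun p : ℝ × ℝ => k p.1 * g' (circleMap 0 p.1 p.2))
      (Icc a b ×ˢ Icc (-π) π) := by
    refine (hk.comp continuous_fst.continuousOn fun p hp => hsub hp.1).mul
      (hg'.comp ?_ fun p hp => Means.mem_disc (Ioo_subset_Ico_self (hsub hp.1)) p.2)
    simp only [circleMap_zero]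
    fun_prop
  obtain ⟨C, hC⟩ := (isCompact_Icc.prod isCompact_Icc).exists_bound_of_continuousOn hc
  have hco : Continuous fun θ => k r * g' (circleMap 0 r θ) :=
    continuous_const.mul (cont_circle hg' (Ioo_subset_Ico_self hr))
  have hmain := (intervalIntegral.hasDerivAt_integral_of_dominated_loc_of_deriv_le (μ := volume)
    (a := -π) (b := π) (F := fun x θ => g (circleMap 0 x θ))
    (F' := fun x θ => k x * g' (circleMap 0 x θ)) (bound := fun _ => C) (Ioo_mem_nhds har hrb) ?_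
    (intble hg (Ioo_subset_Ico_self hr)) hco.aestronglyMeasurable ?_
    (intervalIntegrable_const : IntervalIntegrable (fun _ : ℝ => C) volume (-π) π) ?_).2
  · exact hmain.congr_deriv (by simp only [intervalIntegral.integral_const_mul, circInt])
  · filter_upwards [Ioo_mem_nhds har hrb] with x hx
    exact (cont_circle hg (Ioo_subset_Ico_self (hsub (Ioo_subset_Icc_self hx)))).aestronglyMeasurable
  · refine ae_of_all _ fun θ hθ x hx => hC (x, θ) ⟨Ioo_subset_Icc_self hx, ?_⟩
    rw [uIoc_of_le hπ] at hθ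
    exact Ioc_subset_Icc_self hθ
  · exact ae_of_all _ fun θ _ x hx => h x (hsub (Ioo_subset_Icc_self hx)) θ

lemma pX_radial {r : ℝ} (hr : r ∈ Ioo (0 : ℝ) 1) (θ : ℝ) :
    HasDerivAt (fun y => pX f (circleMap 0 y θ))
      ((15 * (r * (1 - r ^ 2)))⁻¹ *
        (gX f (circleMap 0 r θ) + 36 * pX f (circleMap 0 r θ))) r := by
  set z := circleMap 0 r θ with hz
  have hn : ‖z‖ ^ 2 = r ^ 2 := norm_sq_circle r θ
  refine (hasDerivAt_qfn wXZ vXZ fun a ha b hb =>
    hasDerivAt_rK (Vz_radial hf hd hr θ a ha) (Vz_radial hf hd hr θ b hb)).congr_deriv ?_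
  rw [gX, pX_eq, ← qfn_mul, ← qfn_mul, ← qfn_mul, ← qfn_add, ← qfn_mul]
  refine qfn_congr _ _ fun a _ b _ => ?_
  rw [← hz, hn]
  simp only [Vz, gz, rK, W2, map_mul, map_inv₀, map_add, Complex.conj_ofReal, ← Complex.ofReal_inv,
    Complex.mul_re, Complex.mul_im, Complex.add_re, Complex.add_im, Complex.conj_re,
    Complex.conj_im, Complex.ofReal_re, Complex.ofReal_im, Complex.sq_norm, Complex.normSq_apply,
    mul_inv]
  ring

lemma W2_radial {r : ℝ} (hr : r ∈ Ioo (0 : ℝ) 1) (θ : ℝ) :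
    HasDerivAt (fun y => W2 f (circleMap 0 y θ))
      ((r * (1 - r ^ 2))⁻¹ * sX f (circleMap 0 r θ)) r := by
  have h := hasDerivAt_rK (qd_radial hf hd hr θ) (qd_radial hf hd hr θ)
  simp only [rK_self] at h
  refine h.congr_deriv ?_
  simp only [sX, W2, rK, map_mul, map_inv₀, map_neg, map_ofNat, ← Complex.ofReal_inv,
    Complex.conj_ofReal, Complex.mul_re, Complex.mul_im, Complex.conj_re, Complex.conj_im,
    Complex.ofReal_re, Complex.ofReal_im, Complex.neg_re, Complex.neg_im, Complex.re_ofNat,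
    Complex.im_ofNat, Complex.sq_norm, Complex.normSq_apply]
  ring

lemma rot_zero {r : ℝ} (hr : r ∈ Ioo (0 : ℝ) 1) :
    ∀ l : List (ℤ × ℕ × ℕ), (∀ p ∈ l, p.2.1 < 19 ∧ p.2.2 < 19) →
      circInt (fun z => rotX f z l) r = 0
  | [], _ => by simp [circInt, rotX]
  | p :: l, h => by
    obtain ⟨hi, hk⟩ := h p (List.mem_cons_self ..)
    have hr' := Ioo_subset_Ico_self hr
    have hs : (1 - r ^ 2 : ℝ) ≠ 0 := by nlinarith [hr.1, hr.2]
    have hc : Continuous fun θ => (1 - r ^ 2)⁻¹ *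
        (W2 f (circleMap 0 r θ) * rotTerm (r ^ 2) (sjet f (circleMap 0 r θ)) p.2.1 p.2.2) := by
      have := cont_circle (contOn_rotX hf hd [((1 : ℤ), p.2.1, p.2.2)]) hr'
      simp only [rotX, List.map_cons, List.map_nil, List.sum_cons, List.sum_nil, Int.cast_one,
        one_mul, add_zero, norm_sq_circle] at this
      exact continuous_const.mul this
    have h0 : ∫ θ in (-π)..π, (1 - r ^ 2)⁻¹ * (W2 f (circleMap 0 r θ) *
        rotTerm (r ^ 2) (sjet f (circleMap 0 r θ)) p.2.1 p.2.2) = 0 := by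
      rw [intervalIntegral.integral_eq_sub_of_hasDerivAt
        (fun θ _ => rot_deriv hf hd hr θ p.2.1 p.2.2 hi hk) (hc.intervalIntegrable _ _)]
      rw [show circleMap 0 r π = circleMap 0 r (-π) from by
        rw [← periodic_circleMap 0 r (-π)]; ring_nf, sub_self]
    rw [intervalIntegral.integral_const_mul, mul_eq_zero, or_iff_right (inv_ne_zero hs)] at h0
    have ih := rot_zero hr l fun q hq => h q (List.mem_cons_of_mem _ hq)
    simp only [circInt, rotX, norm_sq_circle] at ih ⊢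
    have hi1 := intble (contOn_rotX hf hd [((1 : ℤ), p.2.1, p.2.2)]) hr'
    have hi2 := intble (contOn_rotX hf hd l) hr'
    simp only [rotX, List.map_cons, List.map_nil, List.sum_cons, List.sum_nil, Int.cast_one,
      one_mul, add_zero, norm_sq_circle] at hi1 hi2
    simp only [List.map_cons, List.sum_cons, mul_add, mul_left_comm (W2 f _) ((p.1 : ℤ) : ℝ)]
    rw [intervalIntegral.integral_add (hi1.const_mul _) hi2, intervalIntegral.integral_const_mul,
      h0, ih]
    simp

end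

/-- **Growth bound.** The circle integrals of `|f'| ^ (-2)` grow at most like `(1 - r) ^ (-6/5)`. -/
theorem circInt_bound {f : ℂ → ℂ} (hf : DifferentiableOn ℂ f (ball 0 1))
    (hinj : InjOn f (ball 0 1)) :
    ∃ C : ℝ, ∀ r ∈ Ico (0 : ℝ) 1, circInt (W2 f) r ≤ C * (1 - r) ^ (-(6 / 5) : ℝ) := by
  have hd : ∀ z ∈ ball (0 : ℂ) 1, deriv f z ≠ 0 := fun z hz =>
    deriv_ne_zero_of_injOn isOpen_ball hf hinj hz
  have hπ : -π ≤ π := by linarith [Real.pi_pos]
  obtain ⟨δ, hδ, hδ2, hsmall⟩ := phi_small (10 ^ 8) one_pos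
  obtain ⟨c, hc⟩ : ∃ c : ℝ, c = (cPrincipal : ℝ) := ⟨_, rfl⟩
  have hc1 : 1 < c := by
    rw [hc]; exact_mod_cast (show (1 : ℤ) < cPrincipal by decide +kernel)
  set r₁ : ℝ := 1 - δ / 2 with hr₁
  have hr₁0 : 0 < r₁ := by linarith
  have hr₁1 : r₁ < 1 := by linarith
  set η : ℝ := (c - 1) / (6 * 10 ^ 9) with hη
  have hη0 : 0 < η := div_pos (by linarith) (by norm_num)
  set P := circInt (pX f)
  set I := circInt (W2 f)
  set G := circInt (gX f)
  set S := circInt (sX f)
  have hIoo : Ico r₁ 1 ⊆ Ioo (0 : ℝ) 1 := fun x hx => ⟨hr₁0.trans_le hx.1, hx.2⟩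
  -- derivatives
  have dP : ∀ r ∈ Ioo (0 : ℝ) 1,
      HasDerivAt P ((15 * (r * (1 - r ^ 2)))⁻¹ * (G r + 36 * P r)) r := by
    intro r hr
    have hk : ContinuousOn (fun x : ℝ => (15 * (x * (1 - x ^ 2)))⁻¹) (Ioo 0 1) :=
      (by fun_prop : Continuous fun x : ℝ => 15 * (x * (1 - x ^ 2))).continuousOn.inv₀
        fun x hx => mul_ne_zero (by norm_num)
          (mul_ne_zero hx.1.ne' (by nlinarith [hx.1, hx.2]))
    have h36 : ContinuousOn (fun z => gX f z + 36 * pX f z) (ball 0 1) :=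
      (contOn_gX hf hd).add ((contOn_pX hf hd).const_smul (36 : ℝ))
    refine (circInt_deriv (contOn_pX hf hd) h36 hk
      (fun x hx θ => pX_radial hf hd hx θ) hr).congr_deriv ?_
    congr 1
    simp only [G, P, circInt]
    rw [intervalIntegral.integral_add (intble (contOn_gX hf hd) (Ioo_subset_Ico_self hr))
      ((intble (contOn_pX hf hd) (Ioo_subset_Ico_self hr)).const_mul _),
      intervalIntegral.integral_const_mul]
  have dI : ∀ r ∈ Ioo (0 : ℝ) 1, HasDerivAt I ((r * (1 - r ^ 2))⁻¹ * S r) r := by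
    intro r hr
    have hk : ContinuousOn (fun x : ℝ => (x * (1 - x ^ 2))⁻¹) (Ioo 0 1) :=
      (by fun_prop : Continuous fun x : ℝ => x * (1 - x ^ 2)).continuousOn.inv₀
        fun x hx => mul_ne_zero hx.1.ne' (by nlinarith [hx.1, hx.2])
    exact circInt_deriv (contOn_W2 hf hd) (contOn_sX hf hd) hk
      (fun x hx θ => W2_radial hf hd hx θ) hr
  -- pointwise bounds
  have hIpos : ∀ r, 0 ≤ I r := fun r => intervalIntegral.integral_nonneg hπ fun θ _ => sq_nonneg _
  have hPpos : ∀ r, 0 ≤ P r := fun r =>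
    intervalIntegral.integral_nonneg hπ fun θ _ => pX_nonneg f _
  have hS : ∀ r ∈ Ioo (0 : ℝ) 1, S r ≤ 4 * 10 ^ 8 * I r := by
    intro r hr
    have hr' := Ioo_subset_Ico_self hr
    simp only [S, I, circInt, ← intervalIntegral.integral_const_mul]
    refine intervalIntegral.integral_mono_on hπ (intble (contOn_sX hf hd) hr')
      ((intble (contOn_W2 hf hd) hr').const_mul _) fun θ _ => ?_
    have hz := Means.mem_disc hr' θ
    have hz0 : circleMap 0 r θ ≠ 0 := circleMap_ne_center hr.1.ne'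
    have hb := sjet_bound hf hinj hz hz0 1 (by simp)
    have h1 := (abs_le.1 (Complex.abs_re_le_norm (sjet f (circleMap 0 r θ) 1))).1
    simp only [sX]
    have hw : 0 ≤ W2 f (circleMap 0 r θ) := sq_nonneg _
    nlinarith
  have hG : ∀ r ∈ Ico r₁ 1, G r ≤ -(c - 1) * I r := by
    intro r hr
    have hr0 := hIoo hr
    have hr' := Ioo_subset_Ico_self hr0
    have hrot : ∀ p ∈ nuList, p.2.1 < 19 ∧ p.2.2 < 19 := fun p hp => by
      simpa using List.all_eq_true.1 nuList_ok p hp
    have hz := rot_zero hf hd hr0 nuList hrot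
    have i1 := intble (contOn_gX hf hd) hr'
    have i2 := intble (contOn_W2 hf hd) hr'
    have i3 := intble (contOn_rotX hf hd nuList) hr'
    have key : ∫ θ in (-π)..π, (gX f (circleMap 0 r θ) +
        (c - 1) * W2 f (circleMap 0 r θ) + rotX f (circleMap 0 r θ) nuList) ≤ 0 := by
      refine (intervalIntegral.integral_mono_on hπ ((i1.add (i2.const_mul _)).add i3)
        (intervalIntegrable_const (c := (0 : ℝ))) fun θ _ => ?_).trans_eq
        intervalIntegral.integral_zero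
      have hz := Means.mem_disc hr' θ
      have hz0 : circleMap 0 r θ ≠ 0 := circleMap_ne_center hr0.1.ne'
      have hn : ‖circleMap 0 r θ‖ ^ 2 = r ^ 2 := norm_sq_circle r θ
      obtain ⟨b0, b1, b3, b4⟩ := blocks_nonneg hf hinj hz hz0
      have ht : r ^ 2 ∈ Icc (1 - δ) 1 := by
        constructor <;> nlinarith [hr.1, hr.2, hr0.1]
      have hA0 : sjet f (circleMap 0 r θ) 0 = 1 := by
        simp [sjet, hd _ hz]
      have hp := (abs_le.1 (hsmall (r ^ 2) ht _ hA0 (sjet_bound hf hinj hz hz0))).2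
      rw [hn] at b1 b3 b4
      simp only [phi, ← hc] at hp
      have hw : 0 ≤ W2 f (circleMap 0 r θ) := sq_nonneg _
      simp only [gX, rotX, hn]
      rw [mul_comm (c - 1) (W2 f _), ← mul_add, ← mul_add]
      exact mul_nonpos_of_nonneg_of_nonpos hw (by linarith)
    rw [intervalIntegral.integral_add (i1.add (i2.const_mul _)) i3,
      intervalIntegral.integral_add i1 (i2.const_mul _), intervalIntegral.integral_const_mul] at key
    simp only [circInt] at hz
    simp only [G, I, circInt]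
    linarith
  -- the monotone quantity
  set Q : ℝ → ℝ := fun r => P r + η * I r with hQ
  set Φ : ℝ → ℝ := fun r => Q r * ((1 - r ^ 2) / r ^ 2) ^ (6 / 5 : ℝ) with hΦ
  have hq : ∀ r ∈ Ioo (0 : ℝ) 1, 0 < (1 - r ^ 2) / r ^ 2 := fun r hr =>
    div_pos (by nlinarith [hr.1, hr.2]) (pow_pos hr.1 2)
  have dΦ : ∀ r ∈ Ioo (0 : ℝ) 1, HasDerivAt Φ
      (((1 - r ^ 2) / r ^ 2) ^ (6 / 5 - 1 : ℝ) / (15 * r ^ 3) *
        (G r + 15 * η * S r - 36 * η * I r)) r := by
    intro r hr
    have h0 := hq r hr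
    have hsq : HasDerivAt (fun x : ℝ => x ^ 2) (2 * r) r := by simpa using hasDerivAt_pow 2 r
    have hpw := ((hsq.const_sub 1).div hsq (pow_ne_zero 2 hr.1.ne')).rpow_const
      (p := (6 / 5 : ℝ)) (Or.inl h0.ne')
    refine (((dP r hr).add ((dI r hr).const_mul η)).mul hpw).congr_deriv ?_
    simp only [Pi.div_apply, Pi.add_apply]
    rw [show ((1 - r ^ 2) / r ^ 2) ^ (6 / 5 : ℝ) =
      ((1 - r ^ 2) / r ^ 2) ^ (6 / 5 - 1 : ℝ) * ((1 - r ^ 2) / r ^ 2) by
        rw [← Real.rpow_add_one h0.ne']; norm_num]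
    generalize ((1 - r ^ 2) / r ^ 2) ^ (6 / 5 - 1 : ℝ) = T
    have : (1 - r ^ 2 : ℝ) ≠ 0 := by nlinarith [hr.1, hr.2]
    have := hr.1.ne'
    field_simp
    ring
  have hanti : AntitoneOn Φ (Ico r₁ 1) := by
    refine antitoneOn_of_hasDerivWithinAt_nonpos (convex_Ico _ _)
      (fun x hx => (dΦ x (hIoo hx)).continuousAt.continuousWithinAt)
      (fun x hx => (dΦ x (hIoo (interior_subset hx))).hasDerivWithinAt) fun x hx => ?_
    have hx' := hIoo (interior_subset hx)
    refine mul_nonpos_of_nonneg_of_nonpos (div_nonneg (Real.rpow_nonneg (hq x hx').le _)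
      (mul_nonneg (by norm_num) (pow_nonneg hx'.1.le 3))) ?_
    have h1 := hG x (interior_subset hx)
    have h2 := mul_le_mul_of_nonneg_left (hS x hx') (show (0 : ℝ) ≤ 15 * η by positivity)
    have h3 : 15 * η * (4 * 10 ^ 8) = c - 1 := by rw [hη]; ring
    have h4 : 15 * η * (4 * 10 ^ 8 * I x) = (c - 1) * I x := by rw [← mul_assoc, h3]
    nlinarith [mul_nonneg hη0.le (hIpos x)]
  -- the central part
  obtain ⟨M, hM⟩ := (isCompact_closedBall (0 : ℂ) r₁).exists_bound_of_continuousOn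
    ((contOn_W2 hf hd).mono (closedBall_subset_ball hr₁1))
  refine ⟨max (Φ r₁ / η) (2 * π * M), fun r hr => ?_⟩
  have hm : 0 < 1 - r := by linarith [hr.2]
  have hp1 : 1 ≤ (1 - r) ^ (-(6 / 5) : ℝ) :=
    Real.one_le_rpow_of_pos_of_le_one_of_nonpos hm (by linarith [hr.1]) (by norm_num)
  change I r ≤ _
  rcases le_or_gt r r₁ with hle | hgt
  · have hM0 : 0 ≤ M := (norm_nonneg _).trans (hM 0 (by simp [hr₁0.le]))
    have h : I r ≤ 2 * π * M := by
      refine (intervalIntegral.integral_mono_on hπ (intble (contOn_W2 hf hd) hr)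
        (intervalIntegrable_const (c := M)) fun θ _ => ?_).trans_eq
        (by rw [intervalIntegral.integral_const, smul_eq_mul]; ring)
      exact (le_abs_self _).trans (hM (circleMap 0 r θ) (by
        rw [mem_closedBall, dist_zero_right, norm_circle hr.1]; exact hle))
    calc I r ≤ 2 * π * M * 1 := by rw [mul_one]; exact h
      _ ≤ 2 * π * M * (1 - r) ^ (-(6 / 5) : ℝ) := mul_le_mul_of_nonneg_left hp1 (by positivity)
      _ ≤ _ := mul_le_mul_of_nonneg_right (le_max_right _ _) (Real.rpow_nonneg hm.le _)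
  · have hrI : r ∈ Ico r₁ 1 := ⟨hgt.le, hr.2⟩
    have hle := hanti (left_mem_Ico.2 hr₁1) hrI hgt.le
    have hr0 := hIoo hrI
    have hq0 := hq r hr0
    have hlow : (1 - r) ^ (6 / 5 : ℝ) ≤ ((1 - r ^ 2) / r ^ 2) ^ (6 / 5 : ℝ) := by
      refine Real.rpow_le_rpow hm.le ?_ (by norm_num)
      rw [le_div_iff₀ (pow_pos hr0.1 2)]
      nlinarith [hr0.1, hr0.2, mul_pos hm hr0.1, mul_pos (mul_pos hm hr0.1) hr0.1]
    have h1 : η * I r * (1 - r) ^ (6 / 5 : ℝ) ≤ Φ r₁ := by
      refine le_trans ?_ hle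
      simp only [hΦ, hQ]
      exact mul_le_mul (le_add_of_nonneg_left (hPpos r)) hlow (Real.rpow_nonneg hm.le _)
        (add_nonneg (hPpos r) (mul_nonneg hη0.le (hIpos r)))
    refine le_trans ?_ (mul_le_mul_of_nonneg_right (le_max_left _ _) (Real.rpow_nonneg hm.le _))
    rw [Real.rpow_neg hm.le, ← div_eq_mul_inv,
      le_div_iff₀ (Real.rpow_pos_of_pos hm _), le_div_iff₀ hη0]
    linarith

end Vale.Agent.P142
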