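import Vale.Agent.P142.JetsDefs

/-! The vectors of the certificate are the Laurent coefficients at `ρ = 1`. -/

noncomputable section

namespace Vale.Agent.P142

/-- The Laurent identities for one tuple of the block. -/
def OKX1 (u : List (List ℤ)) : Prop := ∀ A : ℕ → ℂ,
    bC1 1 A (ev (u.getD 0 []) (monList A)) (ev (u.getD 1 []) (monList A)) 0 = ev (u.getD 2 []) (monList A)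

lemma row_X1_0 : OKX1
    [[1, 0, 0, 0, 0, 0, 0, 0, 0, 0, 0, 0, 0, 0, 0, 0, 0, 0, 0, 0, 0, 0, 0, 0, 0, 0, 0, 0, 0, 0], [0, 0, 0, 0, 0, 0, 0, 0, 0, 0, 0, 0, 0, 0, 0, 0, 0, 0, 0, 0, 0, 0, 0, 0, 0, 0, 0, 0, 0, 0], [0, 0, -1, 1, 0, 0, 0, 0, 0, 0, 0, 0, 0, 0, 0, 0, 0, 0, 0, 0, 0, 0, 0, 0, 0, 0, 0, 0, 0, 0]] := by
  intro A
  simp [bC1, pC1, pC2, kC6, kC5, kC4, kC3, kC2, kC1, jC6, jC5, jC4, jC3, jC2, jC1, iC6, iC5, iC4, iC3, iC2, iC1, aC6, aC5, aC4, aC3, aC2, aC1, ev, monList]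
  try ring

lemma row_X1_1 : OKX1
    [[0, 1, 0, 0, 0, 0, 0, 0, 0, 0, 0, 0, 0, 0, 0, 0, 0, 0, 0, 0, 0, 0, 0, 0, 0, 0, 0, 0, 0, 0], [0, 0, 0, 0, 0, 0, 0, 0, 0, 0, 0, 0, 0, 0, 0, 0, 0, 0, 0, 0, 0, 0, 0, 0, 0, 0, 0, 0, 0, 0], [0, 0, 0, 0, 0, -1, 1, 0, 0, 0, 0, 0, 0, 0, 0, 0, 0, 0, 0, 0, 0, 0, 0, 0, 0, 0, 0, 0, 0, 0]] := by
  intro A
  simp [bC1, pC1, pC2, kC6, kC5, kC4, kC3, kC2, kC1, jC6, jC5, jC4, jC3, jC2, jC1, iC6, iC5, iC4, iC3, iC2, iC1, aC6, aC5, aC4, aC3, aC2, aC1, ev, monList]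
  try ring

lemma row_X1_2 : OKX1
    [[0, 0, 1, 0, 0, 0, 0, 0, 0, 0, 0, 0, 0, 0, 0, 0, 0, 0, 0, 0, 0, 0, 0, 0, 0, 0, 0, 0, 0, 0], [0, 0, 0, 0, 0, 0, 0, 0, 0, 0, 0, 0, 0, 0, 0, 0, 0, 0, 0, 0, 0, 0, 0, 0, 0, 0, 0, 0, 0, 0], [0, 0, 0, 0, 0, 0, 0, 0, 0, -1, 1, 0, 0, 0, 0, 0, 0, 0, 0, 0, 0, 0, 0, 0, 0, 0, 0, 0, 0, 0]] := by
  intro A
  simp [bC1, pC1, pC2, kC6, kC5, kC4, kC3, kC2, kC1, jC6, jC5, jC4, jC3, jC2, jC1, iC6, iC5, iC4, iC3, iC2, iC1, aC6, aC5, aC4, aC3, aC2, aC1, ev, monList]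
  try ring

lemma row_X1_3 : OKX1
    [[0, 0, 0, 1, 0, 0, 0, 0, 0, 0, 0, 0, 0, 0, 0, 0, 0, 0, 0, 0, 0, 0, 0, 0, 0, 0, 0, 0, 0, 0], [0, 0, 0, 0, 0, 0, 0, 0, 0, 0, 0, 0, 0, 0, 0, 0, 0, 0, 0, 0, 0, 0, 0, 0, 0, 0, 0, 0, 0, 0], [0, 0, 0, 0, 0, 0, 0, 0, 0, 0, -1, 1, 0, 0, 0, 0, 0, 0, 0, 0, 0, 0, 0, 0, 0, 0, 0, 0, 0, 0]] := by
  intro A
  simp [bC1, pC1, pC2, kC6, kC5, kC4, kC3, kC2, kC1, jC6, jC5, jC4, jC3, jC2, jC1, iC6, iC5, iC4, iC3, iC2, iC1, aC6, aC5, aC4, aC3, aC2, aC1, ev, monList]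
  try ring

lemma row_X1_4 : OKX1
    [[0, 0, 0, 0, 1, -1, 0, 0, 0, 0, 0, 0, 0, 0, 0, 0, 0, 0, 0, 0, 0, 0, 0, 0, 0, 0, 0, 0, 0, 0], [0, 0, 0, 0, 0, 0, 0, 0, 0, 0, 0, 0, 0, 0, 0, 0, 0, 0, 0, 0, 0, 0, 0, 0, 0, 0, 0, 0, 0, 0], [0, 0, 0, 0, 0, 0, 0, 0, 0, 0, 0, 0, 0, 0, -1, 1, 1, -1, 0, 0, 0, 0, 0, 0, 0, 0, 0, 0, 0, 0]] := by
  intro A
  simp [bC1, pC1, pC2, kC6, kC5, kC4, kC3, kC2, kC1, jC6, jC5, jC4, jC3, jC2, jC1, iC6, iC5, iC4, iC3, iC2, iC1, aC6, aC5, aC4, aC3, aC2, aC1, ev, monList]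
  try ring

lemma row_X1_5 : OKX1
    [[0, 0, 0, 0, 0, 1, -1, 0, 0, 0, 0, 0, 0, 0, 0, 0, 0, 0, 0, 0, 0, 0, 0, 0, 0, 0, 0, 0, 0, 0], [0, 0, 0, 0, 0, 0, 0, 0, 0, 0, 0, 0, 0, 0, 0, 0, 0, 0, 0, 0, 0, 0, 0, 0, 0, 0, 0, 0, 0, 0], [0, 0, 0, 0, 0, 0, 0, 0, 0, 0, 0, 0, 0, 0, 0, 0, -1, 2, -1, 0, 0, 0, 0, 0, 0, 0, 0, 0, 0, 0]] := by
  intro A
  simp [bC1, pC1, pC2, kC6, kC5, kC4, kC3, kC2, kC1, jC6, jC5, jC4, jC3, jC2, jC1, iC6, iC5, iC4, iC3, iC2, iC1, aC6, aC5, aC4, aC3, aC2, aC1, ev, monList]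
  try ring

lemma row_X1_6 : OKX1
    [[0, 0, 0, 0, 0, 0, 0, 1, -1, 0, 0, 0, 0, 0, 0, 0, 0, 0, 0, 0, 0, 0, 0, 0, 0, 0, 0, 0, 0, 0], [0, 0, 0, 0, 0, 0, 0, 0, 0, 0, 0, 0, 0, 0, 0, 0, 0, 0, 0, 0, 0, 0, 0, 0, 0, 0, 0, 0, 0, 0], [0, 0, 0, 0, 0, 0, 0, 0, 0, 0, 0, 0, 0, 0, 0, 0, 0, 0, 0, 0, 0, -1, 1, 0, 1, -1, 0, 0, 0, 0]] := by
  intro A
  simp [bC1, pC1, pC2, kC6, kC5, kC4, kC3, kC2, kC1, jC6, jC5, jC4, jC3, jC2, jC1, iC6, iC5, iC4, iC3, iC2, iC1, aC6, aC5, aC4, aC3, aC2, aC1, ev, monList]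
  try ring

lemma row_X1_7 : OKX1
    [[0, 0, 0, 0, 0, 0, 0, 0, 1, -1, 0, 0, 0, 0, 0, 0, 0, 0, 0, 0, 0, 0, 0, 0, 0, 0, 0, 0, 0, 0], [0, 0, 0, 0, 0, 0, 0, 0, 0, 0, 0, 0, 0, 0, 0, 0, 0, 0, 0, 0, 0, 0, 0, 0, 0, 0, 0, 0, 0, 0], [0, 0, 0, 0, 0, 0, 0, 0, 0, 0, 0, 0, 0, 0, 0, 0, 0, 0, 0, 0, 0, 0, 0, 0, -1, 1, 1, -1, 0, 0]] := by
  intro A
  simp [bC1, pC1, pC2, kC6, kC5, kC4, kC3, kC2, kC1, jC6, jC5, jC4, jC3, jC2, jC1, iC6, iC5, iC4, iC3, iC2, iC1, aC6, aC5, aC4, aC3, aC2, aC1, ev, monList]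
  try ring

lemma row_X1_8 : OKX1
    [[0, 0, 0, 0, 0, 0, 0, 0, 0, 1, -1, 0, 0, 0, 0, 0, 0, 0, 0, 0, 0, 0, 0, 0, 0, 0, 0, 0, 0, 0], [0, 0, 0, 0, 0, 0, 0, 0, 0, 0, 0, 0, 0, 0, 0, 0, 0, 0, 0, 0, 0, 0, 0, 0, 0, 0, 0, 0, 0, 0], [0, 0, 0, 0, 0, 0, 0, 0, 0, 0, 0, 0, 0, 0, 0, 0, 0, 0, 0, 0, 0, 0, 0, 0, 0, 0, -1, 2, -1, 0]] := by
  intro A
  simp [bC1, pC1, pC2, kC6, kC5, kC4, kC3, kC2, kC1, jC6, jC5, jC4, jC3, jC2, jC1, iC6, iC5, iC4, iC3, iC2, iC1, aC6, aC5, aC4, aC3, aC2, aC1, ev, monList]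
  try ring

lemma row_X1_9 : OKX1
    [[0, 0, 0, 0, 0, 0, 0, 0, 0, 0, 1, -1, 0, 0, 0, 0, 0, 0, 0, 0, 0, 0, 0, 0, 0, 0, 0, 0, 0, 0], [0, 0, 0, 0, 0, 0, 0, 0, 0, 0, 0, 0, 0, 0, 0, 0, 0, 0, 0, 0, 0, 0, 0, 0, 0, 0, 0, 0, 0, 0], [0, 0, 0, 0, 0, 0, 0, 0, 0, 0, 0, 0, 0, 0, 0, 0, 0, 0, 0, 0, 0, 0, 0, 0, 0, 0, 0, -1, 2, -1]] := by
  intro A
  simp [bC1, pC1, pC2, kC6, kC5, kC4, kC3, kC2, kC1, jC6, jC5, jC4, jC3, jC2, jC1, iC6, iC5, iC4, iC3, iC2, iC1, aC6, aC5, aC4, aC3, aC2, aC1, ev, monList]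
  try ring

lemma row_X1_10 : OKX1
    [[0, 0, 0, 0, 0, 0, 0, 0, 0, 0, 0, 0, 0, 0, 0, 0, 0, 0, 0, 0, 0, 0, 0, 0, 0, 0, 0, 0, 0, 0], [1, 0, 0, 0, 0, 0, 0, 0, 0, 0, 0, 0, 0, 0, 0, 0, 0, 0, 0, 0, 0, 0, 0, 0, 0, 0, 0, 0, 0, 0], [0, 0, 1, -1, -1, 2, -1, 0, 0, 0, 0, 0, 0, 0, 0, 0, 0, 0, 0, 0, 0, 0, 0, 0, 0, 0, 0, 0, 0, 0]] := by
  intro A
  simp [bC1, pC1, pC2, kC6, kC5, kC4, kC3, kC2, kC1, jC6, jC5, jC4, jC3, jC2, jC1, iC6, iC5, iC4, iC3, iC2, iC1, aC6, aC5, aC4, aC3, aC2, aC1, ev, monList]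
  try ring

lemma row_X1_11 : OKX1
    [[0, 0, 0, 0, 0, 0, 0, 0, 0, 0, 0, 0, 0, 0, 0, 0, 0, 0, 0, 0, 0, 0, 0, 0, 0, 0, 0, 0, 0, 0], [0, 1, 0, 0, 0, 0, 0, 0, 0, 0, 0, 0, 0, 0, 0, 0, 0, 0, 0, 0, 0, 0, 0, 0, 0, 0, 0, 0, 0, 0], [0, 0, 0, 0, 0, 1, -1, 0, -1, 0, 2, -1, 0, 0, 0, 0, 0, 0, 0, 0, 0, 0, 0, 0, 0, 0, 0, 0, 0, 0]] := by
  intro A
  simp [bC1, pC1, pC2, kC6, kC5, kC4, kC3, kC2, kC1, jC6, jC5, jC4, jC3, jC2, jC1, iC6, iC5, iC4, iC3, iC2, iC1, aC6, aC5, aC4, aC3, aC2, aC1, ev, monList]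
  try ring

lemma row_X1_12 : OKX1
    [[0, 0, 0, 0, 0, 0, 0, 0, 0, 0, 0, 0, 0, 0, 0, 0, 0, 0, 0, 0, 0, 0, 0, 0, 0, 0, 0, 0, 0, 0], [0, 0, 1, 0, 0, 0, 0, 0, 0, 0, 0, 0, 0, 0, 0, 0, 0, 0, 0, 0, 0, 0, 0, 0, 0, 0, 0, 0, 0, 0], [0, 0, 0, 0, 0, 0, 0, 0, 0, 1, -1, 0, 0, 0, -1, 0, 2, -1, 0, 0, 0, 0, 0, 0, 0, 0, 0, 0, 0, 0]] := by
  intro A
  simp [bC1, pC1, pC2, kC6, kC5, kC4, kC3, kC2, kC1, jC6, jC5, jC4, jC3, jC2, jC1, iC6, iC5, iC4, iC3, iC2, iC1, aC6, aC5, aC4, aC3, aC2, aC1, ev, monList]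
  try ring

lemma row_X1_13 : OKX1
    [[0, 0, 0, 0, 0, 0, 0, 0, 0, 0, 0, 0, 0, 0, 0, 0, 0, 0, 0, 0, 0, 0, 0, 0, 0, 0, 0, 0, 0, 0], [0, 0, 0, 1, 0, 0, 0, 0, 0, 0, 0, 0, 0, 0, 0, 0, 0, 0, 0, 0, 0, 0, 0, 0, 0, 0, 0, 0, 0, 0], [0, 0, 0, 0, 0, 0, 0, 0, 0, 0, 1, -1, 0, 0, 0, -1, 0, 2, -1, 0, 0, 0, 0, 0, 0, 0, 0, 0, 0, 0]] := by
  intro A
  simp [bC1, pC1, pC2, kC6, kC5, kC4, kC3, kC2, kC1, jC6, jC5, jC4, jC3, jC2, jC1, iC6, iC5, iC4, iC3, iC2, iC1, aC6, aC5, aC4, aC3, aC2, aC1, ev, monList]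
  try ring

lemma row_X1_14 : OKX1
    [[0, 0, 0, 0, 0, 0, 0, 0, 0, 0, 0, 0, 0, 0, 0, 0, 0, 0, 0, 0, 0, 0, 0, 0, 0, 0, 0, 0, 0, 0], [0, 0, 0, 0, 1, -1, 0, 0, 0, 0, 0, 0, 0, 0, 0, 0, 0, 0, 0, 0, 0, 0, 0, 0, 0, 0, 0, 0, 0, 0], [0, 0, 0, 0, 0, 0, 0, 0, 0, 0, 0, 0, 0, 0, 1, -1, -1, 1, 0, 0, 0, 0, 0, -1, 3, -1, 0, -2, 1, 0]] := by
  intro A
  simp [bC1, pC1, pC2, kC6, kC5, kC4, kC3, kC2, kC1, jC6, jC5, jC4, jC3, jC2, jC1, iC6, iC5, iC4, iC3, iC2, iC1, aC6, aC5, aC4, aC3, aC2, aC1, ev, monList]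
  try ring

lemma row_X1_15 : OKX1
    [[0, 0, 0, 0, 0, 0, 0, 0, 0, 0, 0, 0, 0, 0, 0, 0, 0, 0, 0, 0, 0, 0, 0, 0, 0, 0, 0, 0, 0, 0], [0, 0, 0, 0, 0, 1, -1, 0, 0, 0, 0, 0, 0, 0, 0, 0, 0, 0, 0, 0, 0, 0, 0, 0, 0, 0, 0, 0, 0, 0], [0, 0, 0, 0, 0, 0, 0, 0, 0, 0, 0, 0, 0, 0, 0, 0, 1, -2, 1, 0, 0, 0, 0, 0, -1, 1, 0, 2, -3, 1]] := by
  intro A
  simp [bC1, pC1, pC2, kC6, kC5, kC4, kC3, kC2, kC1, jC6, jC5, jC4, jC3, jC2, jC1, iC6, iC5, iC4, iC3, iC2, iC1, aC6, aC5, aC4, aC3, aC2, aC1, ev, monList]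
  try ring

theorem ok_X1 : ∀ u ∈ vX1, OKX1 u := by
  simp only [vX1, List.forall_mem_cons, List.not_mem_nil, false_implies, forall_const, and_true]
  exact ⟨row_X1_0, row_X1_1, row_X1_2, row_X1_3, row_X1_4, row_X1_5, row_X1_6, row_X1_7, row_X1_8, row_X1_9, row_X1_10, row_X1_11, row_X1_12, row_X1_13, row_X1_14, row_X1_15⟩

/-- The Laurent identities for one tuple of the block. -/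
def OKX3 (u : List (List ℤ)) : Prop := ∀ A : ℕ → ℂ,
    bC1 1 A (ev (u.getD 0 []) (monList A)) (ev (u.getD 1 []) (monList A)) (ev (u.getD 2 []) (monList A)) = ev (u.getD 3 []) (monList A) ∧
    bC2 1 A (ev (u.getD 0 []) (monList A)) (ev (u.getD 1 []) (monList A)) (ev (u.getD 2 []) (monList A)) = ev (u.getD 4 []) (monList A) ∧
    bC3 1 A (ev (u.getD 0 []) (monList A)) (ev (u.getD 1 []) (monList A)) (ev (u.getD 2 []) (monList A)) = ev (u.getD 5 []) (monList A)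

lemma row_X3_0 : OKX3
    [[1, 0, 0, 0, 0, 0, 0, 0, 0, 0, 0, 0, 0, 0, 0, 0, 0, 0, 0, 0, 0, 0, 0, 0, 0, 0, 0, 0, 0, 0], [0, 0, 0, 0, 0, 0, 0, 0, 0, 0, 0, 0, 0, 0, 0, 0, 0, 0, 0, 0, 0, 0, 0, 0, 0, 0, 0, 0, 0, 0], [0, 0, 0, 0, 0, 0, 0, 0, 0, 0, 0, 0, 0, 0, 0, 0, 0, 0, 0, 0, 0, 0, 0, 0, 0, 0, 0, 0, 0, 0], [0, 0, -1, 1, 0, 0, 0, 0, 0, 0, 0, 0, 0, 0, 0, 0, 0, 0, 0, 0, 0, 0, 0, 0, 0, 0, 0, 0, 0, 0], [0, 0, 1, -1, -1, 2, -1, 0, 0, 0, 0, 0, 0, 0, 0, 0, 0, 0, 0, 0, 0, 0, 0, 0, 0, 0, 0, 0, 0, 0], [0, 0, -1, 1, 2, -4, 2, -1, 2, 1, -3, 1, 0, 0, 0, 0, 0, 0, 0, 0, 0, 0, 0, 0, 0, 0, 0, 0, 0, 0]] := by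
  intro A
  refine ⟨?_, ?_, ?_⟩ <;>
    simp [bC1, bC2, bC3, pC1, pC2, kC6, kC5, kC4, kC3, kC2, kC1, jC6, jC5, jC4, jC3, jC2, jC1, iC6, iC5, iC4, iC3, iC2, iC1, aC6, aC5, aC4, aC3, aC2, aC1, ev, monList] <;> ring

lemma row_X3_1 : OKX3
    [[0, 1, 0, 0, 0, 0, 0, 0, 0, 0, 0, 0, 0, 0, 0, 0, 0, 0, 0, 0, 0, 0, 0, 0, 0, 0, 0, 0, 0, 0], [0, 0, 0, 0, 0, 0, 0, 0, 0, 0, 0, 0, 0, 0, 0, 0, 0, 0, 0, 0, 0, 0, 0, 0, 0, 0, 0, 0, 0, 0], [0, 0, 0, 0, 0, 0, 0, 0, 0, 0, 0, 0, 0, 0, 0, 0, 0, 0, 0, 0, 0, 0, 0, 0, 0, 0, 0, 0, 0, 0], [0, 0, 0, 0, 0, -1, 1, 0, 0, 0, 0, 0, 0, 0, 0, 0, 0, 0, 0, 0, 0, 0, 0, 0, 0, 0, 0, 0, 0, 0], [0, 0, 0, 0, 0, 1, -1, 0, -1, 0, 2, -1, 0, 0, 0, 0, 0, 0, 0, 0, 0, 0, 0, 0, 0, 0, 0, 0, 0, 0], [0, 0, 0,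 0, 0, -1, 1, 0, 2, 0, -4, 2, 0, -1, 0, 2, 1, -3, 1, 0, 0, 0, 0, 0, 0, 0, 0, 0, 0, 0]] := by
  intro A
  refine ⟨?_, ?_, ?_⟩ <;>
    simp [bC1, bC2, bC3, pC1, pC2, kC6, kC5, kC4, kC3, kC2, kC1, jC6, jC5, jC4, jC3, jC2, jC1, iC6, iC5, iC4, iC3, iC2, iC1, aC6, aC5, aC4, aC3, aC2, aC1, ev, monList] <;> ring

lemma row_X3_2 : OKX3
    [[0, 0, 1, 0, 0, 0, 0, 0, 0, 0, 0, 0, 0, 0, 0, 0, 0, 0, 0, 0, 0, 0, 0, 0, 0, 0, 0, 0, 0, 0], [0, 0, 0, 0, 0, 0, 0, 0, 0, 0, 0, 0, 0, 0, 0, 0, 0, 0, 0, 0, 0, 0, 0, 0, 0, 0, 0, 0, 0, 0], [0, 0, 0, 0, 0, 0, 0, 0, 0, 0, 0, 0, 0, 0, 0, 0, 0, 0, 0, 0, 0, 0, 0, 0, 0, 0, 0, 0, 0, 0], [0, 0, 0, 0, 0, 0, 0, 0, 0, -1, 1, 0, 0, 0, 0, 0, 0, 0, 0, 0, 0, 0, 0, 0, 0, 0, 0, 0, 0, 0], [0, 0, 0, 0,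 0, 0, 0, 0, 0, 1, -1, 0, 0, 0, -1, 0, 2, -1, 0, 0, 0, 0, 0, 0, 0, 0, 0, 0, 0, 0], [0, 0, 0, 0, 0, 0, 0, 0, 0, -1, 1, 0, 0, 0, 2, 0, -4, 2, 0, 0, 0, -1, 0, 0, 2, 0, 1, -3, 1, 0]] := by
  intro A
  refine ⟨?_, ?_, ?_⟩ <;>
    simp [bC1, bC2, bC3, pC1, pC2, kC6, kC5, kC4, kC3, kC2, kC1, jC6, jC5, jC4, jC3, jC2, jC1, iC6, iC5, iC4, iC3, iC2, iC1, aC6, aC5, aC4, aC3, aC2, aC1, ev, monList] <;> ring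

lemma row_X3_3 : OKX3
    [[0, 0, 0, 1, 0, 0, 0, 0, 0, 0, 0, 0, 0, 0, 0, 0, 0, 0, 0, 0, 0, 0, 0, 0, 0, 0, 0, 0, 0, 0], [0, 0, 0, 0, 0, 0, 0, 0, 0, 0, 0, 0, 0, 0, 0, 0, 0, 0, 0, 0, 0, 0, 0, 0, 0, 0, 0, 0, 0, 0], [0, 0, 0, 0, 0, 0, 0, 0, 0, 0, 0, 0, 0, 0, 0, 0, 0, 0, 0, 0, 0, 0, 0, 0, 0, 0, 0, 0, 0, 0], [0, 0, 0, 0, 0, 0, 0, 0, 0, 0, -1, 1, 0, 0, 0, 0, 0, 0, 0, 0, 0, 0, 0, 0, 0, 0, 0, 0, 0, 0], [0, 0, 0, 0, 0, 0, 0, 0, 0, 0, 1, -1, 0, 0, 0, -1, 0, 2, -1, 0, 0, 0, 0, 0, 0, 0, 0, 0, 0, 0], [0, 0, 0, 0, 0, 0, 0, 0, 0, 0, -1, 1, 0, 0, 0, 2, 0, -4, 2, 0, 0, 0, -1, 0, 0, 2, 0, 1, -3, 1]] := by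
  intro A
  refine ⟨?_, ?_, ?_⟩ <;>
    simp [bC1, bC2, bC3, pC1, pC2, kC6, kC5, kC4, kC3, kC2, kC1, jC6, jC5, jC4, jC3, jC2, jC1, iC6, iC5, iC4, iC3, iC2, iC1, aC6, aC5, aC4, aC3, aC2, aC1, ev, monList] <;> ring

lemma row_X3_4 : OKX3
    [[0, 0, 0, 0, 0, 0, 0, 0, 0, 0, 0, 0, 0, 0, 0, 0, 0, 0, 0, 0, 0, 0, 0, 0, 0, 0, 0, 0, 0, 0], [2, 0, 0, 0, 0, 0, 0, 0, 0, 0, 0, 0, 0, 0, 0, 0, 0, 0, 0, 0, 0, 0, 0, 0, 0, 0, 0, 0, 0, 0], [0, 0, 0, 0, 0, 0, 0, 0, 0, 0, 0, 0, 0, 0, 0, 0, 0, 0, 0, 0, 0, 0, 0, 0, 0, 0, 0, 0, 0, 0], [0, 0, 2, -2, -2, 4, -2, 0, 0, 0, 0, 0, 0, 0, 0, 0, 0, 0, 0, 0, 0, 0, 0, 0, 0, 0, 0, 0, 0, 0], [0, 0, -2, 2, 4, -8, 4, -2, 4, 3, -8, 3, 0, 0, 0, 0, 0, 0, 0, 0, 0, 0, 0, 0, 0, 0, 0, 0, 0, 0], [0, 0,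 2, -2, -6, 12, -6, 6, -12, -8, 22, -8, -2, 4, 6, -8, -10, 14, -4, 0, 0, 0, 0, 0, 0, 0, 0, 0, 0, 0]] := by
  intro A
  refine ⟨?_, ?_, ?_⟩ <;>
    simp [bC1, bC2, bC3, pC1, pC2, kC6, kC5, kC4, kC3, kC2, kC1, jC6, jC5, jC4, jC3, jC2, jC1, iC6, iC5, iC4, iC3, iC2, iC1, aC6, aC5, aC4, aC3, aC2, aC1, ev, monList] <;> ring

lemma row_X3_5 : OKX3
    [[0, 0, 0, 0, 0, 0, 0, 0, 0, 0, 0, 0, 0, 0, 0, 0, 0, 0, 0, 0, 0, 0, 0, 0, 0, 0, 0, 0, 0, 0], [0, 2, 0, 0, 0, 0, 0, 0, 0, 0, 0, 0, 0, 0, 0, 0, 0, 0, 0, 0, 0, 0, 0, 0, 0, 0, 0, 0, 0, 0], [0, 0, 0, 0, 0, 0, 0, 0, 0, 0, 0, 0, 0, 0, 0, 0, 0, 0, 0, 0, 0, 0, 0, 0, 0, 0, 0, 0, 0, 0], [0, 0, 0, 0, 0, 2, -2, 0, -2, 0, 4, -2, 0, 0, 0, 0, 0, 0, 0, 0, 0, 0, 0, 0, 0, 0, 0, 0, 0, 0],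 [0, 0, 0, 0, 0, -2, 2, 0, 4, 0, -8, 4, 0, -2, 0, 4, 3, -8, 3, 0, 0, 0, 0, 0, 0, 0, 0, 0, 0, 0], [0, 0, 0, 0, 0, 2, -2, 0, -6, 0, 12, -6, 0, 6, 0, -12, -8, 22, -8, 0, -2, 0, 4, 0, 6, -8, 0, -10, 14, -4]] := by
  intro A
  refine ⟨?_, ?_, ?_⟩ <;>
    simp [bC1, bC2, bC3, pC1, pC2, kC6, kC5, kC4, kC3, kC2, kC1, jC6, jC5, jC4, jC3, jC2, jC1, iC6, iC5, iC4, iC3, iC2, iC1, aC6, aC5, aC4, aC3, aC2, aC1, ev, monList] <;> ring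

lemma row_X3_6 : OKX3
    [[0, 0, 0, 0, 0, 0, 0, 0, 0, 0, 0, 0, 0, 0, 0, 0, 0, 0, 0, 0, 0, 0, 0, 0, 0, 0, 0, 0, 0, 0], [0, 0, 0, 0, 0, 0, 0, 0, 0, 0, 0, 0, 0, 0, 0, 0, 0, 0, 0, 0, 0, 0, 0, 0, 0, 0, 0, 0, 0, 0], [3, 0, 0, 0, 0, 0, 0, 0, 0, 0, 0, 0, 0, 0, 0, 0, 0, 0, 0, 0, 0, 0, 0, 0, 0, 0, 0, 0, 0, 0], [0, 0, -3, 3, 6, -12, 6, -3, 6, 3, -9, 3, 0, 0, 0, 0, 0, 0, 0, 0, 0, 0, 0, 0, 0, 0, 0, 0, 0, 0], [0, 0, 3, -3, -9, 18, -9, 9, -18, -12, 33, -12, -3, 6, 9, -12, -15, 21, -6, 0, 0, 0, 0, 0, 0, 0, 0, 0, 0, 0], [0, 0, -3, 3, 12, -24, 12, -18, 36, 24, -66, 24, 12, -24, -36, 48, 60, -84, 24, -3, 6, 9, -12, 6, -36, 24, -7, 45, -42, 10]] := by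
  intro A
  refine ⟨?_, ?_, ?_⟩ <;>
    simp [bC1, bC2, bC3, pC1, pC2, kC6, kC5, kC4, kC3, kC2, kC1, jC6, jC5, jC4, jC3, jC2, jC1, iC6, iC5, iC4, iC3, iC2, iC1, aC6, aC5, aC4, aC3, aC2, aC1, ev, monList] <;> ring

theorem ok_X3 : ∀ u ∈ vX3, OKX3 u := by
  simp only [vX3, List.forall_mem_cons, List.not_mem_nil, false_implies, forall_const, and_true]
  exact ⟨row_X3_0, row_X3_1, row_X3_2, row_X3_3, row_X3_4, row_X3_5, row_X3_6⟩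

/-- The Laurent identities for one tuple of the block. -/
def OKX4 (u : List (List ℤ)) : Prop := ∀ A : ℕ → ℂ,
    bC1 1 A (ev (u.getD 0 []) (monList A)) (ev (u.getD 1 []) (monList A)) 0 = ev (u.getD 2 []) (monList A) ∧
    bC2 1 A (ev (u.getD 0 []) (monList A)) (ev (u.getD 1 []) (monList A)) 0 = ev (u.getD 3 []) (monList A) ∧
    bC3 1 A (ev (u.getD 0 []) (monList A)) (ev (u.getD 1 []) (monList A)) 0 = ev (u.getD 4 []) (monList A) ∧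
    bC4 1 A (ev (u.getD 0 []) (monList A)) (ev (u.getD 1 []) (monList A)) 0 = ev (u.getD 5 []) (monList A)

lemma row_X4_0 : OKX4
    [[1, 0, 0, 0, 0, 0, 0, 0, 0, 0, 0, 0, 0, 0, 0, 0, 0, 0, 0, 0, 0, 0, 0, 0, 0, 0, 0, 0, 0, 0], [0, 0, 0, 0, 0, 0, 0, 0, 0, 0, 0, 0, 0, 0, 0, 0, 0, 0, 0, 0, 0, 0, 0, 0, 0, 0, 0, 0, 0, 0], [0, 0, -1, 1, 0, 0, 0, 0, 0, 0, 0, 0, 0, 0, 0, 0, 0, 0, 0, 0, 0, 0, 0, 0, 0, 0, 0, 0, 0, 0], [0, 0, 1, -1, -1, 2, -1, 0, 0, 0, 0, 0, 0, 0, 0, 0, 0, 0, 0, 0, 0, 0, 0, 0, 0, 0, 0, 0, 0, 0], [0, 0, -1, 1, 2, -4, 2, -1, 2, 1, -3, 1, 0, 0, 0, 0, 0, 0, 0, 0, 0, 0, 0, 0, 0, 0, 0, 0, 0, 0], [0, 0, 1, -1, -3, 6, -3, 3, -6, -3, 9, -3, -1, 2, 2, -3, -3, 4, -1, 0, 0, 0, 0, 0, 0, 0, 0, 0, 0, 0]] := by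
  intro A
  refine ⟨?_, ?_, ?_, ?_⟩ <;>
    simp [bC1, bC2, bC3, bC4, pC1, pC2, kC6, kC5, kC4, kC3, kC2, kC1, jC6, jC5, jC4, jC3, jC2, jC1, iC6, iC5, iC4, iC3, iC2, iC1, aC6, aC5, aC4, aC3, aC2, aC1, ev, monList] <;> ring

lemma row_X4_1 : OKX4
    [[0, 1, 0, 0, 0, 0, 0, 0, 0, 0, 0, 0, 0, 0, 0, 0, 0, 0, 0, 0, 0, 0, 0, 0, 0, 0, 0, 0, 0, 0], [0, 0, 0, 0, 0, 0, 0, 0, 0, 0, 0, 0, 0, 0, 0, 0, 0, 0, 0, 0, 0, 0, 0, 0, 0, 0, 0, 0, 0, 0], [0, 0, 0, 0, 0, -1, 1, 0, 0, 0, 0, 0, 0, 0, 0, 0, 0, 0, 0, 0, 0, 0, 0, 0, 0, 0, 0, 0, 0, 0], [0, 0, 0, 0, 0, 1, -1, 0, -1, 0, 2, -1, 0, 0, 0, 0, 0, 0, 0, 0, 0, 0, 0, 0, 0, 0, 0, 0, 0, 0], [0, 0, 0, 0, 0, -1, 1, 0, 2, 0, -4, 2, 0, -1, 0, 2, 1, -3, 1, 0, 0, 0, 0, 0, 0, 0, 0, 0, 0, 0],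 [0, 0, 0, 0, 0, 1, -1, 0, -3, 0, 6, -3, 0, 3, 0, -6, -3, 9, -3, 0, -1, 0, 2, 0, 2, -3, 0, -3, 4, -1]] := by
  intro A
  refine ⟨?_, ?_, ?_, ?_⟩ <;>
    simp [bC1, bC2, bC3, bC4, pC1, pC2, kC6, kC5, kC4, kC3, kC2, kC1, jC6, jC5, jC4, jC3, jC2, jC1, iC6, iC5, iC4, iC3, iC2, iC1, aC6, aC5, aC4, aC3, aC2, aC1, ev, monList] <;> ring

lemma row_X4_2 : OKX4
    [[0, 0, 0, 0, 0, 0, 0, 0, 0, 0, 0, 0, 0, 0, 0, 0, 0, 0, 0, 0, 0, 0, 0, 0, 0, 0, 0, 0, 0, 0], [2, 0, 0, 0, 0, 0, 0, 0, 0, 0, 0, 0, 0, 0, 0, 0, 0, 0, 0, 0, 0, 0, 0, 0, 0, 0, 0, 0, 0, 0], [0, 0, 2, -2, -2, 4, -2, 0, 0, 0, 0, 0, 0, 0, 0, 0, 0, 0, 0, 0, 0, 0, 0, 0, 0, 0, 0, 0, 0, 0], [0, 0, -2, 2, 4, -8, 4, -2, 4, 3, -8, 3, 0, 0, 0, 0, 0, 0, 0, 0, 0, 0, 0, 0, 0,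 0, 0, 0, 0, 0], [0, 0, 2, -2, -6, 12, -6, 6, -12, -8, 22, -8, -2, 4, 6, -8, -10, 14, -4, 0, 0, 0, 0, 0, 0, 0, 0, 0, 0, 0], [0, 0, -2, 2, 8, -16, 8, -12, 24, 15, -42, 15, 8, -16, -22, 30, 36, -50, 14, -2, 4, 6, -8, 3, -20, 14, -4, 24, -22, 5]] := by
  intro A
  refine ⟨?_, ?_, ?_, ?_⟩ <;>
    simp [bC1, bC2, bC3, bC4, pC1, pC2, kC6, kC5, kC4, kC3, kC2, kC1, jC6, jC5, jC4, jC3, jC2, jC1, iC6, iC5, iC4, iC3, iC2, iC1, aC6, aC5, aC4, aC3, aC2, aC1, ev, monList] <;> ring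

theorem ok_X4 : ∀ u ∈ vX4, OKX4 u := by
  simp only [vX4, List.forall_mem_cons, List.not_mem_nil, false_implies, forall_const, and_true]
  exact ⟨row_X4_0, row_X4_1, row_X4_2⟩

end Vale.Agent.P142
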