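import Vale.Agent.P142.Cert
import Vale.Agent.P142.Rows
import Vale.Agent.P142.Expansion

/-!
The certificate near the boundary: for bounded jets the combination of the certificate is small,
and its Grunsky parts are nonnegative.
-/

noncomputable section

open Set Metric
open scoped ComplexConjugate

namespace Vale.Agent.P142

/-- Component `j` of a tuple, evaluated at the jets. -/
def cp (A : ℕ → ℂ) (a : List (List ℤ)) (j : ℕ) : ℂ := ev (a.getD j []) (monList A)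

/-- The real part of `x * conj y`. -/
def rK (x y : ℂ) : ℝ := (x * conj y).re

lemma rK_self (x : ℂ) : rK x x = ‖x‖ ^ 2 := by
  simp [rK, Complex.sq_norm, Complex.normSq_apply]

lemma rK_comm (x y : ℂ) : rK x y = rK y x := by
  simp only [rK, Complex.mul_re, Complex.conj_re, Complex.conj_im]; ring

/-- The form of the first block. -/
def g0 (A : ℕ → ℂ) (a b : List (List ℤ)) : ℝ := 30 * rK (cp A a 0) (cp A b 0)

/-- The form of the second block. -/
def g1 (ρ : ℂ) (A : ℕ → ℂ) (a b : List (List ℤ)) : ℝ :=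
  30 * rK (cp A a 0) (cp A b 0) + 15 * rK (cp A a 1) (cp A b 1) -
    30 * rK (bC1 ρ A (cp A a 0) (cp A a 1) 0) (bC1 ρ A (cp A b 0) (cp A b 1) 0)

/-- The form of the third block. -/
def g3 (ρ : ℂ) (A : ℕ → ℂ) (a b : List (List ℤ)) : ℝ :=
  30 * rK (cp A a 0) (cp A b 0) + 15 * rK (cp A a 1) (cp A b 1) +
    10 * rK (cp A a 2) (cp A b 2) -
    30 * rK (bC1 ρ A (cp A a 0) (cp A a 1) (cp A a 2)) (bC1 ρ A (cp A b 0) (cp A b 1) (cp A b 2)) -
    60 * rK (bC2 ρ A (cp A a 0) (cp A a 1) (cp A a 2)) (bC2 ρ A (cp A b 0) (cp A b 1) (cp A b 2)) -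
    90 * rK (bC3 ρ A (cp A a 0) (cp A a 1) (cp A a 2)) (bC3 ρ A (cp A b 0) (cp A b 1) (cp A b 2))

/-- The form of the fourth block. -/
def g4 (ρ : ℂ) (A : ℕ → ℂ) (a b : List (List ℤ)) : ℝ :=
  30 * rK (cp A a 0) (cp A b 0) + 15 * rK (cp A a 1) (cp A b 1) -
    30 * rK (bC1 ρ A (cp A a 0) (cp A a 1) 0) (bC1 ρ A (cp A b 0) (cp A b 1) 0) -
    60 * rK (bC2 ρ A (cp A a 0) (cp A a 1) 0) (bC2 ρ A (cp A b 0) (cp A b 1) 0) -
    90 * rK (bC3 ρ A (cp A a 0) (cp A a 1) 0) (bC3 ρ A (cp A b 0) (cp A b 1) 0) -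
    120 * rK (bC4 ρ A (cp A a 0) (cp A a 1) 0) (bC4 ρ A (cp A b 0) (cp A b 1) 0)

/-- The radial derivative form at squared radius `t`. -/
def gz (t : ℝ) (A : ℕ → ℂ) (a b : List (List ℤ)) : ℝ :=
  15 * (rK (cp A a 1) (cp A b 0) + rK (cp A a 0) (cp A b 1)) - 36 * rK (cp A a 0) (cp A b 0) +
    15 * (1 - 3 * t) * (rK (cp A a 2) (cp A b 0) + rK (cp A a 0) (cp A b 2))

/-- The weights of the monomials. -/
def wTable : List ℕ := [0, 1, 2, 2, 3, 3, 3, 4, 4, 4, 4, 4, 5, 5, 5, 5, 5, 5, 5]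

/-- The rotation term of a pair of monomials. -/
def rotTerm (t : ℝ) (A : ℕ → ℂ) (i k : ℕ) : ℝ :=
  rK (ev (dTable.getD i []) (monList A)) (ev (eTable.getD k []) (monList A)) -
    rK (ev (eTable.getD i []) (monList A)) (ev (dTable.getD k []) (monList A)) +
    (1 - t) * ((wTable.getD i 0 : ℝ) - (wTable.getD k 0 : ℝ)) *
      rK (ev (eTable.getD i []) (monList A)) (ev (eTable.getD k []) (monList A))

/-- The combination of the certificate at squared radius `t`. -/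
def phi (t : ℝ) (A : ℕ → ℂ) : ℝ :=
  qfn (g0 A) wX0 vX0 + qfn (g1 (t : ℂ) A) wX1 vX1 + qfn (g3 (t : ℂ) A) wX3 vX3 +
    qfn (g4 (t : ℂ) A) wX4 vX4 + qfn (gz t A) wXZ vXZ + (cPrincipal : ℝ) +
    (nuList.map fun p => (p.1 : ℝ) * rotTerm t A p.2.1 p.2.2).sum

theorem phi_one (A : ℕ → ℂ) : phi 1 A = 0 := by
  have h := certificate (monList A) (monList_length A)
  have h0 : qfn (g0 A) wX0 vX0 =
      qfn (fun a b => specVal F0 (evT a (monList A)) (evT b (monList A))) wX0 vX0 :=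
    qfn_congr _ _ fun a _ b _ => by
      simp only [g0, cp, rK, specVal, F0, List.map_cons, List.map_nil, List.sum_cons, List.sum_nil,
        getD_evT]
      push_cast
      ring
  have h1 : qfn (g1 ((1 : ℝ) : ℂ) A) wX1 vX1 =
      qfn (fun a b => specVal F1 (evT a (monList A)) (evT b (monList A))) wX1 vX1 :=
    qfn_congr _ _ fun a ha b hb => by
      simp only [g1, cp, Complex.ofReal_one, ok_X1 a ha A, ok_X1 b hb A]
      simp only [rK, specVal, F1, List.map_cons, List.map_nil, List.sum_cons, List.sum_nil,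
        getD_evT]
      push_cast
      ring
  have h3 : qfn (g3 ((1 : ℝ) : ℂ) A) wX3 vX3 =
      qfn (fun a b => specVal F3 (evT a (monList A)) (evT b (monList A))) wX3 vX3 :=
    qfn_congr _ _ fun a ha b hb => by
      obtain ⟨p1, p2, p3⟩ := ok_X3 a ha A
      obtain ⟨q1, q2, q3⟩ := ok_X3 b hb A
      simp only [g3, cp, Complex.ofReal_one, p1, p2, p3, q1, q2, q3]
      simp only [rK, specVal, F3, List.map_cons, List.map_nil, List.sum_cons, List.sum_nil,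
        getD_evT]
      push_cast
      ring
  have h4 : qfn (g4 ((1 : ℝ) : ℂ) A) wX4 vX4 =
      qfn (fun a b => specVal F4 (evT a (monList A)) (evT b (monList A))) wX4 vX4 :=
    qfn_congr _ _ fun a ha b hb => by
      obtain ⟨p1, p2, p3, p4⟩ := ok_X4 a ha A
      obtain ⟨q1, q2, q3, q4⟩ := ok_X4 b hb A
      simp only [g4, cp, Complex.ofReal_one, p1, p2, p3, p4, q1, q2, q3, q4]
      simp only [rK, specVal, F4, List.map_cons, List.map_nil, List.sum_cons, List.sum_nil,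
        getD_evT]
      push_cast
      ring
  have hz : qfn (gz 1 A) wXZ vXZ =
      qfn (fun a b => specVal FZ (evT a (monList A)) (evT b (monList A))) wXZ vXZ :=
    qfn_congr _ _ fun a _ b _ => by
      simp only [gz, cp, rK, specVal, FZ, List.map_cons, List.map_nil, List.sum_cons, List.sum_nil,
        getD_evT]
      push_cast
      ring
  have hone : (ev [1] (monList A) * conj (ev [1] (monList A))).re = 1 := by
    simp [ev, monList]
  rw [hone, mul_one] at h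
  have hr : ∀ i k, rotTerm 1 A i k =
      (ev (dTable.getD i []) (monList A) * conj (ev (eTable.getD k []) (monList A))).re -
        (ev (eTable.getD i []) (monList A) * conj (ev (dTable.getD k []) (monList A))).re := by
    intro i k; simp [rotTerm, rK]
  simp only [phi, hr, h0, h1, h3, h4, hz]
  exact h

lemma continuous_pairSum {X : Type*} [TopologicalSpace X] {α : Type*} (c : List ℤ) (as : List α)
    {f : X → α → ℝ} (h : ∀ a, Continuous fun x => f x a) :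
    Continuous fun x => pairSum c as (f x) := by
  induction c generalizing as with
  | nil => simp only [pairSum]; exact continuous_const
  | cons y ys ih => cases as with
    | nil => simp only [pairSum]; exact continuous_const
    | cons a rest => simp only [pairSum]; exact ((h a).const_smul (y : ℝ)).add (ih rest)

lemma continuous_qfn {X : Type*} [TopologicalSpace X] {α : Type*} (rows : List (List ℤ))
    (us : List α) {f : X → α → α → ℝ} (h : ∀ a b, Continuous fun x => f x a b) :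
    Continuous fun x => qfn (f x) rows us := by
  induction rows generalizing us with
  | nil => simp only [qfn]; exact continuous_const
  | cons r rows ih =>
    cases r with
    | nil => simp only [qfn]; exact continuous_const
    | cons d e => cases us with
      | nil => simp only [qfn]; exact continuous_const
      | cons u us =>
        simp only [qfn]
        exact (((h u u).const_smul (d : ℝ)).add
          ((continuous_pairSum e us (f := fun x => f x u) (h u)).const_smul (2 : ℝ))).add (ih us)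

lemma continuous_ev {X : Type*} [TopologicalSpace X] (c : List ℤ) (l : List (X → ℂ))
    (h : ∀ f ∈ l, Continuous f) : Continuous fun x => ev c (l.map fun f => f x) := by
  induction c generalizing l with
  | nil => simp only [ev]; exact continuous_const
  | cons y ys ih => cases l with
    | nil => simp only [List.map_nil, ev]; exact continuous_const
    | cons f rest =>
      simp only [List.map_cons, ev]
      exact (continuous_const.mul (h f (by simp))).add (ih rest fun g hg => h g (by simp [hg]))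

/-- The jets with given coordinates. -/
def extJet (v : Fin 6 → ℂ) (k : ℕ) : ℂ :=
  if h : k - 1 < 6 then (if k = 0 then 1 else v ⟨k - 1, h⟩) else 0

lemma monList_extJet {A : ℕ → ℂ} (v : Fin 6 → ℂ) (h : ∀ i : Fin 6, v i = A ((i : ℕ) + 1)) :
    monList (extJet v) = monList A := by
  simp [monList, extJet, h]

lemma phi_congr (t : ℝ) {A B : ℕ → ℂ} (hm : monList A = monList B)
    (h : ∀ k ∈ Finset.Icc 1 6, A k = B k) : phi t A = phi t B := by
  have hc : cp A = cp B := by funext a j; simp [cp, hm]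
  have e : ∀ k, 1 ≤ k → k ≤ 6 → A k = B k := fun k a b => h k (Finset.mem_Icc.2 ⟨a, b⟩)
  have ha : aC1 (t : ℂ) A = aC1 t B ∧ aC2 (t : ℂ) A = aC2 t B ∧ aC3 (t : ℂ) A = aC3 t B ∧
      aC4 (t : ℂ) A = aC4 t B ∧ aC5 (t : ℂ) A = aC5 t B ∧ aC6 (t : ℂ) A = aC6 t B := by
    simp [aC1, aC2, aC3, aC4, aC5, aC6, e 1, e 2, e 3, e 4, e 5, e 6]
  obtain ⟨a1, a2, a3, a4, a5, a6⟩ := ha
  have hb1 : bC1 (t : ℂ) A = bC1 t B := by
    funext x y z; simp [bC1, pC1, pC2, kC4, kC2, kC1, jC4, jC3, jC2, jC1, iC4, iC3, iC2, iC1, *]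
  have hb2 : bC2 (t : ℂ) A = bC2 t B := by
    funext x y z
    simp [bC2, pC1, pC2, kC5, kC2, kC1, jC5, jC4, jC3, jC2, jC1, iC5, iC4, iC3, iC2, iC1, *]
  have hb3 : bC3 (t : ℂ) A = bC3 t B := by
    funext x y z
    simp [bC3, pC1, pC2, kC6, kC2, kC1, jC6, jC5, jC4, jC3, jC2, jC1, iC6, iC5, iC4, iC3, iC2, iC1, *]
  have hb4 : bC4 (t : ℂ) A = bC4 t B := by
    funext x y z
    simp [bC4, pC1, pC2, kC2, kC1, jC6, jC5, jC4, jC3, jC2, jC1, iC6, iC5, iC4, iC3, iC2, iC1, *]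
  unfold phi rotTerm g0 g1 g3 g4 gz
  rw [hc, hm, hb1, hb2, hb3, hb4]

/-- The monomials of a family of functions. -/
def monList' {X : Type*} (E : ℕ → X → ℂ) : List (X → ℂ) :=
  [(fun _ => 1),
    E 1,
    E 2,
    E 1 * E 1,
    E 3,
    E 2 * E 1,
    E 1 * E 1 * E 1,
    E 4,
    E 3 * E 1,
    E 2 * E 2,
    E 2 * E 1 * E 1,
    E 1 * E 1 * E 1 * E 1,
    E 5,
    E 4 * E 1,
    E 3 * E 2,
    E 3 * E 1 * E 1,
    E 2 * E 2 * E 1,
    E 2 * E 1 * E 1 * E 1,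
    E 1 * E 1 * E 1 * E 1 * E 1,
    E 6,
    E 5 * E 1,
    E 4 * E 2,
    E 4 * E 1 * E 1,
    E 3 * E 3,
    E 3 * E 2 * E 1,
    E 3 * E 1 * E 1 * E 1,
    E 2 * E 2 * E 2,
    E 2 * E 2 * E 1 * E 1,
    E 2 * E 1 * E 1 * E 1 * E 1,
    E 1 * E 1 * E 1 * E 1 * E 1 * E 1]

theorem continuous_phi : Continuous fun p : ℝ × (Fin 6 → ℂ) => phi p.1 (extJet p.2) := by
  have hA : ∀ k, Continuous fun p : ℝ × (Fin 6 → ℂ) => extJet p.2 k := by
    intro k
    unfold extJet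
    split_ifs <;> fun_prop
  have hev : ∀ c : List ℤ, Continuous fun p : ℝ × (Fin 6 → ℂ) =>
      ev c (monList (extJet p.2)) := by
    intro c
    let E : ℕ → ℝ × (Fin 6 → ℂ) → ℂ := fun k p => extJet p.2 k
    have e : ∀ p, monList (extJet p.2) = (monList' E).map fun f => f p := fun p => by
      simp [monList, monList', E]
    simp only [e]
    exact continuous_ev c _ (by
      simp only [monList', List.mem_cons, List.not_mem_nil, or_false, forall_eq_or_imp, forall_eq]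
      have hE : ∀ k, Continuous (E k) := hA
      refine ⟨?_, ?_, ?_, ?_, ?_, ?_, ?_, ?_, ?_, ?_, ?_, ?_, ?_, ?_, ?_, ?_, ?_, ?_, ?_, ?_, ?_, ?_, ?_, ?_, ?_, ?_, ?_, ?_, ?_, ?_⟩
      all_goals first
        | exact continuous_const
        | repeat' (first | exact hE _ | apply Continuous.mul))
  have hρ : Continuous fun p : ℝ × (Fin 6 → ℂ) => (p.1 : ℂ) := by fun_prop
  have hK : ∀ {f g : ℝ × (Fin 6 → ℂ) → ℂ}, Continuous f → Continuous g →
      Continuous fun p => rK (f p) (g p) := fun hf hg => by unfold rK; fun_prop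
  have hcp : ∀ a j, Continuous fun p : ℝ × (Fin 6 → ℂ) => cp (extJet p.2) a j :=
    fun a j => hev _
  unfold phi
  refine (((((((continuous_qfn _ _ (fun a b => ?_)).add (continuous_qfn _ _ (fun a b => ?_))).add
    (continuous_qfn _ _ (fun a b => ?_))).add (continuous_qfn _ _ (fun a b => ?_))).add
    (continuous_qfn _ _ (fun a b => ?_))).add continuous_const).add ?_)
  · unfold g0; have := hK (hcp a 0) (hcp b 0); fun_prop
  · unfold g1 rK bC1 pC1 pC2 kC4 kC2 kC1 jC4 jC3 jC2 jC1 iC4 iC3 iC2 iC1 aC4 aC3 aC2 aC1; fun_prop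
  · unfold g3 rK bC1 bC2 bC3 pC1 pC2 kC6 kC5 kC4 kC2 kC1 jC6 jC5 jC4 jC3 jC2 jC1 iC6 iC5 iC4 iC3
      iC2 iC1 aC6 aC5 aC4 aC3 aC2 aC1
    fun_prop
  · unfold g4 rK bC1 bC2 bC3 bC4 pC1 pC2 kC2 kC1 jC6 jC5 jC4 jC3 jC2 jC1 iC6 iC5 iC4 iC3
      iC2 iC1 aC6 aC5 aC4 aC3 aC2 aC1
    fun_prop
  · unfold gz rK; fun_prop
  · refine continuous_list_sum _ fun q _ => continuous_const.mul ?_
    unfold rotTerm rK
    fun_prop

/-- Near the boundary the combination is small. -/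
theorem phi_small (R : ℝ) {ε : ℝ} (hε : 0 < ε) : ∃ δ > 0, δ ≤ 1 / 2 ∧
    ∀ t ∈ Icc (1 - δ) 1, ∀ A : ℕ → ℂ, A 0 = 1 → (∀ k ∈ Finset.Icc 1 6, ‖A k‖ ≤ R) →
      |phi t A| ≤ ε := by
  have hK : IsCompact (Icc (0 : ℝ) 1 ×ˢ closedBall (0 : Fin 6 → ℂ) |R|) :=
    isCompact_Icc.prod (isCompact_closedBall _ _)
  have hu := Metric.uniformContinuousOn_iff.1
    (hK.uniformContinuousOn_of_continuous continuous_phi.continuousOn) ε hε
  obtain ⟨δ, hδ, hd⟩ := hu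
  refine ⟨min (δ / 2) (1 / 2), lt_min (by linarith) (by norm_num), min_le_right _ _,
    fun t ht A hA0 hA => ?_⟩
  set v : Fin 6 → ℂ := fun i => A ((i : ℕ) + 1) with hv
  have hmon : monList (extJet v) = monList A := monList_extJet v fun i => rfl
  have hagree : ∀ k ∈ Finset.Icc 1 6, extJet v k = A k := by
    intro k hk
    obtain ⟨h1, h6⟩ := Finset.mem_Icc.1 hk
    simp [extJet, v, show k - 1 < 6 by omega, show k ≠ 0 by omega, show k - 1 + 1 = k by omega]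
  rw [← phi_congr t hmon hagree]
  have hvb : v ∈ closedBall (0 : Fin 6 → ℂ) |R| := by
    rw [mem_closedBall, dist_zero_right, pi_norm_le_iff_of_nonneg (abs_nonneg R)]
    exact fun i => (hA _ (Finset.mem_Icc.2 ⟨by omega, by omega⟩)).trans (le_abs_self R)
  have h := hd (t, v) ⟨⟨by linarith [ht.1, min_le_right (δ / 2) (1 / 2 : ℝ)], ht.2⟩, hvb⟩
    (1, v) ⟨⟨by norm_num, le_rfl⟩, hvb⟩ (by
      rw [Prod.dist_eq, dist_self, max_eq_left (dist_nonneg), Real.dist_eq, abs_lt]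
      constructor <;> linarith [ht.1, ht.2, min_le_left (δ / 2) (1 / 2 : ℝ)])
  rw [Real.dist_eq, phi_one, sub_zero] at h
  exact h.le

section positivity

/-- `Re (φ x * conj (φ y))`. -/
def herm {V : Type*} [AddCommGroup V] [Module ℝ V] (φ : V →ₗ[ℝ] ℂ) : V →ₗ[ℝ] V →ₗ[ℝ] ℝ :=
  LinearMap.mk₂ ℝ (fun x y => rK (φ x) (φ y))
    (fun a b c => by simp [rK, add_mul])
    (fun r a b => by simp [rK, Complex.real_smul]; ring)
    (fun a b c => by simp [rK, mul_add])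
    (fun r a b => by simp [rK, Complex.real_smul]; ring)

lemma herm_apply {V : Type*} [AddCommGroup V] [Module ℝ V] (φ : V →ₗ[ℝ] ℂ) (x y : V) :
    herm φ x y = rK (φ x) (φ y) := rfl

/-- A linear functional on triples. -/
def lin3 (a b c : ℂ) : (ℂ × ℂ × ℂ) →ₗ[ℝ] ℂ :=
  ((a • LinearMap.fst ℂ ℂ (ℂ × ℂ)) + (b • ((LinearMap.fst ℂ ℂ ℂ).comp (LinearMap.snd ℂ ℂ (ℂ × ℂ)))) +
    (c • ((LinearMap.snd ℂ ℂ ℂ).comp (LinearMap.snd ℂ ℂ (ℂ × ℂ))))).restrictScalars ℝ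

lemma lin3_apply (a b c : ℂ) (x : ℂ × ℂ × ℂ) :
    lin3 a b c x = a * x.1 + b * x.2.1 + c * x.2.2 := rfl

/-- A linear functional on pairs. -/
def lin2 (a b : ℂ) : (ℂ × ℂ) →ₗ[ℝ] ℂ :=
  ((a • LinearMap.fst ℂ ℂ ℂ) + (b • LinearMap.snd ℂ ℂ ℂ)).restrictScalars ℝ

lemma lin2_apply (a b : ℂ) (x : ℂ × ℂ) : lin2 a b x = a * x.1 + b * x.2 := rfl

lemma bC_linear (ρ : ℂ) (A : ℕ → ℂ) (x y z : ℂ) :
    bC1 ρ A x y z = bC1 ρ A 1 0 0 * x + bC1 ρ A 0 1 0 * y + bC1 ρ A 0 0 1 * z ∧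
    bC2 ρ A x y z = bC2 ρ A 1 0 0 * x + bC2 ρ A 0 1 0 * y + bC2 ρ A 0 0 1 * z ∧
    bC3 ρ A x y z = bC3 ρ A 1 0 0 * x + bC3 ρ A 0 1 0 * y + bC3 ρ A 0 0 1 * z ∧
    bC4 ρ A x y z = bC4 ρ A 1 0 0 * x + bC4 ρ A 0 1 0 * y + bC4 ρ A 0 0 1 * z := by
  simp only [bC1, bC2, bC3, bC4, pC1, pC2]
  refine ⟨?_, ?_, ?_, ?_⟩ <;> ring

variable {f : ℂ → ℂ} (hf : DifferentiableOn ℂ f (ball 0 1)) (hinj : InjOn f (ball 0 1)) {z : ℂ}
  (hz : z ∈ ball (0 : ℂ) 1) (hz0 : z ≠ 0)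
include hf hinj hz hz0

/-- The Grunsky parts are nonnegative. -/
theorem blocks_nonneg :
    0 ≤ qfn (g0 (sjet f z)) wX0 vX0 ∧
    0 ≤ qfn (g1 ((‖z‖ ^ 2 : ℝ) : ℂ) (sjet f z)) wX1 vX1 ∧
    0 ≤ qfn (g3 ((‖z‖ ^ 2 : ℝ) : ℂ) (sjet f z)) wX3 vX3 ∧
    0 ≤ qfn (g4 ((‖z‖ ^ 2 : ℝ) : ℂ) (sjet f z)) wX4 vX4 := by
  set ρ : ℂ := ((‖z‖ ^ 2 : ℝ) : ℂ) with hρ
  set A := sjet f z with hA
  refine ⟨?_, ?_, ?_, ?_⟩
  · let B := (30 : ℝ) • herm (LinearMap.id : ℂ →ₗ[ℝ] ℂ)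
    have h := qfn_nonneg B (fun a b => by simp [B, herm_apply, rK_comm a b])
      (fun a => by simp [B, herm_apply, rK_self]) psd_X0 (vX0.map fun a => cp A a 0)
    rw [qfn_map] at h
    refine h.trans_eq (qfn_congr _ _ fun a _ b _ => ?_)
    simp [B, g0, herm_apply]
  · let B := (30 : ℝ) • herm (lin2 1 0) + (15 : ℝ) • herm (lin2 0 1) -
      (30 : ℝ) • herm (lin2 (bC1 ρ A 1 0 0) (bC1 ρ A 0 1 0))
    have e : ∀ x y, lin2 (bC1 ρ A 1 0 0) (bC1 ρ A 0 1 0) (x, y) = bC1 ρ A x y 0 := fun x y => by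
      rw [lin2_apply, (bC_linear ρ A x y 0).1, mul_zero, add_zero]
    have h := qfn_nonneg B (fun a b => by simp [B, herm_apply, rK_comm])
      (fun a => by
        have hg := grunsky4 hf hinj hz hz0 a.1 a.2
        simp only [B, LinearMap.sub_apply, LinearMap.add_apply, LinearMap.smul_apply, herm_apply,
          rK_self, e, lin2_apply, one_mul, zero_mul, add_zero, zero_add, smul_eq_mul]
        rw [← hρ, ← hA] at hg
        nlinarith [sq_nonneg ‖bC2 ρ A a.1 a.2 0‖, sq_nonneg ‖bC3 ρ A a.1 a.2 0‖,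
          sq_nonneg ‖bC4 ρ A a.1 a.2 0‖])
      psd_X1 (vX1.map fun a => (cp A a 0, cp A a 1))
    rw [qfn_map] at h
    refine h.trans_eq (qfn_congr _ _ fun a _ b _ => ?_)
    simp only [B, g1, LinearMap.sub_apply, LinearMap.add_apply, LinearMap.smul_apply, herm_apply,
      e, lin2_apply, one_mul, zero_mul, add_zero, zero_add, smul_eq_mul]
  · let B := (30 : ℝ) • herm (lin3 1 0 0) + (15 : ℝ) • herm (lin3 0 1 0) +
      (10 : ℝ) • herm (lin3 0 0 1) -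
      (30 : ℝ) • herm (lin3 (bC1 ρ A 1 0 0) (bC1 ρ A 0 1 0) (bC1 ρ A 0 0 1)) -
      (60 : ℝ) • herm (lin3 (bC2 ρ A 1 0 0) (bC2 ρ A 0 1 0) (bC2 ρ A 0 0 1)) -
      (90 : ℝ) • herm (lin3 (bC3 ρ A 1 0 0) (bC3 ρ A 0 1 0) (bC3 ρ A 0 0 1))
    have e1 : ∀ x : ℂ × ℂ × ℂ, lin3 (bC1 ρ A 1 0 0) (bC1 ρ A 0 1 0) (bC1 ρ A 0 0 1) x =
        bC1 ρ A x.1 x.2.1 x.2.2 := fun x => by
      rw [lin3_apply]; exact (bC_linear ρ A _ _ _).1.symm
    have e2 : ∀ x : ℂ × ℂ × ℂ, lin3 (bC2 ρ A 1 0 0) (bC2 ρ A 0 1 0) (bC2 ρ A 0 0 1) x =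
        bC2 ρ A x.1 x.2.1 x.2.2 := fun x => by
      rw [lin3_apply]; exact (bC_linear ρ A _ _ _).2.1.symm
    have e3 : ∀ x : ℂ × ℂ × ℂ, lin3 (bC3 ρ A 1 0 0) (bC3 ρ A 0 1 0) (bC3 ρ A 0 0 1) x =
        bC3 ρ A x.1 x.2.1 x.2.2 := fun x => by
      rw [lin3_apply]; exact (bC_linear ρ A _ _ _).2.2.1.symm
    have h := qfn_nonneg B (fun a b => by simp [B, herm_apply, rK_comm])
      (fun a => by
        have hg := grunsky3 hf hinj hz hz0 a.1 a.2.1 a.2.2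
        simp only [B, LinearMap.sub_apply, LinearMap.add_apply, LinearMap.smul_apply, herm_apply,
          rK_self, e1, e2, e3, lin3_apply, one_mul, zero_mul, add_zero, zero_add, smul_eq_mul]
        rw [← hρ, ← hA] at hg
        linarith)
      psd_X3 (vX3.map fun a => (cp A a 0, cp A a 1, cp A a 2))
    rw [qfn_map] at h
    refine h.trans_eq (qfn_congr _ _ fun a _ b _ => ?_)
    simp only [B, g3, LinearMap.sub_apply, LinearMap.add_apply, LinearMap.smul_apply, herm_apply,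
      e1, e2, e3, lin3_apply, one_mul, zero_mul, add_zero, zero_add, smul_eq_mul]
  · let B := (30 : ℝ) • herm (lin2 1 0) + (15 : ℝ) • herm (lin2 0 1) -
      (30 : ℝ) • herm (lin2 (bC1 ρ A 1 0 0) (bC1 ρ A 0 1 0)) -
      (60 : ℝ) • herm (lin2 (bC2 ρ A 1 0 0) (bC2 ρ A 0 1 0)) -
      (90 : ℝ) • herm (lin2 (bC3 ρ A 1 0 0) (bC3 ρ A 0 1 0)) -
      (120 : ℝ) • herm (lin2 (bC4 ρ A 1 0 0) (bC4 ρ A 0 1 0))
    have e : ∀ x : ℂ × ℂ, lin2 (bC1 ρ A 1 0 0) (bC1 ρ A 0 1 0) x = bC1 ρ A x.1 x.2 0 ∧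
        lin2 (bC2 ρ A 1 0 0) (bC2 ρ A 0 1 0) x = bC2 ρ A x.1 x.2 0 ∧
        lin2 (bC3 ρ A 1 0 0) (bC3 ρ A 0 1 0) x = bC3 ρ A x.1 x.2 0 ∧
        lin2 (bC4 ρ A 1 0 0) (bC4 ρ A 0 1 0) x = bC4 ρ A x.1 x.2 0 := fun x => by
      obtain ⟨q1, q2, q3, q4⟩ := bC_linear ρ A x.1 x.2 0
      simp only [lin2_apply, q1, q2, q3, q4, mul_zero, add_zero, and_self]
    have h := qfn_nonneg B (fun a b => by simp [B, herm_apply, rK_comm])
      (fun a => by
        have hg := grunsky4 hf hinj hz hz0 a.1 a.2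
        simp only [B, LinearMap.sub_apply, LinearMap.add_apply, LinearMap.smul_apply, herm_apply,
          rK_self, (e _).1, (e _).2.1, (e _).2.2.1, (e _).2.2.2, lin2_apply, one_mul, zero_mul,
          add_zero, zero_add, smul_eq_mul]
        rw [← hρ, ← hA] at hg
        linarith)
      psd_X4 (vX4.map fun a => (cp A a 0, cp A a 1))
    rw [qfn_map] at h
    refine h.trans_eq (qfn_congr _ _ fun a _ b _ => ?_)
    simp only [B, g4, LinearMap.sub_apply, LinearMap.add_apply, LinearMap.smul_apply, herm_apply,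
      (e _).1, (e _).2.1, (e _).2.2.1, (e _).2.2.2, lin2_apply, one_mul, zero_mul, add_zero,
      zero_add, smul_eq_mul]

omit hf hinj hz hz0 in
/-- The Lyapunov form is nonnegative. -/
theorem lyap_nonneg (A : ℕ → ℂ) :
    0 ≤ qfn (fun a b => rK (cp A a 0) (cp A b 0)) wXZ vXZ := by
  have h := qfn_nonneg (herm (LinearMap.id : ℂ →ₗ[ℝ] ℂ)) (fun a b => by simp [herm_apply, rK_comm a b])
    (fun a => by simp [herm_apply, rK_self]) psd_XZ (vXZ.map fun a => cp A a 0)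
  rw [qfn_map] at h
  simpa [herm_apply] using h

/-- The jets at a point are bounded. -/
theorem sjet_bound : ∀ k ∈ Finset.Icc 1 6, ‖sjet f z k‖ ≤ 10 ^ 8 := by
  have hzn : ‖z‖ < 1 := by simpa using hz
  have hd := fun w hw => deriv_ne_zero_of_injOn (z := w) isOpen_ball hf hinj hw
  set ρ : ℂ := ((‖z‖ ^ 2 : ℝ) : ℂ) with hρ
  set A := sjet f z with hA
  have hρ1 : ‖ρ‖ ≤ 1 := by
    rw [hρ, Complex.norm_real, Real.norm_eq_abs, abs_of_nonneg (sq_nonneg _)]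
    nlinarith [norm_nonneg z]
  have e1 : ‖iC1 ρ A‖ ≤ 2 := by
    have h := preSchwarzian_le hf hinj hd hz
    have hz2 : z * conj z = ρ := by rw [Complex.mul_conj, Complex.normSq_eq_norm_sq]
    have e : iC1 ρ A = -(z / 2 * (deriv (deriv f) z / deriv f z * (1 - (‖z‖ : ℂ) ^ 2) -
        2 * conj z)) := by
      simp only [iC1, aC1, hA, sjet, iteratedDeriv_succ, iteratedDeriv_zero, Nat.factorial]
      rw [← hz2]
      push_cast
      ring
    rw [e, norm_neg, norm_mul, norm_div, Complex.norm_two]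
    nlinarith [norm_nonneg z, norm_nonneg (deriv (deriv f) z / deriv f z *
      (1 - (‖z‖ : ℂ) ^ 2) - 2 * conj z)]
  have hs := iC_bound hf hinj hz hz0
  rw [← hρ, ← hA] at hs
  have small : ∀ x : ℂ, ‖x‖ ^ 2 ≤ 1 → ‖x‖ ≤ 1 := fun x h => by nlinarith [norm_nonneg x]
  have q2 := sq_nonneg ‖iC2 ρ A‖; have q3 := sq_nonneg ‖iC3 ρ A‖
  have q4 := sq_nonneg ‖iC4 ρ A‖; have q5 := sq_nonneg ‖iC5 ρ A‖
  have q6 := sq_nonneg ‖iC6 ρ A‖
  have e2 := small _ (show ‖iC2 ρ A‖ ^ 2 ≤ 1 by linarith)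
  have e3 := small _ (show ‖iC3 ρ A‖ ^ 2 ≤ 1 by linarith)
  have e4 := small _ (show ‖iC4 ρ A‖ ^ 2 ≤ 1 by linarith)
  have e5 := small _ (show ‖iC5 ρ A‖ ^ 2 ≤ 1 by linarith)
  have e6 := small _ (show ‖iC6 ρ A‖ ^ 2 ≤ 1 by linarith)
  -- the coefficients of the transform
  have a1 : ‖aC1 ρ A‖ ≤ 2 := by
    have : aC1 ρ A = -iC1 ρ A := by simp [iC1]
    rw [this, norm_neg]; exact e1
  have two : ∀ {x y : ℂ} {a b : ℝ}, ‖x‖ ≤ a → ‖y‖ ≤ b → ‖x * y‖ ≤ a * b := fun hx hy => by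
    rw [norm_mul]; exact mul_le_mul hx hy (norm_nonneg _) ((norm_nonneg _).trans hx)
  have plus : ∀ {x y : ℂ} {a b : ℝ}, ‖x‖ ≤ a → ‖y‖ ≤ b → ‖x + y‖ ≤ a + b := fun hx hy =>
    (norm_add_le _ _).trans (add_le_add hx hy)
  have neg : ∀ {x : ℂ} {a : ℝ}, ‖x‖ ≤ a → ‖-x‖ ≤ a := fun hx => (norm_neg _).trans_le hx
  have pw : ∀ n : ℕ, ‖(-ρ) ^ n‖ ≤ 1 := fun n => by
    rw [norm_pow, norm_neg]; exact pow_le_one₀ (norm_nonneg _) hρ1
  have a2 : ‖aC2 ρ A‖ ≤ 5 := by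
    have : aC2 ρ A = -(iC2 ρ A + aC1 ρ A * iC1 ρ A) := by rw [iC2]; ring
    rw [this]; exact (neg (plus e2 (two a1 e1))).trans (by norm_num)
  have a3 : ‖aC3 ρ A‖ ≤ 13 := by
    have : aC3 ρ A = -(iC3 ρ A + aC1 ρ A * iC2 ρ A + aC2 ρ A * iC1 ρ A) := by rw [iC3]; ring
    rw [this]; exact (neg (plus (plus e3 (two a1 e2)) (two a2 e1))).trans (by norm_num)
  have a4 : ‖aC4 ρ A‖ ≤ 34 := by
    have : aC4 ρ A = -(iC4 ρ A + aC1 ρ A * iC3 ρ A + aC2 ρ A * iC2 ρ A + aC3 ρ A * iC1 ρ A) := by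
      rw [iC4]; ring
    rw [this]
    exact (neg (plus (plus (plus e4 (two a1 e3)) (two a2 e2)) (two a3 e1))).trans (by norm_num)
  have a5 : ‖aC5 ρ A‖ ≤ 100 := by
    have : aC5 ρ A = -(iC5 ρ A + aC1 ρ A * iC4 ρ A + aC2 ρ A * iC3 ρ A + aC3 ρ A * iC2 ρ A +
        aC4 ρ A * iC1 ρ A) := by rw [iC5]; ring
    rw [this]
    exact (neg (plus (plus (plus (plus e5 (two a1 e4)) (two a2 e3)) (two a3 e2)) (two a4 e1))).trans
      (by norm_num)
  have a6 : ‖aC6 ρ A‖ ≤ 300 := by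
    have : aC6 ρ A = -(iC6 ρ A + aC1 ρ A * iC5 ρ A + aC2 ρ A * iC4 ρ A + aC3 ρ A * iC3 ρ A +
        aC4 ρ A * iC2 ρ A + aC5 ρ A * iC1 ρ A) := by rw [iC6]; ring
    rw [this]
    exact (neg (plus (plus (plus (plus (plus e6 (two a1 e5)) (two a2 e4)) (two a3 e3)) (two a4 e2))
      (two a5 e1))).trans (by norm_num)
  have num : ∀ n : ℕ, ‖(n : ℂ)‖ ≤ (n : ℝ) := fun n => (Complex.norm_natCast n).le
  -- back to the jets
  have j1 : ‖A 1‖ ≤ 3 := by
    have : A 1 = aC1 ρ A + -((-ρ) ^ 1) := by rw [aC1]; ring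
    rw [this]; exact (plus a1 (neg (pw 1))).trans (by norm_num)
  have j2 : ‖A 2‖ ≤ 30 := by
    have : A 2 = aC2 ρ A + -((-ρ) ^ 2 + ((2 : ℕ) : ℂ) * A 1 * (-ρ) ^ 1) := by
      rw [aC2]; push_cast; ring
    rw [this]; exact (plus a2 (neg (plus (pw 2) (two (two (num 2) j1) (pw 1))))).trans (by norm_num)
  have j3 : ‖A 3‖ ≤ 300 := by
    have : A 3 = aC3 ρ A + -((-ρ) ^ 3 + ((3 : ℕ) : ℂ) * A 1 * (-ρ) ^ 2 +
        ((3 : ℕ) : ℂ) * A 2 * (-ρ) ^ 1) := by rw [aC3]; push_cast; ring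
    rw [this]
    exact (plus a3 (neg (plus (plus (pw 3) (two (two (num 3) j1) (pw 2)))
      (two (two (num 3) j2) (pw 1))))).trans (by norm_num)
  have j4 : ‖A 4‖ ≤ 3000 := by
    have : A 4 = aC4 ρ A + -((-ρ) ^ 4 + ((4 : ℕ) : ℂ) * A 1 * (-ρ) ^ 3 +
        ((6 : ℕ) : ℂ) * A 2 * (-ρ) ^ 2 + ((4 : ℕ) : ℂ) * A 3 * (-ρ) ^ 1) := by
      rw [aC4]; push_cast; ring
    rw [this]
    exact (plus a4 (neg (plus (plus (plus (pw 4) (two (two (num 4) j1) (pw 3)))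
      (two (two (num 6) j2) (pw 2))) (two (two (num 4) j3) (pw 1))))).trans (by norm_num)
  have j5 : ‖A 5‖ ≤ 30000 := by
    have : A 5 = aC5 ρ A + -((-ρ) ^ 5 + ((5 : ℕ) : ℂ) * A 1 * (-ρ) ^ 4 +
        ((10 : ℕ) : ℂ) * A 2 * (-ρ) ^ 3 + ((10 : ℕ) : ℂ) * A 3 * (-ρ) ^ 2 +
        ((5 : ℕ) : ℂ) * A 4 * (-ρ) ^ 1) := by rw [aC5]; push_cast; ring
    rw [this]
    exact (plus a5 (neg (plus (plus (plus (plus (pw 5) (two (two (num 5) j1) (pw 4)))
      (two (two (num 10) j2) (pw 3))) (two (two (num 10) j3) (pw 2)))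
      (two (two (num 5) j4) (pw 1))))).trans (by norm_num)
  have j6 : ‖A 6‖ ≤ 10 ^ 8 := by
    have : A 6 = aC6 ρ A + -((-ρ) ^ 6 + ((6 : ℕ) : ℂ) * A 1 * (-ρ) ^ 5 +
        ((15 : ℕ) : ℂ) * A 2 * (-ρ) ^ 4 + ((20 : ℕ) : ℂ) * A 3 * (-ρ) ^ 3 +
        ((15 : ℕ) : ℂ) * A 4 * (-ρ) ^ 2 + ((6 : ℕ) : ℂ) * A 5 * (-ρ) ^ 1) := by
      rw [aC6]; push_cast; ring
    rw [this]
    exact (plus a6 (neg (plus (plus (plus (plus (plus (pw 6) (two (two (num 6) j1) (pw 5)))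
      (two (two (num 15) j2) (pw 4))) (two (two (num 20) j3) (pw 3)))
      (two (two (num 15) j4) (pw 2))) (two (two (num 6) j5) (pw 1))))).trans (by norm_num)
  intro k hk
  obtain ⟨hk1, hk6⟩ := Finset.mem_Icc.1 hk
  interval_cases k
  all_goals linarith

end positivity

end Vale.Agent.P142
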