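import Vale.Agent.P142.Distortion

/-!
Logarithmic potentials of finite measures on the circle: atoms and exponential integrability.
-/

noncomputable section

open Set Filter MeasureTheory Metric
open scoped Topology Real ENNReal

namespace Vale.Agent.P142

/-- The unit circle, as a subtype of `ℂ`. -/
abbrev T := ↥(sphere (0 : ℂ) 1)

@[simp] lemma norm_T (η : T) : ‖(η : ℂ)‖ = 1 := norm_eq_of_mem_sphere η

/-- The nonnegative logarithmic kernel. -/
def ker (z : ℂ) (η : T) : ℝ := Real.log (2 / ‖z - η‖)

/-- The potential of a measure on the circle. -/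
def pot (π' : Measure T) (z : ℂ) : ℝ := ∫ η, ker z η ∂π'

variable {z : ℂ}

lemma dist_pos_of_mem_ball (hz : z ∈ ball (0 : ℂ) 1) (η : T) : 0 < ‖z - η‖ := by
  rw [norm_pos_iff, sub_ne_zero]
  rintro rfl
  simp at hz

lemma norm_sub_le_two (hz : z ∈ ball (0 : ℂ) 1) (η : T) : ‖z - η‖ ≤ 2 := by
  have := norm_sub_le z (η : ℂ)
  simp at hz this
  linarith

lemma ker_nonneg (hz : z ∈ ball (0 : ℂ) 1) (η : T) : 0 ≤ ker z η :=
  Real.log_nonneg ((one_le_div (dist_pos_of_mem_ball hz η)).2 (norm_sub_le_two hz η))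

lemma continuous_ker (hz : z ∈ ball (0 : ℂ) 1) : Continuous (ker z) :=
  (continuous_const.div ((continuous_const.sub continuous_subtype_val).norm)
    fun η => (dist_pos_of_mem_ball hz η).ne').log
      fun η => (div_pos two_pos (dist_pos_of_mem_ball hz η)).ne'

lemma integrable_of_cont {f : T → ℝ} (hf : Continuous f) (π' : Measure T)
    [IsFiniteMeasure π'] : Integrable f π' :=
  hf.integrable_of_hasCompactSupport (HasCompactSupport.of_compactSpace f)

lemma pot_eq (π' : Measure T) [IsFiniteMeasure π'] (hz : z ∈ ball (0 : ℂ) 1) :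
    pot π' z = π'.real univ * Real.log 2 - ∫ η, Real.log ‖z - (η : ℂ)‖ ∂π' := by
  have hc : Continuous fun η : T => Real.log ‖z - (η : ℂ)‖ :=
    ((continuous_const.sub continuous_subtype_val).norm).log
      fun η => (dist_pos_of_mem_ball hz η).ne'
  have : ∀ η, ker z η = Real.log 2 - Real.log ‖z - (η : ℂ)‖ := fun η =>
    Real.log_div two_ne_zero (dist_pos_of_mem_ball hz η).ne'
  simp only [pot, this]
  rw [integral_sub (integrable_const _) (integrable_of_cont hc π'), integral_const, smul_eq_mul]

lemma tendsto_pot_div (π' : Measure T) [IsFiniteMeasure π'] (ξ : T) {r : ℕ → ℝ}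
    (hr : ∀ n, r n ∈ Ico (0 : ℝ) 1) (hlim : Tendsto r atTop (𝓝 1)) :
    Tendsto (fun n => pot π' (r n * ξ) / Real.log (2 / (1 - r n))) atTop (𝓝 (π'.real {ξ})) := by
  have hL : Tendsto (fun n => Real.log (2 / (1 - r n))) atTop atTop := by
    refine Real.tendsto_log_atTop.comp ?_
    have h1 : Tendsto (fun n => 1 - r n) atTop (𝓝[>] 0) := by
      refine tendsto_nhdsWithin_iff.2 ⟨by simpa using hlim.const_sub 1,
        Eventually.of_forall fun n => sub_pos.2 (hr n).2⟩
    simp only [div_eq_mul_inv]
    exact (h1.inv_tendsto_nhdsGT_zero).const_mul_atTop two_pos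
  have hmem : ∀ n, (r n : ℂ) * ξ ∈ ball (0 : ℂ) 1 := fun n => by
    simp [abs_of_nonneg (hr n).1, (hr n).2]
  have hLpos : ∀ n, 0 < Real.log (2 / (1 - r n)) := fun n =>
    Real.log_pos ((one_lt_div (sub_pos.2 (hr n).2)).2 (by linarith [(hr n).1]))
  have hker : ∀ n η, ker (r n * ξ) η ≤ Real.log (2 / (1 - r n)) := by
    intro n η
    refine Real.log_le_log (div_pos two_pos (dist_pos_of_mem_ball (hmem n) η))
      (div_le_div_of_nonneg_left two_pos.le (sub_pos.2 (hr n).2) ?_)
    have := norm_sub_norm_le (η : ℂ) (r n * ξ)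
    rw [norm_sub_rev] at this
    simpa [abs_of_nonneg (hr n).1] using this
  have h := tendsto_integral_of_dominated_convergence (μ := π')
    (F := fun n η => ker (r n * ξ) η / Real.log (2 / (1 - r n)))
    (f := ({ξ} : Set T).indicator 1) (fun _ => (1 : ℝ))
    (fun n => ((continuous_ker (hmem n)).div_const _).aestronglyMeasurable)
    (integrable_const _)
    (fun n => Eventually.of_forall fun η => by
      rw [Real.norm_eq_abs, abs_of_nonneg (div_nonneg (ker_nonneg (hmem n) η) (hLpos n).le),
        div_le_one (hLpos n)]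
      exact hker n η)
    (Eventually.of_forall fun η => by
      rcases eq_or_ne η ξ with rfl | hne
      · simp only [mem_singleton_iff, indicator_of_mem, Pi.one_apply]
        refine tendsto_const_nhds.congr fun n => ?_
        have : ‖(r n : ℂ) * η - η‖ = 1 - r n := by
          rw [show (r n : ℂ) * η - η = -(((1 - r n : ℝ) : ℂ) * η) by push_cast; ring, norm_neg,
            norm_mul, Complex.norm_real, norm_T, mul_one, Real.norm_eq_abs,
            abs_of_pos (sub_pos.2 (hr n).2)]
        rw [ker, this, div_self (hLpos n).ne']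
      · rw [indicator_of_notMem (by simpa using hne)]
        have hne' : (ξ : ℂ) - η ≠ 0 := sub_ne_zero.2 fun h => hne (Subtype.ext h.symm)
        have ht : Tendsto (fun n => ker (r n * ξ) η) atTop (𝓝 (Real.log (2 / ‖(ξ : ℂ) - η‖))) := by
          have h1 : Tendsto (fun n => (r n : ℂ) * ξ) atTop (𝓝 (ξ : ℂ)) := by
            simpa using ((Complex.continuous_ofReal.tendsto 1).comp hlim).mul_const (ξ : ℂ)
          have h2 : ContinuousAt (fun w : ℂ => Real.log (2 / ‖w - η‖)) ξ :=
            ContinuousAt.log (ContinuousAt.div continuousAt_const (by fun_prop)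
              (norm_ne_zero_iff.2 hne')) (div_ne_zero two_ne_zero (norm_ne_zero_iff.2 hne'))
          exact h2.tendsto.comp h1
        exact ht.div_atTop hL)
  simp only [integral_div] at h
  rw [integral_indicator_one (measurableSet_singleton ξ)] at h
  exact h

/-- A radial bound controls the atoms. -/
lemma atom_le (π₁ π₂ : Measure T) [IsFiniteMeasure π₁] [IsFiniteMeasure π₂] (ξ : T)
    {k C : ℝ} (h : ∀ r ∈ Ico (0 : ℝ) 1,
      pot π₁ (r * ξ) - pot π₂ (r * ξ) ≤ k * Real.log (2 / (1 - r)) + C) :
    π₁.real {ξ} - π₂.real {ξ} ≤ k := by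
  set r : ℕ → ℝ := fun n => 1 - 1 / (n + 1 : ℝ) with hrdef
  have hr : ∀ n, r n ∈ Ico (0 : ℝ) 1 := fun n => by
    have h1 : 0 < 1 / ((n : ℝ) + 1) := by positivity
    have h2 : 1 / ((n : ℝ) + 1) ≤ 1 := (div_le_one (by positivity)).2 (by linarith [n.cast_nonneg (α := ℝ)])
    exact ⟨by simp only [r]; linarith, by simp only [r]; linarith⟩
  have hlim : Tendsto r atTop (𝓝 1) := by
    simpa [r, hrdef] using tendsto_one_div_add_atTop_nhds_zero_nat.const_sub (1 : ℝ)
  have hLpos : ∀ n, 0 < Real.log (2 / (1 - r n)) := fun n =>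
    Real.log_pos ((one_lt_div (sub_pos.2 (hr n).2)).2 (by linarith [(hr n).1]))
  have hL : Tendsto (fun n => Real.log (2 / (1 - r n))) atTop atTop := by
    refine Real.tendsto_log_atTop.comp ?_
    have : (fun n : ℕ => 2 / (1 - r n)) = fun n : ℕ => 2 * ((n : ℝ) + 1) := by
      funext n; simp [r]
    rw [this]
    exact (tendsto_atTop_add_const_right _ 1 tendsto_natCast_atTop_atTop).const_mul_atTop two_pos
  have hd := (tendsto_pot_div π₁ ξ hr hlim).sub (tendsto_pot_div π₂ ξ hr hlim)
  have hk : Tendsto (fun n => k + C / Real.log (2 / (1 - r n))) atTop (𝓝 k) := by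
    simpa using (hL.const_div_atTop C).const_add k
  refine le_of_tendsto_of_tendsto' hd hk fun n => ?_
  rw [div_sub_div_same, div_le_iff₀ (hLpos n), add_mul, div_mul_cancel₀ _ (hLpos n).ne']
  exact h _ (hr n)

lemma lintegral_pow_dist_lt_top {β : ℝ} (hβ : β < 2) :
    ∫⁻ w in ball (0 : ℂ) 2, ENNReal.ofReal ((2 / ‖w‖) ^ β) < ⊤ := by
  rw [← lintegral_indicator measurableSet_ball, ← Complex.lintegral_comp_polarCoord_symm]
  have heq : ∀ q ∈ polarCoord.target,
      ENNReal.ofReal q.1 • (ball (0 : ℂ) 2).indicator (fun w => ENNReal.ofReal ((2 / ‖w‖) ^ β))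
        (Complex.polarCoord.symm q) =
      (Ioo (0 : ℝ) 2 ×ˢ Ioo (-π) π).indicator
        (fun q : ℝ × ℝ => ENNReal.ofReal (2 ^ β * q.1 ^ (1 - β))) q := by
    rintro ⟨s, θ⟩ ⟨hs, hθ⟩
    simp only [mem_Ioi] at hs
    have hn : ‖Complex.polarCoord.symm (s, θ)‖ = s := by
      rw [Complex.norm_polarCoord_symm, abs_of_pos hs]
    by_cases h : s < 2
    · rw [indicator_of_mem (by rw [mem_ball, dist_zero_right, hn]; exact h),
        indicator_of_mem (show ((s, θ) : ℝ × ℝ) ∈ Ioo (0 : ℝ) 2 ×ˢ Ioo (-π) π from ⟨⟨hs, h⟩, hθ⟩),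
        hn, smul_eq_mul, ← ENNReal.ofReal_mul hs.le]
      congr 1
      simp only
      rw [Real.div_rpow two_pos.le hs.le, Real.rpow_sub hs, Real.rpow_one]
      field_simp
    · rw [indicator_of_notMem (by rw [mem_ball, dist_zero_right, hn]; exact h),
        indicator_of_notMem (fun hc : ((s, θ) : ℝ × ℝ) ∈ Ioo (0 : ℝ) 2 ×ˢ Ioo (-π) π => h hc.1.2),
        smul_zero]
  rw [setLIntegral_congr_fun polarCoord.open_target.measurableSet heq]
  refine lt_of_le_of_lt (setLIntegral_le_lintegral _ _) ?_
  rw [lintegral_indicator (measurableSet_Ioo.prod measurableSet_Ioo), Measure.volume_eq_prod,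
    ← Measure.prod_restrict, lintegral_prod _ (by fun_prop)]
  simp only [lintegral_const, Measure.restrict_apply MeasurableSet.univ, univ_inter,
    Real.volume_Ioo]
  rw [lintegral_mul_const' _ _ ENNReal.ofReal_ne_top]
  refine ENNReal.mul_lt_top ?_ ENNReal.ofReal_lt_top
  have hi : IntegrableOn (fun s : ℝ => 2 ^ β * s ^ (1 - β)) (Ioo 0 2) := by
    have := (intervalIntegral.intervalIntegrable_rpow' (a := (0 : ℝ)) (b := 2)
      (by linarith : (-1 : ℝ) < 1 - β)).const_mul (2 ^ β)
    rw [intervalIntegrable_iff_integrableOn_Ioo_of_le two_pos.le] at this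
    exact this
  exact hi.lintegral_lt_top

/-- The local estimate near a boundary point. -/
lemma local_bound (π₁ π₂ : Measure T) [IsFiniteMeasure π₁] [IsFiniteMeasure π₂] (ξ : T)
    {p k : ℝ} (hp : 0 ≤ p) (hk : 0 ≤ k) (hpk : p * k < 2)
    (hatom : π₁.real {ξ} - π₂.real {ξ} ≤ k) (C : ℝ) :
    ∃ δ > 0, ∫⁻ z in ball (0 : ℂ) 1 ∩ ball (ξ : ℂ) δ,
      ENNReal.ofReal (Real.exp (C + p * (pot π₁ z - pot π₂ z))) < ⊤ := by
  obtain ⟨ε, hε, hpε⟩ : ∃ ε > 0, p * (k + ε) < 2 := by
    refine ⟨(2 - p * k) / (2 * (p + 1)), by have := sub_pos.2 hpk; positivity, ?_⟩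
    have : p * ((2 - p * k) / (2 * (p + 1))) < 2 - p * k := by
      rw [mul_div_assoc', div_lt_iff₀ (by positivity)]
      nlinarith
    linarith
  -- a punctured arc of small mass
  let S : ℕ → Set T := fun n => {η | ‖(η : ℂ) - ξ‖ < 1 / (n + 1 : ℝ) ∧ η ≠ ξ}
  have hSm : ∀ n, MeasurableSet (S n) := fun n =>
    (((isOpen_lt (f := fun η : T => ‖(η : ℂ) - ξ‖) (g := fun _ => 1 / (n + 1 : ℝ)) (by fun_prop)
      continuous_const).inter (isOpen_ne (x := ξ))).measurableSet : _)
  obtain ⟨n, hn⟩ : ∃ n, π₁.real (S n) < ε := by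
    have h : Tendsto (fun n => π₁ (S n)) atTop (𝓝 (π₁ (⋂ n, S n))) := by
      refine tendsto_measure_iInter_atTop (fun n => (hSm n).nullMeasurableSet) ?_
        ⟨0, measure_ne_top _ _⟩
      intro a b hab η hη
      have hab' : (a : ℝ) ≤ b := Nat.cast_le.2 hab
      exact ⟨hη.1.trans_le (one_div_le_one_div_of_le (by positivity) (by linarith)), hη.2⟩
    have hempty : (⋂ n, S n) = ∅ := by
      refine eq_empty_iff_forall_notMem.2 fun η hη => ?_
      simp only [mem_iInter, S, mem_ofPred_eq] at hη
      have hpos : 0 < ‖(η : ℂ) - ξ‖ := norm_pos_iff.2 (sub_ne_zero.2 fun h => (hη 0).2 (Subtype.ext h))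
      obtain ⟨N, hN⟩ := exists_nat_one_div_lt hpos
      exact (hN.trans (hη N).1).false
    rw [hempty, measure_empty] at h
    have h' := (ENNReal.tendsto_toReal ENNReal.zero_ne_top).comp h
    exact ((h'.eventually (Iio_mem_nhds (by simpa using hε))).exists)
  set d : ℝ := 1 / (n + 1 : ℝ) with hd
  have hd0 : 0 < d := by positivity
  have hd1 : d ≤ 1 := (div_le_one (by positivity)).2 (by linarith [n.cast_nonneg (α := ℝ)])
  set M := k + ε with hM
  have hM0 : 0 < M := by positivity
  set π' : Measure T :=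
    π₁.restrict (S n) + ENNReal.ofReal (M - π₁.real (S n)) • Measure.dirac ξ with hπ'
  have : IsFiniteMeasure (ENNReal.ofReal (M - π₁.real (S n)) • Measure.dirac ξ) :=
    Measure.smul_finite _ ENNReal.ofReal_ne_top
  have hmass : π' univ = ENNReal.ofReal M := by
    rw [hπ', Measure.add_apply, Measure.restrict_apply_univ, Measure.smul_apply, measure_univ,
      smul_eq_mul, mul_one, ← ofReal_measureReal (measure_ne_top π₁ (S n)),
      ← ENNReal.ofReal_add measureReal_nonneg (by linarith)]
    congr 1; ring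
  set σ : Measure T := (ENNReal.ofReal M)⁻¹ • π' with hσ
  have : IsProbabilityMeasure σ := ⟨by
    rw [hσ, Measure.smul_apply, hmass, smul_eq_mul,
      ENNReal.inv_mul_cancel (by simp [hM0]) ENNReal.ofReal_ne_top]⟩
  set C0 := C + p * (π₁.real univ * Real.log (4 / d)) with hC0
  refine ⟨d / 2, by positivity, lt_of_le_of_lt (setLIntegral_mono' (g := fun z =>
    ∫⁻ η : T, ENNReal.ofReal (Real.exp C0) * ENNReal.ofReal ((2 / ‖z - (η : ℂ)‖) ^ (p * M)) ∂σ)
    (measurableSet_ball.inter measurableSet_ball) fun z hz => ?_) ?_⟩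
  · obtain ⟨hz1, hz2⟩ := hz
    have hki := integrable_of_cont (continuous_ker hz1)
    have hπ'pot : pot π' z = (∫ η in S n, ker z η ∂π₁) + (M - π₁.real (S n)) * ker z ξ := by
      rw [pot, hπ', integral_add_measure (hki _) (hki _), integral_smul_measure, integral_dirac,
        ENNReal.toReal_ofReal (by linarith), smul_eq_mul]
    have h1 : pot π₁ z ≤ π₁.real univ * Real.log (4 / d) + π₁.real {ξ} * ker z ξ
        + ∫ η in S n, ker z η ∂π₁ := by
      rw [pot, ← integral_add_compl (hSm n) (hki π₁)]
      have hsing : ∫ η in (S n)ᶜ, ker z η ∂π₁ ≤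
          π₁.real univ * Real.log (4 / d) + π₁.real {ξ} * ker z ξ := by
        have hint : Integrable (fun η => Real.log (4 / d)
            + ({ξ} : Set T).indicator (fun _ => ker z ξ) η) π₁ :=
          (integrable_const _).add ((integrable_const _).indicator (measurableSet_singleton ξ))
        have hnn : ∀ η, 0 ≤ Real.log (4 / d)
            + ({ξ} : Set T).indicator (fun _ => ker z ξ) η := fun η =>
          add_nonneg (Real.log_nonneg ((one_le_div hd0).2 (by linarith)))
            (indicator_nonneg (fun _ _ => ker_nonneg hz1 ξ) _)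
        refine le_trans (setIntegral_mono_on (hki π₁).integrableOn hint.integrableOn
          (hSm n).compl fun η hη => ?_) (le_trans (setIntegral_le_integral hint
            (Eventually.of_forall hnn)) ?_)
        · rcases eq_or_ne η ξ with rfl | hne
          · rw [indicator_of_mem (mem_singleton _)]
            have : (0 : ℝ) ≤ Real.log (4 / d) := Real.log_nonneg ((one_le_div hd0).2 (by linarith))
            linarith
          · rw [indicator_of_notMem (by simpa using hne), add_zero]
            have hfar : d ≤ ‖(η : ℂ) - ξ‖ := by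
              by_contra hlt
              exact hη ⟨not_le.1 hlt, hne⟩
            refine Real.log_le_log (div_pos two_pos (dist_pos_of_mem_ball hz1 η)) ?_
            have hzd : d / 2 ≤ ‖z - (η : ℂ)‖ := by
              have := norm_sub_le_norm_sub_add_norm_sub (η : ℂ) z ξ
              rw [mem_ball, dist_eq_norm] at hz2
              rw [norm_sub_rev (η : ℂ) z] at this
              linarith
            calc 2 / ‖z - (η : ℂ)‖ ≤ 2 / (d / 2) :=
                  div_le_div_of_nonneg_left two_pos.le (by positivity) hzd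
              _ = 4 / d := by ring
        · rw [integral_add (integrable_const _)
            ((integrable_const _).indicator (measurableSet_singleton ξ)), integral_const,
            integral_indicator (measurableSet_singleton ξ), setIntegral_const, smul_eq_mul,
            smul_eq_mul]
      linarith
    have h2 : π₂.real {ξ} * ker z ξ ≤ pot π₂ z := by
      have := setIntegral_le_integral (s := ({ξ} : Set T)) (hki π₂)
        (Eventually.of_forall fun η => ker_nonneg hz1 η)
      rwa [integral_singleton, smul_eq_mul] at this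
    have h3 : pot π₁ z - pot π₂ z ≤ π₁.real univ * Real.log (4 / d) + pot π' z := by
      rw [hπ'pot]
      have := mul_le_mul_of_nonneg_right
        (by linarith : π₁.real {ξ} - π₂.real {ξ} ≤ M - π₁.real (S n)) (ker_nonneg hz1 ξ)
      linarith
    have h4 : pot π' z = M * ∫ η, ker z η ∂σ := by
      rw [hσ, integral_smul_measure, pot, smul_eq_mul, ENNReal.toReal_inv,
        ENNReal.toReal_ofReal hM0.le]
      field_simp
    have hJ := convexOn_exp.map_integral_le (μ := σ) Real.continuous_exp.continuousOn isClosed_univ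
      (f := fun η => p * M * ker z η) (Eventually.of_forall fun η => mem_univ _)
      (integrable_of_cont (continuous_const.mul (continuous_ker hz1)) σ)
      (integrable_of_cont (Real.continuous_exp.comp
        (continuous_const.mul (continuous_ker hz1))) σ)
    rw [integral_const_mul] at hJ
    rw [lintegral_const_mul' _ _ ENNReal.ofReal_ne_top,
      ← ofReal_integral_eq_lintegral_ofReal ?hi (Eventually.of_forall fun η => by
        exact Real.rpow_nonneg (div_nonneg two_pos.le (norm_nonneg _)) _),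
      ← ENNReal.ofReal_mul (Real.exp_pos _).le]
    case hi =>
      exact integrable_of_cont ((continuous_const.div ((continuous_const.sub
        continuous_subtype_val).norm) fun η => (dist_pos_of_mem_ball hz1 η).ne').rpow_const
        fun η => Or.inl (div_pos two_pos (dist_pos_of_mem_ball hz1 η)).ne') σ
    refine ENNReal.ofReal_le_ofReal ?_
    calc Real.exp (C + p * (pot π₁ z - pot π₂ z))
        ≤ Real.exp C0 * Real.exp (p * M * ∫ η, ker z η ∂σ) := by
          rw [← Real.exp_add, Real.exp_le_exp, hC0, mul_assoc, ← h4]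
          nlinarith [mul_le_mul_of_nonneg_left h3 hp]
      _ ≤ Real.exp C0 * ∫ η : T, (2 / ‖z - η‖) ^ (p * M) ∂σ := by
          refine mul_le_mul_of_nonneg_left (hJ.trans_eq ?_) (Real.exp_pos _).le
          refine integral_congr_ae (Eventually.of_forall fun η => ?_)
          show Real.exp (p * M * ker z η) = (2 / ‖z - (η : ℂ)‖) ^ (p * M)
          rw [Real.rpow_def_of_pos (div_pos two_pos (dist_pos_of_mem_ball hz1 η)), ker,
            mul_comm]
  · rw [lintegral_lintegral_swap (by fun_prop)]
    refine lt_of_le_of_lt (lintegral_mono fun η : T => ?_)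
      (show ∫⁻ _ : T, (ENNReal.ofReal (Real.exp C0) *
        ∫⁻ w in ball (0 : ℂ) 2, ENNReal.ofReal ((2 / ‖w‖) ^ (p * M))) ∂σ < ⊤ by
        rw [lintegral_const, measure_univ, mul_one]
        exact ENNReal.mul_lt_top ENNReal.ofReal_lt_top (lintegral_pow_dist_lt_top hpε))
    rw [lintegral_const_mul' _ _ ENNReal.ofReal_ne_top]
    refine mul_le_mul' le_rfl ?_
    rw [← lintegral_indicator (measurableSet_ball.inter measurableSet_ball),
      ← lintegral_indicator measurableSet_ball,
      ← lintegral_sub_right_eq_self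
        ((ball (0 : ℂ) 2).indicator fun w => ENNReal.ofReal ((2 / ‖w‖) ^ (p * M))) (η : ℂ)]
    refine lintegral_mono fun z => ?_
    by_cases hzs : z ∈ ball (0 : ℂ) 1 ∩ ball (ξ : ℂ) (d / 2)
    · rw [indicator_of_mem hzs, indicator_of_mem]
      rw [mem_ball, dist_zero_right]
      have := norm_sub_le z (η : ℂ)
      have := mem_ball_zero_iff.1 hzs.1
      simp at *
      linarith
    · rw [indicator_of_notMem hzs]
      exact zero_le

/-- Integrability on the disc of a function dominated by the exponential of a potential. -/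
theorem integrableOn_of_le_exp_pot (π₁ π₂ : Measure T) [IsFiniteMeasure π₁]
    [IsFiniteMeasure π₂] {p k C : ℝ} (hp : 0 ≤ p) (hk : 0 ≤ k) (hpk : p * k < 2)
    (hatom : ∀ ξ : T, π₁.real {ξ} - π₂.real {ξ} ≤ k) {g : ℂ → ℝ}
    (hg : ContinuousOn g (ball 0 1)) (hg0 : ∀ z, 0 ≤ g z)
    (hle : ∀ z ∈ ball (0 : ℂ) 1, g z ≤ Real.exp (C + p * (pot π₁ z - pot π₂ z))) :
    IntegrableOn g (ball 0 1) := by
  refine ⟨hg.aestronglyMeasurable measurableSet_ball, ?_⟩
  rw [hasFiniteIntegral_iff_ofReal (Eventually.of_forall hg0)]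
  have key : ∫⁻ z in ball (0 : ℂ) 1 ∩ closedBall 0 1, ENNReal.ofReal (g z) < ⊤ := by
    refine (isCompact_closedBall (0 : ℂ) 1).induction_on
      (p := fun s => ∫⁻ z in ball (0 : ℂ) 1 ∩ s, ENNReal.ofReal (g z) < ⊤) (by simp)
      (fun s t hst ht => lt_of_le_of_lt (lintegral_mono_set (inter_subset_inter_right _ hst)) ht)
      (fun s t hs ht => ?_) fun z₀ hz₀ => ?_
    · rw [inter_union_distrib_left]
      exact lt_of_le_of_lt (lintegral_union_le _ _ _) (ENNReal.add_lt_top.2 ⟨hs, ht⟩)
    · by_cases hz : z₀ ∈ ball (0 : ℂ) 1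
      · obtain ⟨δ, hδ, hsub⟩ := Metric.nhds_basis_closedBall.mem_iff.1 (isOpen_ball.mem_nhds hz)
        refine ⟨closedBall z₀ δ, mem_nhdsWithin_of_mem_nhds (closedBall_mem_nhds _ hδ), ?_⟩
        refine lt_of_le_of_lt (lintegral_mono_set inter_subset_right) ?_
        exact ((hg.mono hsub).integrableOn_compact (isCompact_closedBall _ _)).lintegral_lt_top
      · have hn : ‖z₀‖ = 1 := by
          simp only [mem_closedBall, mem_ball, dist_zero_right, not_lt] at hz hz₀
          linarith
        obtain ⟨δ, hδ, hfin⟩ :=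
          local_bound π₁ π₂ ⟨z₀, by simp [hn]⟩ hp hk hpk (hatom _) C
        refine ⟨ball z₀ δ, mem_nhdsWithin_of_mem_nhds (ball_mem_nhds _ hδ), ?_⟩
        exact lt_of_le_of_lt (setLIntegral_mono' (measurableSet_ball.inter measurableSet_ball)
          fun z hz => ENNReal.ofReal_le_ofReal (hle z hz.1)) hfin
  rwa [inter_eq_left.2 ball_subset_closedBall] at key

end Vale.Agent.P142
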